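import Crest.Agent.R153.DTc2

/-!
Row 153 (S0218), piece DBits1.
Binary digits; the mixture with rational table.
-/

set_option autoImplicit false

open Finset MeasureTheory Filter
open Crest.ProbabilityR.Diluted
open Crest.Agent.R141

namespace Crest.Agent.R153

/-- Sums over functions `B → Bool` as sums over numbers. -/
theorem sum_bits {B : Type} [Fintype B] [DecidableEq B] {nB : ℕ} (eB : B ≃ Fin nB)
    (F : (B → Bool) → ℝ) :
    ∑ s : B → Bool, F s = ∑ s ∈ range (2 ^ nB), F (fun b => decide (bit s (eB b).val = 1)) := by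
  rw [← Fin.sum_univ_eq_sum_range (fun s => F (fun b => decide (bit s (eB b).val = 1)))]
  let e : (B → Bool) ≃ Fin (2 ^ nB) :=
    (Equiv.arrowCongr eB finTwoEquiv.symm).trans finFunctionFinEquiv
  refine (Fintype.sum_equiv e _ _ fun s => ?_)
  congr 1
  funext b
  have h1 : finFunctionFinEquiv.symm (e s) = (Equiv.arrowCongr eB finTwoEquiv.symm) s :=
    finFunctionFinEquiv.symm_apply_apply _
  have h2 : (finFunctionFinEquiv.symm (e s) (eB b)).val = bit (e s).val (eB b).val := rfl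
  rw [← h2, h1]
  simp only [Equiv.arrowCongr_apply, Function.comp_apply, Equiv.symm_apply_apply]
  cases s b <;> rfl

theorem bit_lt_two (s i : ℕ) : bit s i = 0 ∨ bit s i = 1 := by
  unfold bit
  omega

theorem mixC_eq {B : Type} [Fintype B] [DecidableEq B] (D r : ℕ) {nB : ℕ} (eB : B ≃ Fin nB)
    {Q den : ℕ} (hQ : 0 < Q) (hden : 0 < den) (τ : ℕ → ℕ)
    (hτ : ∀ c < (D + 1) ^ (r + 1), 0 < τ c ∧ τ c < Q) (V : (B → Bool) → ℝ) (Vn : ℕ → ℕ)
    (hV : ∀ s < 2 ^ nB, V (fun b => decide (bit s (eB b).val = 1)) = (Vn s : ℝ) / den) (C : ℕ) :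
    mixC D r eB (fun c => (τ c : ℝ) / Q) V C =
      (mixN D r nB Q τ Vn C : ℝ) / ((den * Q ^ nB : ℕ) : ℝ) := by
  unfold mixC mixN
  rw [sum_bits eB]
  push_cast
  rw [Finset.sum_div]
  refine Finset.sum_congr rfl fun s hs => ?_
  rw [hV s (Finset.mem_range.1 hs)]
  have hQ' : (Q : ℝ) ≠ 0 := by positivity
  have h1 : ∀ b : B, (if decide (bit s (eB b).val = 1) = true then
      (τ (pidx D r nB C (eB b).val) : ℝ) / Q else 1 - (τ (pidx D r nB C (eB b).val) : ℝ) / Q) =
      (tv Q (τ (pidx D r nB C (eB b).val)) (bit s (eB b).val) : ℝ) / Q := by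
    intro b
    have h2 := (hτ _ (pidx_lt D r nB C (eB b).val)).2
    unfold tv
    by_cases h : bit s (eB b).val = 1
    · simp [h]
    · simp only [h, decide_false, Bool.false_eq_true, if_false]
      rw [Nat.cast_sub h2.le]
      field_simp
  rw [Finset.prod_congr rfl fun b _ => h1 b]
  rw [Finset.prod_div_distrib, Finset.prod_const, Finset.card_univ, Fintype.card_congr eB,
    Fintype.card_fin]
  have h3 : ∏ b : B, (tv Q (τ (pidx D r nB C (eB b).val)) (bit s (eB b).val) : ℝ) =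
      ∏ b ∈ range nB, (tv Q (τ (pidx D r nB C b)) (bit s b) : ℝ) := by
    rw [← Fin.prod_univ_eq_prod_range (fun b => (tv Q (τ (pidx D r nB C b)) (bit s b) : ℝ))]
    exact Fintype.prod_equiv eB _ _ fun b => rfl
  rw [h3]
  have hden' : (den : ℝ) ≠ 0 := by positivity
  field_simp

theorem mixN_pos (D r nB : ℕ) {Q : ℕ} (τ : ℕ → ℕ)
    (hτ : ∀ c < (D + 1) ^ (r + 1), 0 < τ c ∧ τ c < Q) (Vn : ℕ → ℕ)
    (hV : ∀ s < 2 ^ nB, 0 < Vn s) (C : ℕ) : 0 < mixN D r nB Q τ Vn C := by
  unfold mixN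
  refine Finset.sum_pos (fun s hs => Nat.mul_pos (hV s (Finset.mem_range.1 hs))
    (Finset.prod_pos fun b _ => ?_)) ⟨0, Finset.mem_range.2 (by positivity)⟩
  have h := hτ _ (pidx_lt D r nB C b)
  unfold tv
  split_ifs
  · exact h.1
  · omega

end Crest.Agent.R153
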