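import Crest.Agent.R153.DDefs

/-!
Row 153 (S0218), piece DBits2.
The local weights of soft 3-SAT (satInter is log rho on the violating pattern, exp gives rho = 1/R).
-/

set_option autoImplicit false

open Finset MeasureTheory Filter
open Crest.ProbabilityR.Diluted
open Crest.Agent.R141

namespace Crest.Agent.R153

namespace DBits2aux

theorem bit_lt (n i : ℕ) : bit n i < 2 := Nat.mod_lt _ (by norm_num)

theorem dec_iff {a b : ℕ} (ha : a < 2) (hb : b < 2) :
    (decide (a = 1) = decide (b = 1)) ↔ a = b := by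
  interval_cases a <;> interval_cases b <;> simp

theorem exp_sat {R : ℕ} (hR : 2 ≤ R) (J s : Fin 3 → Bool) :
    Real.exp (satInter 3 (1 / (R : ℝ)) J s) = ((if s = J then 1 else R : ℕ) : ℝ) / R := by
  have hR0 : (0 : ℝ) < R := by exact_mod_cast (by omega : 0 < R)
  unfold satInter
  split_ifs with h
  · rw [Real.exp_log (by positivity)]; simp
  · rw [Real.exp_zero, div_self hR0.ne']

theorem term {k R : ℕ} (hR : 2 ≤ R) (J s : ℕ) (ε : Bool) (e : ℕ) (he : e < 2)
    (hεe : ε = decide (e = 1)) (x : ℝ) :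
    Real.exp (0 * x + ∑ j : Fin k, satInter 3 (1 / (R : ℝ)) (pat J j.val)
      (P.ext (p := 3) (fun ℓ => decide (bit s (siteE k (j, ℓ)).val = 1)) ε)) =
    ((∏ j ∈ range k,
      if bit s (j * 2) = bit J (j * 3) ∧ bit s (j * 2 + 1) = bit J (j * 3 + 1) ∧
        e = bit J (j * 3 + 2) then 1 else R : ℕ) : ℝ) / (R : ℝ) ^ k := by
  rw [zero_mul, zero_add, Real.exp_sum, Finset.prod_range]
  push_cast
  rw [← Fin.prod_const, ← Finset.prod_div_distrib]
  refine Finset.prod_congr rfl fun j _ => ?_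
  rw [exp_sat hR]
  congr 1
  have hiff : (P.ext (p := 3) (fun ℓ => decide (bit s (siteE k (j, ℓ)).val = 1)) ε = pat J j.val) ↔
      (bit s (j * 2) = bit J (j * 3) ∧ bit s (j * 2 + 1) = bit J (j * 3 + 1) ∧
        e = bit J (j * 3 + 2)) := by
    rw [funext_iff, Fin.forall_fin_succ, Fin.forall_fin_succ, Fin.forall_fin_one]
    have v0 : ((siteE k (j, (0 : Fin 2))) : ℕ) = j * 2 := by
      simp [siteE, finProdFinEquiv, mul_comm]
    have v1 : ((siteE k (j, (1 : Fin 2))) : ℕ) = j * 2 + 1 := by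
      simp [siteE, finProdFinEquiv, mul_comm, add_comm]
    refine and_congr ?_ (and_congr ?_ ?_)
    · rw [← dec_iff (bit_lt _ _) (bit_lt _ _), ← v0]
      rfl
    · rw [← dec_iff (bit_lt _ _) (bit_lt _ _), ← v1]
      rfl
    · rw [← dec_iff he (bit_lt _ _), ← hεe]
      rfl
  by_cases h : (bit s (j * 2) = bit J (j * 3) ∧ bit s (j * 2 + 1) = bit J (j * 3 + 1) ∧
        e = bit J (j * 3 + 2))
  · rw [if_pos h, if_pos (hiff.2 h)]; simp
  · rw [if_neg h, if_neg (fun h' => h (hiff.1 h'))]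

end DBits2aux

open DBits2aux in
theorem siteV_sat (k : ℕ) {R : ℕ} (hR : 2 ≤ R) (J s : ℕ) :
    Crest.Agent.R141.P.siteV (p := 3) 0
      (fun j : Fin k => satInter 3 (1 / (R : ℝ)) (pat J j.val))
      (fun b => decide (bit s (siteE k b).val = 1)) =
      (siteN k R J s : ℝ) / ((2 * R ^ k : ℕ) : ℝ) := by
  have hR0 : (0 : ℝ) < R := by exact_mod_cast (by omega : 0 < R)
  unfold P.siteV siteN
  rw [Fintype.sum_bool, Finset.sum_range_succ, Finset.sum_range_succ, Finset.sum_range_zero,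
    zero_add]
  rw [term hR J s true 1 (by norm_num) (by simp), term hR J s false 0 (by norm_num) (by simp)]
  rw [Nat.cast_add, Nat.cast_mul, Nat.cast_pow, Nat.cast_ofNat]
  field_simp
  ring

open DBits2aux in
theorem edgeV_sat {R : ℕ} (hR : 2 ≤ R) (J s : ℕ) :
    Crest.Agent.R141.P.edgeV (satInter 3 (1 / (R : ℝ)) (pat J 0))
      (fun i : Fin 3 => decide (bit s ((Equiv.refl (Fin 3)) i).val = 1)) =
      (edgeN R J s : ℝ) / (R : ℝ) := by
  unfold P.edgeV edgeN
  rw [exp_sat hR]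
  congr 1
  have hiff : ((fun i : Fin 3 => decide (bit s ((Equiv.refl (Fin 3)) i).val = 1)) = pat J 0) ↔
      (bit s 0 = bit J 0 ∧ bit s 1 = bit J 1 ∧ bit s 2 = bit J 2) := by
    rw [funext_iff, Fin.forall_fin_succ, Fin.forall_fin_succ, Fin.forall_fin_one]
    refine and_congr ?_ (and_congr ?_ ?_)
    · rw [← dec_iff (bit_lt _ _) (bit_lt _ _)]
      rfl
    · rw [← dec_iff (bit_lt _ _) (bit_lt _ _)]
      rfl
    · rw [← dec_iff (bit_lt _ _) (bit_lt _ _)]
      rfl
  by_cases h : (bit s 0 = bit J 0 ∧ bit s 1 = bit J 1 ∧ bit s 2 = bit J 2)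
  · rw [if_pos h, if_pos (hiff.2 h)]
  · rw [if_neg h, if_neg (fun h' => h (hiff.1 h'))]

end Crest.Agent.R153
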