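import Crest.Agent.R153.DDefs

/-!
Row 153 (S0218), piece DCell1.
Cells of [0,1]: push-forward of the uniform measure.
-/

set_option autoImplicit false

open Finset MeasureTheory Filter
open Crest.ProbabilityR.Diluted
open Crest.Agent.R141

namespace Crest.Agent.R153

variable {B : Type} [Fintype B] [DecidableEq B]

theorem measurable_cell (D : ℕ) : Measurable (cell D) := by
  have h1 : Measurable fun u : unitInterval => ⌊((D : ℝ) + 1) * (u : ℝ)⌋₊ :=
    Nat.measurable_floor.comp (measurable_subtype_coe.const_mul _)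
  have h2 : Measurable (fun n : ℕ => (⟨min n D, by omega⟩ : Fin (D + 1))) :=
    Measurable.of_discrete
  exact h2.comp h1

/-- The preimage of a cell that is not the last one. -/
theorem dcell1_pre_lt (D : ℕ) (a : Fin (D + 1)) (ha : a.val < D) (u : unitInterval) :
    cell D u = a ↔ (a.val : ℝ) / (D + 1) ≤ (u : ℝ) ∧ (u : ℝ) < ((a.val : ℝ) + 1) / (D + 1) := by
  have hD : (0 : ℝ) < (D : ℝ) + 1 := by positivity
  have hu0 : (0 : ℝ) ≤ ((D : ℝ) + 1) * (u : ℝ) := mul_nonneg hD.le u.2.1
  rw [Fin.ext_iff]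
  show min ⌊((D : ℝ) + 1) * (u : ℝ)⌋₊ D = a.val ↔ _
  have h1 : min ⌊((D : ℝ) + 1) * (u : ℝ)⌋₊ D = a.val ↔ ⌊((D : ℝ) + 1) * (u : ℝ)⌋₊ = a.val := by
    omega
  rw [h1, Nat.floor_eq_iff hu0, div_le_iff₀ hD, lt_div_iff₀ hD]
  constructor
  · rintro ⟨h2, h3⟩
    constructor <;> linarith [mul_comm ((D : ℝ) + 1) (u : ℝ)]
  · rintro ⟨h2, h3⟩
    constructor <;> linarith [mul_comm ((D : ℝ) + 1) (u : ℝ)]

/-- The preimage of the last cell. -/
theorem dcell1_pre_last (D : ℕ) (a : Fin (D + 1)) (ha : a.val = D) (u : unitInterval) :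
    cell D u = a ↔ (D : ℝ) / (D + 1) ≤ (u : ℝ) := by
  have hD : (0 : ℝ) < (D : ℝ) + 1 := by positivity
  have hu0 : (0 : ℝ) ≤ ((D : ℝ) + 1) * (u : ℝ) := mul_nonneg hD.le u.2.1
  rw [Fin.ext_iff]
  show min ⌊((D : ℝ) + 1) * (u : ℝ)⌋₊ D = a.val ↔ _
  have h1 : min ⌊((D : ℝ) + 1) * (u : ℝ)⌋₊ D = a.val ↔ D ≤ ⌊((D : ℝ) + 1) * (u : ℝ)⌋₊ := by
    omega
  rw [h1, Nat.le_floor_iff hu0, div_le_iff₀ hD, mul_comm]

theorem dcell1_vol (D : ℕ) (a : Fin (D + 1)) :
    (volume : Measure unitInterval) (cell D ⁻¹' {a}) = ((D : ENNReal) + 1)⁻¹ := by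
  have hD : (0 : ℝ) < (D : ℝ) + 1 := by positivity
  have hcast : ((D : ENNReal) + 1)⁻¹ = ENNReal.ofReal (1 / ((D : ℝ) + 1)) := by
    rw [one_div, ENNReal.ofReal_inv_of_pos hD, ENNReal.ofReal_add (by positivity) (by norm_num)]
    simp
  rcases Nat.lt_or_ge a.val D with ha | ha
  · have ha1 : (a.val : ℝ) + 1 ≤ D := by exact_mod_cast ha
    have hx0 : (0 : ℝ) ≤ (a.val : ℝ) / (D + 1) := by positivity
    have hy1 : ((a.val : ℝ) + 1) / (D + 1) ≤ 1 := by
      rw [div_le_one hD]; linarith
    have hxy : (a.val : ℝ) / (D + 1) ≤ ((a.val : ℝ) + 1) / (D + 1) := by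
      gcongr; linarith
    set x : unitInterval := ⟨(a.val : ℝ) / (D + 1), hx0, hxy.trans hy1⟩ with hx
    set y : unitInterval := ⟨((a.val : ℝ) + 1) / (D + 1), hx0.trans hxy, hy1⟩ with hy
    have hset : cell D ⁻¹' {a} = Set.Ico x y := by
      ext u
      simp only [Set.mem_preimage, Set.mem_singleton_iff, Set.mem_Ico]
      rw [dcell1_pre_lt D a ha u]
      rfl
    rw [hset, unitInterval.volume_Ico, hcast]
    congr 1
    show ((a.val : ℝ) + 1) / (D + 1) - (a.val : ℝ) / (D + 1) = _
    rw [← sub_div]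
    congr 1
    ring
  · have ha' : a.val = D := by omega
    have hx0 : (0 : ℝ) ≤ (D : ℝ) / (D + 1) := by positivity
    have hx1 : (D : ℝ) / (D + 1) ≤ 1 := by
      rw [div_le_one hD]; linarith
    set x : unitInterval := ⟨(D : ℝ) / (D + 1), hx0, hx1⟩ with hx
    have hset : cell D ⁻¹' {a} = Set.Ici x := by
      ext u
      simp only [Set.mem_preimage, Set.mem_singleton_iff, Set.mem_Ici]
      rw [dcell1_pre_last D a ha' u]
      rfl
    rw [hset, unitInterval.volume_Ici, hcast]
    congr 1
    show 1 - (D : ℝ) / (D + 1) = _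
    field_simp
    ring

/-- The cells are equally likely. -/
theorem map_cell (D : ℕ) :
    (volume : Measure unitInterval).map (cell D) = unif (Fin (D + 1)) := by
  refine Measure.ext_of_singleton fun a => ?_
  rw [Measure.map_apply (measurable_cell D) (MeasurableSet.singleton a), dcell1_vol,
    unif_singleton]
  simp

/-- One level of all labels. -/
theorem int_cells_level (D : ℕ) (F : (B → Fin (D + 1)) → ℝ) :
    ∫ v, F (fun b => cell D (v b)) ∂(Measure.pi fun _ : B => (volume : Measure unitInterval)) =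
      (Fintype.card (B → Fin (D + 1)) : ℝ)⁻¹ * ∑ v, F v := by
  have h1 : (Measure.pi fun _ : B => (volume : Measure unitInterval)).map
      (fun v b => cell D (v b)) = unif (B → Fin (D + 1)) := by
    have : IsProbabilityMeasure ((volume : Measure unitInterval).map (cell D)) :=
      Measure.isProbabilityMeasure_map (measurable_cell D).aemeasurable
    rw [Measure.pi_map_pi (fun _ => (measurable_cell D).aemeasurable), ← pi_unif, map_cell]
  have hm : Measurable (fun (v : B → unitInterval) b => cell D (v b)) :=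
    measurable_pi_lambda _ fun b => (measurable_cell D).comp (measurable_pi_apply b)
  rw [← integral_unif, ← h1, integral_map hm.aemeasurable]
  exact (Measurable.of_discrete).aestronglyMeasurable

/-- The level-`0` cells of all labels. -/
theorem int_cells_zero (D r : ℕ) (F : (B → Fin (D + 1)) → ℝ) :
    ∫ u, F (fun b => cell D (u b 0)) ∂(uniformArrays B r) =
      (Fintype.card (B → Fin (D + 1)) : ℝ)⁻¹ * ∑ v, F v := by
  have hmp : MeasurePreserving (fun (u : B → Fin (r + 1) → unitInterval) (b : B) => u b 0)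
      (uniformArrays B r) (Measure.pi fun _ : B => (volume : Measure unitInterval)) := by
    unfold uniformArrays
    exact measurePreserving_pi (fun _ : B => Measure.pi fun _ : Fin (r + 1) =>
      (volume : Measure unitInterval)) (fun _ : B => (volume : Measure unitInterval))
      (f := fun _ u => u 0)
      (fun _ => measurePreserving_eval (fun _ : Fin (r + 1) => (volume : Measure unitInterval)) 0)
  have hm : Measurable (fun (v : B → unitInterval) => F (fun b => cell D (v b))) :=
    (Measurable.of_discrete (f := F)).comp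
      (measurable_pi_lambda _ fun b => (measurable_cell D).comp (measurable_pi_apply b))
  rw [← int_cells_level D F, ← hmp.map_eq, integral_map hmp.measurable.aemeasurable]
  exact hm.aestronglyMeasurable

end Crest.Agent.R153
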