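import Crest.Agent.R153.DDefs

/-!
Row 153 (S0218), piece DCell2.
Codes (digits in base S), the table trial.
-/

set_option autoImplicit false

open Finset MeasureTheory Filter
open Crest.ProbabilityR.Diluted
open Crest.Agent.R141

namespace Crest.Agent.R153

theorem codeOf_zero (S : ℕ) (f : ℕ → ℕ) : codeOf S f 0 = f 0 := by
  simp [codeOf]

theorem codeOf_succ (S : ℕ) (f : ℕ → ℕ) (d : ℕ) :
    codeOf S f (d + 1) = codeOf S f d * S + f (d + 1) := by
  unfold codeOf
  rw [Finset.sum_range_succ (n := d + 1), Nat.sub_self, pow_zero, mul_one, Finset.sum_mul]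
  congr 1
  refine Finset.sum_congr rfl fun i hi => ?_
  have hi' : i ≤ d := by simpa [Nat.lt_succ_iff] using hi
  rw [Nat.succ_sub hi', pow_succ, mul_assoc]

theorem codeOf_congr (S : ℕ) (f g : ℕ → ℕ) (d : ℕ) (h : ∀ i ≤ d, f i = g i) :
    codeOf S f d = codeOf S g d := by
  unfold codeOf
  refine Finset.sum_congr rfl fun i hi => ?_
  rw [h i (by simpa [Nat.lt_succ_iff] using hi)]

theorem codeOf_lt {S : ℕ} (f : ℕ → ℕ) (d : ℕ) (h : ∀ i ≤ d, f i < S) :
    codeOf S f d < S ^ (d + 1) := by
  induction d with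
  | zero => rw [codeOf_zero]; simpa using h 0 le_rfl
  | succ d ih =>
    rw [codeOf_succ, pow_succ]
    have h1 := ih fun i hi => h i (by omega)
    have h2 := h (d + 1) le_rfl
    calc codeOf S f d * S + f (d + 1) < codeOf S f d * S + S := by omega
      _ = (codeOf S f d + 1) * S := by ring
      _ ≤ S ^ (d + 1) * S := Nat.mul_le_mul_right _ h1

/-- Digits of a code. -/
theorem codeOf_digit {S : ℕ} (f : ℕ → ℕ) (d : ℕ) (h : ∀ i ≤ d, f i < S) {i : ℕ} (hi : i ≤ d) :
    codeOf S f d / S ^ (d - i) % S = f i := by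
  induction d with
  | zero =>
    have : i = 0 := by omega
    subst this
    rw [codeOf_zero]
    simpa using Nat.mod_eq_of_lt (h 0 le_rfl)
  | succ d ih =>
    have hS : 0 < S := lt_of_le_of_lt (Nat.zero_le _) (h 0 (Nat.zero_le _))
    rw [codeOf_succ]
    rcases Nat.lt_or_ge i (d + 1) with h1 | h1
    · have h2 : i ≤ d := by omega
      have h3 := ih (fun j hj => h j (by omega)) h2
      rw [Nat.succ_sub h2, pow_succ, mul_comm (S ^ (d - i)) S, ← Nat.div_div_eq_div_mul]
      have h4 : (codeOf S f d * S + f (d + 1)) / S = codeOf S f d := by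
        rw [mul_comm, Nat.mul_add_div hS, Nat.div_eq_of_lt (h (d + 1) le_rfl), add_zero]
      rw [h4, h3]
    · have h2 : i = d + 1 := by omega
      subst h2
      rw [Nat.sub_self, pow_zero, Nat.div_one, mul_comm, Nat.mul_add_mod]
      exact Nat.mod_eq_of_lt (h (d + 1) le_rfl)

theorem pcode_lt (D : ℕ) {r : ℕ} (x : Fin (r + 1) → unitInterval) :
    pcode D x < (D + 1) ^ (r + 1) := by
  unfold pcode
  refine codeOf_lt _ _ fun i _ => ?_
  split
  · exact (cell D _).isLt
  · omega

theorem measurable_cell_val (D : ℕ) : Measurable fun u : unitInterval => (cell D u).val := by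
  unfold cell
  have h1 : Measurable fun u : unitInterval => ⌊((D : ℝ) + 1) * (u : ℝ)⌋₊ :=
    Nat.measurable_floor.comp (measurable_const.mul measurable_subtype_coe)
  exact h1.min measurable_const

theorem measurable_pcode (D r : ℕ) :
    Measurable (pcode D : (Fin (r + 1) → unitInterval) → ℕ) := by
  unfold pcode codeOf
  refine Finset.measurable_sum _ fun i _ => ?_
  refine Measurable.mul_const ?_ _
  by_cases h : i < r + 1
  · simp only [h, dite_true]
    exact (measurable_cell_val D).comp (measurable_pi_apply _)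
  · simp only [h, dite_false]
    exact measurable_const

theorem measurable_Xtab (D r : ℕ) (τ : ℕ → ℝ) : Measurable (Xtab D r τ) := by
  unfold Xtab
  exact (measurable_from_nat (f := fun c => (1 / 2) * Real.log (τ c / (1 - τ c)))).comp
    (measurable_pcode D r)

theorem tilt_half_log {a : ℝ} (h0 : 0 < a) (h1 : a < 1) (s : Bool) :
    tilt ((1 / 2) * Real.log (a / (1 - a))) s = if s then a else 1 - a := by
  have h2 : 0 < 1 - a := by linarith
  set y : ℝ := (1 / 2) * Real.log (a / (1 - a)) with hy
  have e1 : Real.exp y * Real.exp y = a / (1 - a) := by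
    rw [← Real.exp_add, hy]
    have : 1 / 2 * Real.log (a / (1 - a)) + 1 / 2 * Real.log (a / (1 - a)) =
        Real.log (a / (1 - a)) := by ring
    rw [this, Real.exp_log (by positivity)]
  have e2 : Real.exp y * Real.exp (-y) = 1 := by rw [← Real.exp_add]; simp
  have hp := Real.exp_pos y
  have hn := Real.exp_pos (-y)
  have e3 : Real.exp y * Real.exp y * (1 - a) = a := by
    rw [e1]; field_simp
  have e4 : Real.exp y * (Real.exp y * (1 - a) - Real.exp (-y) * a) = 0 := by
    linear_combination e3 - a * e2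
  have e5 : Real.exp y * (1 - a) = Real.exp (-y) * a := by
    rcases mul_eq_zero.mp e4 with h | h
    · exact absurd h hp.ne'
    · linarith
  unfold tilt
  rw [Real.cosh_eq]
  have hs : 0 < 2 * ((Real.exp y + Real.exp (-y)) / 2) := by positivity
  rw [div_eq_iff hs.ne']
  cases s
  · simp only [spinVal, Bool.false_eq_true, if_false, mul_neg, mul_one]
    linarith
  · simp only [spinVal, if_true, mul_one]
    linarith

theorem tilt_Xtab (D r : ℕ) (τ : ℕ → ℝ) (hτ : ∀ c < (D + 1) ^ (r + 1), 0 < τ c ∧ τ c < 1)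
    (x : Fin (r + 1) → unitInterval) (s : Bool) :
    tilt (Xtab D r τ x) s = if s then τ (pcode D x) else 1 - τ (pcode D x) := by
  have h := hτ _ (pcode_lt D x)
  exact tilt_half_log h.1 h.2 s

end Crest.Agent.R153
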