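import Crest.Agent.R153.DTc2
import Crest.Agent.R153.DBits1
import Crest.Agent.R153.DBits2

/-!
Row 153 (S0218), piece DCert1.
Values of a rational table trial: trialVal_tab + mixC_eq + siteV_sat/edgeV_sat.
-/

set_option autoImplicit false

open Finset MeasureTheory Filter
open Crest.ProbabilityR.Diluted
open Crest.Agent.R141

namespace Crest.Agent.R153

theorem exQ_adm {r D P Q : ℕ} {p τ : ℕ → ℕ} (h : TrialOk r D P Q p τ) :
    AdmissibleExponents (exQ P r p) := by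
  have hP : (0 : ℝ) < P := by exact_mod_cast h.hP
  refine ⟨?_, fun d => ⟨?_, ?_⟩⟩
  · have key : ∀ b : ℕ, b < r → ∀ a : ℕ, a < b → p a < p b := by
      intro b
      induction b with
      | zero => intro _ a ha; omega
      | succ b ih =>
        intro hb a ha
        have h1 := h.hpm b (by omega) hb
        rcases Nat.lt_succ_iff_lt_or_eq.1 ha with h2 | h2
        · exact (ih (by omega) a h2).trans h1
        · rw [h2]; exact h1
    intro a b hab
    have h1 := key b.val b.isLt a.val hab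
    unfold exQ
    exact div_lt_div_of_pos_right (by exact_mod_cast h1) hP
  · unfold exQ
    have := (h.hp d.val d.isLt).1
    exact div_pos (by exact_mod_cast this) hP
  · unfold exQ
    have := (h.hp d.val d.isLt).2
    rw [div_lt_one hP]
    exact_mod_cast this

theorem DC1aux_tau {r D P Q : ℕ} {p τ : ℕ → ℕ} (h : TrialOk r D P Q p τ) :
    ∀ c < (D + 1) ^ (r + 1), 0 < (fun c => (τ c : ℝ) / Q) c ∧ (fun c => (τ c : ℝ) / Q) c < 1 := by
  intro c hc
  have hQ : (0 : ℝ) < Q := by exact_mod_cast h.hQ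
  obtain ⟨h1, h2⟩ := h.hτ c hc
  refine ⟨div_pos (by exact_mod_cast h1) hQ, ?_⟩
  show (τ c : ℝ) / Q < 1
  rw [div_lt_one hQ]
  exact_mod_cast h2

/-- Site values of a rational trial. -/
theorem siteAv_tab {r D P Q : ℕ} {p τ : ℕ → ℕ} (h : TrialOk r D P Q p τ) {R : ℕ} (hR : 2 ≤ R)
    (k : ℕ) :
    siteAv (1 / (R : ℝ)) (exQ P r p) (tabQ D r Q τ) k =
      (((8 ^ k : ℕ)) : ℝ)⁻¹ * ∑ J ∈ range (8 ^ k), ((((D + 1) ^ (k * 2) : ℕ)) : ℝ)⁻¹ *
        ∑ C ∈ range ((D + 1) ^ (k * 2)), Real.log (Tc ((D + 1) ^ (k * 2)) r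
          (fun d => (p d : ℝ) / P) (fun C => (mixN D r (k * 2) Q τ (siteN k R J) C : ℝ) /
            ((2 * R ^ k * Q ^ (k * 2) : ℕ) : ℝ)) r C) := by
  unfold siteAv tabQ
  congr 1
  refine Finset.sum_congr rfl fun J _ => ?_
  have hR0 : 0 < 2 * R ^ k := by positivity
  have h1 := trialVal_tab D r (siteE k) (exQ P r p) (fun d => (p d : ℝ) / P) (fun i => rfl)
    (fun c => (τ c : ℝ) / Q) (DC1aux_tau h)
    (Crest.Agent.R141.P.siteV (p := 3) 0
      (fun j : Fin k => satInter 3 (1 / (R : ℝ)) (pat J j.val)))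
  refine h1.trans ?_
  have h2 : mixC D r (siteE k) (fun c => (τ c : ℝ) / Q)
      (Crest.Agent.R141.P.siteV (p := 3) 0
        (fun j : Fin k => satInter 3 (1 / (R : ℝ)) (pat J j.val))) =
      fun C => (mixN D r (k * 2) Q τ (siteN k R J) C : ℝ) /
        ((2 * R ^ k * Q ^ (k * 2) : ℕ) : ℝ) := by
    funext C
    exact mixC_eq D r (siteE k) h.hQ hR0 τ h.hτ _ (siteN k R J)
      (fun s _ => siteV_sat k hR J s) C
  rw [h2]

/-- Edge values of a rational trial. -/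
theorem edgeAv_tab {r D P Q : ℕ} {p τ : ℕ → ℕ} (h : TrialOk r D P Q p τ) {R : ℕ} (hR : 2 ≤ R) :
    edgeAv (1 / (R : ℝ)) (exQ P r p) (tabQ D r Q τ) =
      (8 : ℝ)⁻¹ * ∑ J ∈ range 8, ((((D + 1) ^ 3 : ℕ)) : ℝ)⁻¹ *
        ∑ C ∈ range ((D + 1) ^ 3), Real.log (Tc ((D + 1) ^ 3) r
          (fun d => (p d : ℝ) / P) (fun C => (mixN D r 3 Q τ (edgeN R J) C : ℝ) /
            ((R * Q ^ 3 : ℕ) : ℝ)) r C) := by
  unfold edgeAv tabQ
  congr 1
  refine Finset.sum_congr rfl fun J _ => ?_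
  have h1 := trialVal_tab D r (Equiv.refl (Fin 3)) (exQ P r p) (fun d => (p d : ℝ) / P)
    (fun i => rfl) (fun c => (τ c : ℝ) / Q) (DC1aux_tau h)
    (Crest.Agent.R141.P.edgeV (satInter 3 (1 / (R : ℝ)) (pat J 0)))
  refine h1.trans ?_
  have h2 : mixC D r (Equiv.refl (Fin 3)) (fun c => (τ c : ℝ) / Q)
      (Crest.Agent.R141.P.edgeV (satInter 3 (1 / (R : ℝ)) (pat J 0))) =
      fun C => (mixN D r 3 Q τ (edgeN R J) C : ℝ) / ((R * Q ^ 3 : ℕ) : ℝ) := by
    funext C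
    exact mixC_eq D r (Equiv.refl (Fin 3)) h.hQ (by omega) τ h.hτ _ (edgeN R J)
      (fun s _ => edgeV_sat hR J s) C
  rw [h2]

end Crest.Agent.R153
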