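import Crest.Agent.R153.DBits1

/-!
Row 153 (S0218), piece DSat1.
The trial functional of the soft 3-SAT law (use P.trialFunctional_eq, integral_satLaw / integral_pi_satLaw of VT4; satLaw is the push-forward of a finite uniform measure, so prove first a version of integral_pi_satLaw without measurability of F: every function is AEStronglyMeasurable for a finite sum of Dirac masses).
-/

set_option autoImplicit false

open Finset MeasureTheory Filter
open Crest.ProbabilityR.Diluted
open Crest.Agent.R141

namespace Crest.Agent.R153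

/-- Integration against the image of a finite uniform law, without measurability. -/
theorem integral_map_unif {A B : Type} [Fintype A] [MeasurableSpace A]
    [MeasurableSingletonClass A] [MeasurableSpace B] [MeasurableSingletonClass B]
    (g : A → B) (F : B → ℝ) :
    ∫ y, F y ∂((unif A).map g) = (Fintype.card A : ℝ)⁻¹ * ∑ a, F (g a) := by
  classical
  have hg : Measurable g := Measurable.of_discrete
  have hS : MeasurableSet (Set.range g) := (Set.finite_range g).measurableSet
  have hae : ∀ᵐ y ∂((unif A).map g), y ∈ Set.range g := by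
    refine (ae_map_iff (p := fun y => y ∈ Set.range g) hg.aemeasurable hS).2 ?_
    exact Filter.Eventually.of_forall fun a => ⟨a, rfl⟩
  have hF : AEStronglyMeasurable F ((unif A).map g) := by
    refine ⟨fun y => ∑ z ∈ (Set.finite_range g).toFinset,
      ({z} : Set B).indicator (fun _ => F z) y, ?_, ?_⟩
    · refine Measurable.stronglyMeasurable ?_
      refine Finset.measurable_fun_sum _ fun z _ => ?_
      exact measurable_const.indicator (measurableSet_singleton z)
    · filter_upwards [hae] with y hy
      rw [Finset.sum_eq_single y]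
      · simp
      · intro z _ hz
        rw [Set.indicator_of_notMem]
        simpa using hz.symm
      · intro h
        exact absurd ((Set.finite_range g).mem_toFinset.2 hy) h
  rw [integral_map hg.aemeasurable hF, integral_unif]

theorem pi_satLaw {ι : Type} [Fintype ι] [DecidableEq ι] (k : ℕ) (ρ : ℝ) :
    (Measure.pi fun _ : ι => satLaw k ρ) =
      (unif (ι → Fin k → Bool)).map (fun J i => satInter k ρ (J i)) := by
  unfold satLaw
  rw [← Measure.pi_map_pi (fun _ => (measurable_satInter k ρ).aemeasurable), pi_unif]

theorem sum_pat (k : ℕ) (F : (Fin k → Fin 3 → Bool) → ℝ) :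
    ∑ J : Fin k → Fin 3 → Bool, F J = ∑ J ∈ range (8 ^ k), F (fun j => pat J j.val) := by
  have h1 : ∑ J : Fin k → Fin 3 → Bool, F J =
      ∑ s : Fin k × Fin 3 → Bool, F (fun j i => s (j, i)) :=
    (Fintype.sum_equiv (Equiv.curry (Fin k) (Fin 3) Bool) _ _ fun s => rfl).symm
  rw [h1, sum_bits (finProdFinEquiv : Fin k × Fin 3 ≃ Fin (k * 3))
    (fun s => F (fun j i => s (j, i)))]
  have h2 : 2 ^ (k * 3) = 8 ^ k := by
    rw [mul_comm, pow_mul]; norm_num
  rw [h2]
  refine Finset.sum_congr rfl fun J _ => ?_
  congr 1
  funext j i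
  have h3 : ((finProdFinEquiv : Fin k × Fin 3 ≃ Fin (k * 3)) (j, i)).val =
      j.val * 3 + i.val := by
    rw [finProdFinEquiv_apply_val]
    ring
  show decide (bit J ((finProdFinEquiv : Fin k × Fin 3 ≃ Fin (k * 3)) (j, i)).val = 1) = _
  rw [h3, pat]

theorem sum_pat_one (F : (Fin 3 → Bool) → ℝ) :
    ∑ J : Fin 3 → Bool, F J = ∑ J ∈ range 8, F (pat J 0) := by
  rw [sum_bits (Equiv.refl (Fin 3)) F]
  refine Finset.sum_congr (by norm_num) fun J _ => ?_
  congr 1
  funext i
  show decide (bit J i.val = 1) = decide (bit J (0 * 3 + i.val) = 1)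
  rw [zero_mul, zero_add]

/-- The trial functional is the series of the averages. -/
theorem trialFunctional_sat (q ρ : ℝ) {r : ℕ} (m : Fin r → ℝ)
    (X : (Fin (r + 1) → unitInterval) → ℝ) :
    trialFunctional 3 q (satLaw 3 ρ) (Measure.dirac 0) r m X = Real.log 2 +
      (∑' k : ℕ, poissonWeight (q * 3) k * siteAv ρ m X k) - q * 2 * edgeAv ρ m X := by
  rw [P.trialFunctional_eq]
  have h1 : ∀ k : ℕ, ∫ θs, ∫ h, P.trialVal m X (P.siteV h θs) ∂(Measure.dirac 0)
      ∂(Measure.pi fun _ : Fin k => satLaw 3 ρ) = siteAv ρ m X k := by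
    intro k
    simp only [integral_dirac]
    rw [pi_satLaw, integral_map_unif]
    unfold siteAv
    rw [sum_pat k (fun J => P.trialVal m X (P.siteV (p := 3) 0 (fun i => satInter 3 ρ (J i))))]
    congr 2
    simp only [Fintype.card_fun, Fintype.card_bool, Fintype.card_fin]
    norm_num
  have h2 : ∫ θ, P.trialVal m X (P.edgeV θ) ∂(satLaw 3 ρ) = edgeAv ρ m X := by
    unfold satLaw
    rw [integral_map_unif]
    unfold edgeAv
    rw [sum_pat_one (fun J => P.trialVal m X (P.edgeV (satInter 3 ρ J)))]
    have h3 : (Fintype.card (Fin 3 → Bool) : ℝ) = 8 := by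
      simp only [Fintype.card_fun, Fintype.card_bool, Fintype.card_fin]
      norm_num
    rw [h3]
  simp only [h1, h2]
  norm_num

end Crest.Agent.R153
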