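import Crest.Agent.R153.DDefs

/-!
Row 153 (S0218), piece DSat2.
Bounds (LTri: P.mixV_btw, P.trialVal_abs_le; T_btw of UT).
-/

set_option autoImplicit false

open Finset MeasureTheory Filter
open Crest.ProbabilityR.Diluted
open Crest.Agent.R141

namespace Crest.Agent.R153

variable {r : ℕ} {m : Fin r → ℝ} {X : (Fin (r + 1) → unitInterval) → ℝ}

theorem trialVal_nonpos (hm : AdmissibleExponents m) (hX : Measurable X) {B : Type} [Fintype B]
    [DecidableEq B] (V : (B → Bool) → ℝ) (hV : ∀ s, 0 < V s ∧ V s ≤ 1) :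
    P.trialVal m X V ≤ 0 := by
  rw [P.trialVal_eq]
  obtain ⟨K, hK0, hK⟩ := P.exists_bounds V fun s => (hV s).1
  refine integral_nonpos fun u => ?_
  have hl := U.adm_stepsOf m hm
  have hb := U.T_btw (U.stepsOf m) (fun x hx => (hl.2 x hx).1) (Real.exp_pos (-K))
    (P.mixV_meas X hX V) (P.mixV_btw X V fun s => ⟨(hK s).1, (hV s).2⟩)
  exact Real.log_nonpos ((Real.exp_pos _).le.trans (hb u).1) (hb u).2

theorem satInter_mem (k : ℕ) {ρ : ℝ} (hρ0 : 0 < ρ) (hρ1 : ρ < 1) (J s : Fin k → Bool) :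
    -|Real.log ρ| ≤ satInter k ρ J s ∧ satInter k ρ J s ≤ 0 := by
  have h := Real.log_neg hρ0 hρ1
  unfold satInter
  split_ifs
  · exact ⟨neg_abs_le _, h.le⟩
  · exact ⟨neg_nonpos.2 (abs_nonneg _), le_rfl⟩

theorem siteV_sat_mem (k : ℕ) {ρ : ℝ} (hρ0 : 0 < ρ) (hρ1 : ρ < 1) (J : ℕ)
    (s : Fin k × Fin (3 - 1) → Bool) :
    Real.exp (-(k * |Real.log ρ|)) ≤
        P.siteV (p := 3) 0 (fun j : Fin k => satInter 3 ρ (pat J j.val)) s ∧
      P.siteV (p := 3) 0 (fun j : Fin k => satInter 3 ρ (pat J j.val)) s ≤ 1 := by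
  have h1 : ∀ ε : Bool, -(k * |Real.log ρ|) ≤ 0 * spinVal ε + ∑ j : Fin k,
      satInter 3 ρ (pat J j.val) (P.ext (fun ℓ => s (j, ℓ)) ε) := by
    intro ε
    have : ∑ j : Fin k, (-|Real.log ρ|) ≤ ∑ j : Fin k,
      satInter 3 ρ (pat J j.val) (P.ext (fun ℓ => s (j, ℓ)) ε) :=
      sum_le_sum fun j _ => (satInter_mem 3 hρ0 hρ1 _ _).1
    rw [sum_const, card_univ, Fintype.card_fin, nsmul_eq_mul] at this
    linarith
  have h2 : ∀ ε : Bool, 0 * spinVal ε + ∑ j : Fin k,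
      satInter 3 ρ (pat J j.val) (P.ext (fun ℓ => s (j, ℓ)) ε) ≤ 0 := by
    intro ε
    rw [zero_mul, zero_add]
    exact sum_nonpos fun j _ => (satInter_mem 3 hρ0 hρ1 _ _).2
  unfold P.siteV
  rw [Fintype.sum_bool]
  have a1 := Real.exp_le_exp.2 (h1 true)
  have a2 := Real.exp_le_exp.2 (h1 false)
  have b1 := Real.exp_le_exp.2 (h2 true)
  have b2 := Real.exp_le_exp.2 (h2 false)
  rw [Real.exp_zero] at b1 b2
  constructor <;> linarith

/-- the average of numbers in an interval -/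
theorem avg_mem (N : ℕ) (hN : 0 < N) (F : ℕ → ℝ) (a b : ℝ) (h : ∀ J, a ≤ F J ∧ F J ≤ b) :
    a ≤ (N : ℝ)⁻¹ * ∑ J ∈ range N, F J ∧ (N : ℝ)⁻¹ * ∑ J ∈ range N, F J ≤ b := by
  have hN' : (0 : ℝ) < N := by exact_mod_cast hN
  have h1 : ∑ J ∈ range N, a ≤ ∑ J ∈ range N, F J := sum_le_sum fun J _ => (h J).1
  have h2 : ∑ J ∈ range N, F J ≤ ∑ J ∈ range N, b := sum_le_sum fun J _ => (h J).2
  rw [sum_const, card_range, nsmul_eq_mul] at h1 h2
  constructor
  · rw [inv_mul_eq_div, le_div_iff₀ hN']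
    linarith
  · rw [inv_mul_eq_div, div_le_iff₀ hN']
    linarith

theorem trialVal_mem (hm : AdmissibleExponents m) (hX : Measurable X) {B : Type} [Fintype B]
    [DecidableEq B] (V : (B → Bool) → ℝ) {K : ℝ} (hK : 0 ≤ K)
    (hV : ∀ s, Real.exp (-K) ≤ V s ∧ V s ≤ 1) :
    -K ≤ P.trialVal m X V ∧ P.trialVal m X V ≤ 0 := by
  refine ⟨?_, trialVal_nonpos hm hX V fun s => ⟨(Real.exp_pos _).trans_le (hV s).1, (hV s).2⟩⟩
  have := P.trialVal_abs_le hm hX V K fun s => ⟨(hV s).1, (hV s).2.trans (Real.one_le_exp hK)⟩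
  exact (abs_le.1 this).1

theorem siteAv_mem (hm : AdmissibleExponents m) (hX : Measurable X) {ρ : ℝ} (hρ0 : 0 < ρ)
    (hρ1 : ρ < 1) (k : ℕ) : -(k * |Real.log ρ|) ≤ siteAv ρ m X k ∧ siteAv ρ m X k ≤ 0 := by
  unfold siteAv
  refine avg_mem (8 ^ k) (by positivity) (fun J => P.trialVal m X
    (P.siteV (p := 3) 0 (fun j : Fin k => satInter 3 ρ (pat J j.val)))) _ _ fun J => ?_
  exact trialVal_mem hm hX _ (by positivity) fun s => siteV_sat_mem k hρ0 hρ1 J s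

theorem edgeAv_mem (hm : AdmissibleExponents m) (hX : Measurable X) {ρ : ℝ} (hρ0 : 0 < ρ)
    (hρ1 : ρ < 1) : -|Real.log ρ| ≤ edgeAv ρ m X ∧ edgeAv ρ m X ≤ 0 := by
  unfold edgeAv
  have := avg_mem 8 (by norm_num) (fun J => P.trialVal m X (P.edgeV (satInter 3 ρ (pat J 0))))
    (-|Real.log ρ|) 0 fun J => by
      refine trialVal_mem hm hX _ (abs_nonneg _) fun s => ?_
      have h := satInter_mem 3 hρ0 hρ1 (pat J 0) s
      exact ⟨Real.exp_le_exp.2 h.1, Real.exp_le_one_iff.2 h.2⟩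
  simpa using this

/-- The series converges. -/
theorem sat_summable (hm : AdmissibleExponents m) (hX : Measurable X) {q : ℝ} (hq : 0 < q) {ρ : ℝ}
    (hρ0 : 0 < ρ) (hρ1 : ρ < 1) :
    Summable fun k : ℕ => poissonWeight (q * 3) k * siteAv ρ m X k := by
  refine U.pois_summable _ (by positivity) _ |Real.log ρ| fun k => ?_
  have h := siteAv_mem hm hX hρ0 hρ1 k
  rw [abs_of_nonpos h.2]
  have := abs_nonneg (Real.log ρ)
  nlinarith

end Crest.Agent.R153
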