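import Crest.Agent.R153.DDefs

/-!
Row 153 (S0218), piece DTab1.
Soundness of the tables (induction on the height h: node value at level r-h and code C < S^(r-h+1) versus (W (r-h) C / Den)^P).
-/

set_option autoImplicit false

open Finset MeasureTheory Filter
open Crest.ProbabilityR.Diluted
open Crest.Agent.R141

namespace Crest.Agent.R153

variable {S P r : ℕ} {p : ℕ → ℕ} {num : ℕ → ℕ} {den : ℕ}

namespace DTab1Aux

theorem pow_rpow_a {x : ℝ} (hx : 0 ≤ x) {P q : ℕ} (hP : 0 < P) :
    (x ^ P) ^ ((q : ℝ) / P) = x ^ q := by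
  have hP' : (P : ℝ) ≠ 0 := by exact_mod_cast hP.ne'
  rw [← Real.rpow_natCast x P, ← Real.rpow_mul hx, mul_div_cancel₀ _ hP', Real.rpow_natCast]

theorem pow_rpow_b {x : ℝ} (hx : 0 ≤ x) {P q : ℕ} (hq : 0 < q) :
    (x ^ q) ^ (1 / ((q : ℝ) / P)) = x ^ P := by
  have hq' : (q : ℝ) ≠ 0 := by exact_mod_cast hq.ne'
  rw [← Real.rpow_natCast x q, ← Real.rpow_mul hx, one_div_div, mul_div_cancel₀ _ hq',
    Real.rpow_natCast]

/-- children codes stay in range -/
theorem code_lt {S r h : ℕ} (hh : h + 1 ≤ r) {C e : ℕ} (hC : C < S ^ (r - (h + 1) + 1))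
    (he : e < S) : C * S + e < S ^ (r - h + 1) := by
  have h1 : r - (h + 1) + 1 = r - h := by omega
  rw [h1] at hC
  calc C * S + e < C * S + S := by omega
    _ = (C + 1) * S := by ring
    _ ≤ S ^ (r - h) * S := Nat.mul_le_mul_right S hC
    _ = S ^ (r - h + 1) := (pow_succ S (r - h)).symm

end DTab1Aux

open DTab1Aux

theorem Tc_pos (hS : 0 < S) (hp : ∀ d < r, 0 < p d) (hP : 0 < P) {g : ℕ → ℝ}
    (hg : ∀ C < S ^ (r + 1), 0 < g C) (h : ℕ) (hh : h ≤ r) (C : ℕ) (hC : C < S ^ (r - h + 1)) :
    0 < Tc S r (fun d => (p d : ℝ) / P) g h C := by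
  induction h generalizing C with
  | zero => exact hg C hC
  | succ h ih =>
    rw [Tc]
    apply Real.rpow_pos_of_pos
    refine mul_pos (inv_pos.2 (by exact_mod_cast hS)) (sum_pos ?_ ⟨0, mem_range.2 hS⟩)
    intro e he
    exact Real.rpow_pos_of_pos (ih (by omega) _ (code_lt hh hC (mem_range.1 he))) _

theorem upTab_sound (hS : 0 < S) (hP : 0 < P) (hp : ∀ d < r, 0 < p d) {Den : ℕ} (hDen : 0 < Den)
    (hden : 0 < den) (hnum : ∀ C < S ^ (r + 1), 0 < num C) {W : ℕ → ℕ → ℕ}
    (h : UpTab S P r Den p num den W) (e : ℕ) (he : e < S) :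
    0 < W 0 e ∧ Real.log (Tc S r (fun d => (p d : ℝ) / P) (fun C => (num C : ℝ) / den) r e) ≤
      P * Real.log ((W 0 e : ℝ) / Den) := by
  obtain ⟨h0, h1⟩ := h
  have hSr : (0 : ℝ) < S := by exact_mod_cast hS
  have hDr : (0 : ℝ) < Den := by exact_mod_cast hDen
  have hdr : (0 : ℝ) < den := by exact_mod_cast hden
  have hg : ∀ C < S ^ (r + 1), (0 : ℝ) < (fun C => (num C : ℝ) / den) C := by
    intro C hC
    have : (0 : ℝ) < num C := by exact_mod_cast hnum C hC
    exact div_pos this hdr
  have key : ∀ k ≤ r, ∀ C < S ^ (r - k + 1), 0 < W (r - k) C ∧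
      Tc S r (fun d => (p d : ℝ) / P) (fun C => (num C : ℝ) / den) k C ≤
        ((W (r - k) C : ℝ) / Den) ^ P := by
    intro k
    induction k with
    | zero =>
      intro _ C hC
      rw [Nat.sub_zero] at hC ⊢
      have h2 := h0 C hC
      have h3 : 0 < num C * Den ^ P := Nat.mul_pos (hnum C hC) (pow_pos hDen P)
      constructor
      · by_contra hcon
        have h4 : W r C = 0 := by omega
        rw [h4, zero_pow hP.ne', zero_mul] at h2
        omega
      · show (num C : ℝ) / den ≤ _
        rw [div_pow, div_le_div_iff₀ hdr (pow_pos hDr P)]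
        exact_mod_cast h2
    | succ k ih =>
      intro hk C hC
      have hd : r - (k + 1) < r := by omega
      have hd1 : r - (k + 1) + 1 = r - k := by omega
      have h2 := h1 (r - (k + 1)) hd C hC
      rw [hd1] at h2
      have ih' : ∀ e ∈ range S, 0 < W (r - k) (C * S + e) ∧
          Tc S r (fun d => (p d : ℝ) / P) (fun C => (num C : ℝ) / den) k (C * S + e) ≤
            ((W (r - k) (C * S + e) : ℝ) / Den) ^ P :=
        fun e he => ih (by omega) _ (code_lt hk hC (mem_range.1 he))
      have hpd := hp _ hd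
      constructor
      · by_contra hcon
        have h4 : W (r - (k + 1)) C = 0 := by omega
        rw [h4, zero_pow hpd.ne', mul_zero] at h2
        have h5 : 0 < ∑ e ∈ range S, W (r - k) (C * S + e) ^ p (r - (k + 1)) :=
          sum_pos (fun e he => pow_pos (ih' e he).1 _) ⟨0, mem_range.2 hS⟩
        omega
      · rw [Tc]
        have hx : (0 : ℝ) ≤ (W (r - (k + 1)) C : ℝ) / Den := by positivity
        rw [← pow_rpow_b (P := P) hx hpd]
        refine Real.rpow_le_rpow ?_ ?_ (by positivity)
        · refine mul_nonneg (by positivity) (sum_nonneg fun e he => Real.rpow_nonneg ?_ _)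
          exact (Tc_pos hS hp hP hg k (by omega) _ (code_lt hk hC (mem_range.1 he))).le
        · have h6 : ∀ e ∈ range S,
              (Tc S r (fun d => (p d : ℝ) / P) (fun C => (num C : ℝ) / den) k (C * S + e)) ^
                ((p (r - (k + 1)) : ℝ) / P) ≤
              ((W (r - k) (C * S + e) : ℝ) / Den) ^ p (r - (k + 1)) := by
            intro e he
            rw [← pow_rpow_a (P := P) (x := (W (r - k) (C * S + e) : ℝ) / Den) (by positivity) hP]
            refine Real.rpow_le_rpow ?_ (ih' e he).2 (by positivity)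
            exact (Tc_pos hS hp hP hg k (by omega) _ (code_lt hk hC (mem_range.1 he))).le
          have h7 := sum_le_sum h6
          have h8 : ∑ e ∈ range S, ((W (r - k) (C * S + e) : ℝ) / Den) ^ p (r - (k + 1)) =
              (∑ e ∈ range S, (W (r - k) (C * S + e) : ℝ) ^ p (r - (k + 1))) /
                (Den : ℝ) ^ p (r - (k + 1)) := by
            rw [sum_div]
            exact sum_congr rfl fun e _ => div_pow _ _ _
          have h9 : (∑ e ∈ range S, (W (r - k) (C * S + e) : ℝ) ^ p (r - (k + 1))) ≤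
              S * (W (r - (k + 1)) C : ℝ) ^ p (r - (k + 1)) := by exact_mod_cast h2
          rw [h8] at h7
          rw [inv_mul_le_iff₀ hSr, div_pow, ← mul_div_assoc]
          exact h7.trans (by gcongr)
  have hk := key r le_rfl e (by rw [Nat.sub_self, zero_add, pow_one]; exact he)
  rw [Nat.sub_self] at hk
  refine ⟨hk.1, ?_⟩
  rw [← Real.log_pow]
  exact Real.log_le_log (Tc_pos hS hp hP hg r le_rfl e
    (by rw [Nat.sub_self, zero_add, pow_one]; exact he)) hk.2

theorem lowTab_sound (hS : 0 < S) (hP : 0 < P) (hp : ∀ d < r, 0 < p d) {Den : ℕ} (hDen : 0 < Den)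
    (hden : 0 < den) (hnum : ∀ C < S ^ (r + 1), 0 < num C) {W : ℕ → ℕ → ℕ}
    (h : LowTab S P r Den p num den W) (e : ℕ) (he : e < S) :
    P * Real.log ((W 0 e : ℝ) / Den) ≤
      Real.log (Tc S r (fun d => (p d : ℝ) / P) (fun C => (num C : ℝ) / den) r e) := by
  obtain ⟨h0, h1, hpos⟩ := h
  have hSr : (0 : ℝ) < S := by exact_mod_cast hS
  have hDr : (0 : ℝ) < Den := by exact_mod_cast hDen
  have hdr : (0 : ℝ) < den := by exact_mod_cast hden
  have hg : ∀ C < S ^ (r + 1), (0 : ℝ) < (fun C => (num C : ℝ) / den) C := by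
    intro C hC
    have : (0 : ℝ) < num C := by exact_mod_cast hnum C hC
    exact div_pos this hdr
  have key : ∀ k ≤ r, ∀ C < S ^ (r - k + 1), ((W (r - k) C : ℝ) / Den) ^ P ≤
      Tc S r (fun d => (p d : ℝ) / P) (fun C => (num C : ℝ) / den) k C := by
    intro k
    induction k with
    | zero =>
      intro _ C hC
      rw [Nat.sub_zero] at hC ⊢
      have h2 := h0 C hC
      show _ ≤ (num C : ℝ) / den
      rw [div_pow, div_le_div_iff₀ (pow_pos hDr P) hdr]
      exact_mod_cast h2
    | succ k ih =>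
      intro hk C hC
      have hd : r - (k + 1) < r := by omega
      have hd1 : r - (k + 1) + 1 = r - k := by omega
      have h2 := h1 (r - (k + 1)) hd C hC
      rw [hd1] at h2
      have hpd := hp _ hd
      rw [Tc]
      have hx : (0 : ℝ) ≤ (W (r - (k + 1)) C : ℝ) / Den := by positivity
      rw [← pow_rpow_b (P := P) hx hpd]
      refine Real.rpow_le_rpow (by positivity) ?_ (by positivity)
      have h6 : ∀ e ∈ range S, ((W (r - k) (C * S + e) : ℝ) / Den) ^ p (r - (k + 1)) ≤
          (Tc S r (fun d => (p d : ℝ) / P) (fun C => (num C : ℝ) / den) k (C * S + e)) ^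
            ((p (r - (k + 1)) : ℝ) / P) := by
        intro e he
        rw [← pow_rpow_a (P := P) (x := (W (r - k) (C * S + e) : ℝ) / Den) (by positivity) hP]
        exact Real.rpow_le_rpow (by positivity) (ih (by omega) _ (code_lt hk hC (mem_range.1 he)))
          (by positivity)
      have h7 := sum_le_sum h6
      have h8 : ∑ e ∈ range S, ((W (r - k) (C * S + e) : ℝ) / Den) ^ p (r - (k + 1)) =
          (∑ e ∈ range S, (W (r - k) (C * S + e) : ℝ) ^ p (r - (k + 1))) /
            (Den : ℝ) ^ p (r - (k + 1)) := by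
        rw [sum_div]
        exact sum_congr rfl fun e _ => div_pow _ _ _
      have h9 : S * (W (r - (k + 1)) C : ℝ) ^ p (r - (k + 1)) ≤
          (∑ e ∈ range S, (W (r - k) (C * S + e) : ℝ) ^ p (r - (k + 1))) := by exact_mod_cast h2
      rw [h8] at h7
      rw [le_inv_mul_iff₀ hSr, div_pow, ← mul_div_assoc]
      exact le_trans (by gcongr) h7
  have hk := key r le_rfl e (by rw [Nat.sub_self, zero_add, pow_one]; exact he)
  rw [Nat.sub_self] at hk
  have hW : (0 : ℝ) < (W 0 e : ℝ) / Den := div_pos (by exact_mod_cast hpos e he) hDr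
  rw [← Real.log_pow]
  exact Real.log_le_log (pow_pos hW P) hk

end Crest.Agent.R153
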