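import Crest.Agent.R153.DCert1
import Crest.Agent.R153.DSat1
import Crest.Agent.R153.DSat2
import Crest.Agent.R153.DTab1

/-!
Row 153 (S0218), piece DCert2.
Soundness of certificates. he_poisson: (1 - x/n)^n <= exp(-x). cert_sound: drop the terms k >= K (nonpositive), replace Poisson weights by e_k 8^k S_k / M (siteAv <= 0), 2q by 8 f S_e / M (edgeAv <= 0), table bounds, then take logs of `fin`.
-/

set_option autoImplicit false

open Finset MeasureTheory Filter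
open Crest.ProbabilityR.Diluted
open Crest.Agent.R141

namespace Crest.Agent.R153

/-- The integer weights are below the Poisson weights. -/
theorem he_poisson {a b n M e N k : ℕ} (hb : 0 < b) (hM : 0 < M) (hn : 3 * a < n * b)
    (h : e * N * Nat.factorial k * (n * b) ^ n * b ^ k ≤ M * (n * b - 3 * a) ^ n * (3 * a) ^ k) :
    ((e * N : ℕ) : ℝ) / M ≤ poissonWeight ((a : ℝ) / b * 3) k := by
  have hn0 : 0 < n := by
    rcases Nat.eq_zero_or_pos n with h0 | h0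
    · subst h0; omega
    · exact h0
  have hbR : (0 : ℝ) < b := by exact_mod_cast hb
  have hnR : (0 : ℝ) < n := by exact_mod_cast hn0
  have hMR : (0 : ℝ) < M := by exact_mod_cast hM
  have hkR : (0 : ℝ) < Nat.factorial k := by exact_mod_cast Nat.factorial_pos k
  have hnR' : (3 * a : ℝ) < n * b := by exact_mod_cast hn
  have hcast : ((n * b - 3 * a : ℕ) : ℝ) = n * b - 3 * a := by
    rw [Nat.cast_sub hn.le]; push_cast; ring
  have h' : (e * N : ℝ) * Nat.factorial k * (n * b) ^ n * b ^ k ≤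
      M * (n * b - 3 * a) ^ n * (3 * a) ^ k := by
    have h1 : ((e * N * Nat.factorial k * (n * b) ^ n * b ^ k : ℕ) : ℝ) ≤
        ((M * (n * b - 3 * a) ^ n * (3 * a) ^ k : ℕ) : ℝ) := by exact_mod_cast h
    push_cast at h1
    rw [Nat.cast_sub hn.le] at h1
    push_cast at h1
    exact h1
  set x : ℝ := (a : ℝ) / b * 3 with hx
  have hx1 : x ≤ n := by
    rw [hx, div_mul_eq_mul_div, div_le_iff₀ hbR]
    linarith
  have hexp : (1 - x / n) ^ n ≤ Real.exp (-x) := Real.one_sub_div_pow_le_exp_neg hx1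
  have hx0 : 0 ≤ x := by positivity
  have hfrac : 1 - x / n = (n * b - 3 * a) / (n * b) := by
    rw [hx]; field_simp
  have hxk : x ^ k = (3 * a) ^ k / b ^ k := by
    rw [hx, ← div_pow]; congr 1; ring
  have h2 : ((e * N : ℕ) : ℝ) / M ≤ (1 - x / n) ^ n * x ^ k / Nat.factorial k := by
    rw [hfrac, hxk, div_pow, div_le_div_iff₀ hMR hkR]
    have h3 : (n * b - 3 * a : ℝ) ^ n / (n * b) ^ n * ((3 * a) ^ k / b ^ k) * M =
        (M * (n * b - 3 * a) ^ n * (3 * a) ^ k) / ((n * b) ^ n * b ^ k) := by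
      field_simp
    rw [h3, le_div_iff₀ (by positivity)]
    push_cast
    calc (e : ℝ) * N * Nat.factorial k * ((n * b) ^ n * b ^ k)
        = (e * N : ℝ) * Nat.factorial k * (n * b) ^ n * b ^ k := by ring
      _ ≤ _ := h'
  refine h2.trans ?_
  unfold poissonWeight
  have h4 : (1 - x / n) ^ n * x ^ k ≤ Real.exp (-x) * x ^ k :=
    mul_le_mul_of_nonneg_right hexp (pow_nonneg hx0 k)
  exact div_le_div_of_nonneg_right h4 hkR.le

theorem poissonWeight_nn {x : ℝ} (hx : 0 ≤ x) (k : ℕ) : 0 ≤ poissonWeight x k := by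
  unfold poissonWeight
  positivity

theorem sum_log_div (n : ℕ) (P D : ℝ) (hD : 0 < D) (x : ℕ → ℝ) (hx : ∀ C < n, 0 < x C) :
    ∑ C ∈ range n, P * Real.log (x C / D) =
      (∑ C ∈ range n, P * Real.log (x C)) - n * (P * Real.log D) := by
  have h : ∑ C ∈ range n, P * Real.log (x C / D) =
      ∑ C ∈ range n, (P * Real.log (x C) - P * Real.log D) := by
    refine sum_congr rfl fun C hC => ?_
    rw [Real.log_div (hx C (mem_range.1 hC)).ne' hD.ne']
    ring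
  rw [h, sum_sub_distrib, sum_const, card_range, nsmul_eq_mul]

/-- The final inequality in logarithmic form. -/
theorem fin_log {K M Den P f Ne : ℕ} (hDen : 0 < Den) {e S : ℕ → ℕ}
    {W : ℕ → ℕ → ℕ → ℕ} {w : ℕ → ℕ → ℕ} {Se : ℕ} (hNe : Ne = 8 * Se)
    (hW : ∀ k < K, ∀ J < 8 ^ k, ∀ C < S k, 0 < W k J C) (hw : ∀ J < 8, ∀ C < Se, 0 < w J C)
    (h : 2 ^ M * (∏ k ∈ range K, ∏ J ∈ range (8 ^ k), ∏ C ∈ range (S k),
      W k J C ^ (P * e k)) * Den ^ (P * f * Ne) <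
    Den ^ (P * ∑ k ∈ range K, e k * (8 ^ k * S k)) *
      ∏ J ∈ range 8, ∏ C ∈ range Se, w J C ^ (P * f)) :
    M * Real.log 2 + (∑ k ∈ range K, (e k : ℝ) * ∑ J ∈ range (8 ^ k), ∑ C ∈ range (S k),
      P * Real.log ((W k J C : ℝ) / Den)) -
      f * ∑ J ∈ range 8, ∑ C ∈ range Se, P * Real.log ((w J C : ℝ) / Den) < 0 := by
  have hD : (0 : ℝ) < Den := by exact_mod_cast hDen
  have hWp : ∀ k < K, ∀ J < 8 ^ k, ∀ C < S k, (0 : ℝ) < W k J C := fun k hk J hJ C hC => by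
    exact_mod_cast hW k hk J hJ C hC
  have hwp : ∀ J < 8, ∀ C < Se, (0 : ℝ) < w J C := fun J hJ C hC => by
    exact_mod_cast hw J hJ C hC
  have hR : (2 : ℝ) ^ M * (∏ k ∈ range K, ∏ J ∈ range (8 ^ k), ∏ C ∈ range (S k),
      (W k J C : ℝ) ^ (P * e k)) * (Den : ℝ) ^ (P * f * Ne) <
    (Den : ℝ) ^ (P * ∑ k ∈ range K, e k * (8 ^ k * S k)) *
      ∏ J ∈ range 8, ∏ C ∈ range Se, (w J C : ℝ) ^ (P * f) := by
    exact_mod_cast h
  have hp1 : 0 < ∏ k ∈ range K, ∏ J ∈ range (8 ^ k), ∏ C ∈ range (S k),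
      (W k J C : ℝ) ^ (P * e k) :=
    prod_pos fun k hk => prod_pos fun J hJ => prod_pos fun C hC =>
      pow_pos (hWp k (mem_range.1 hk) J (mem_range.1 hJ) C (mem_range.1 hC)) _
  have hp2 : 0 < ∏ J ∈ range 8, ∏ C ∈ range Se, (w J C : ℝ) ^ (P * f) :=
    prod_pos fun J hJ => prod_pos fun C hC =>
      pow_pos (hwp J (mem_range.1 hJ) C (mem_range.1 hC)) _
  have hlog := Real.log_lt_log (by positivity) hR
  rw [Real.log_mul (by positivity) (by positivity), Real.log_mul (by positivity) hp1.ne',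
    Real.log_mul (by positivity) hp2.ne', Real.log_pow, Real.log_pow, Real.log_pow] at hlog
  have hl1 : Real.log (∏ k ∈ range K, ∏ J ∈ range (8 ^ k), ∏ C ∈ range (S k),
      (W k J C : ℝ) ^ (P * e k)) = ∑ k ∈ range K, ∑ J ∈ range (8 ^ k), ∑ C ∈ range (S k),
        ((P * e k : ℕ) : ℝ) * Real.log (W k J C) := by
    rw [Real.log_prod (fun k hk => (prod_pos fun J hJ => prod_pos fun C hC =>
      pow_pos (hWp k (mem_range.1 hk) J (mem_range.1 hJ) C (mem_range.1 hC)) _).ne')]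
    refine sum_congr rfl fun k hk => ?_
    rw [Real.log_prod (fun J hJ => (prod_pos fun C hC =>
      pow_pos (hWp k (mem_range.1 hk) J (mem_range.1 hJ) C (mem_range.1 hC)) _).ne')]
    refine sum_congr rfl fun J hJ => ?_
    rw [Real.log_prod (fun C hC =>
      (pow_pos (hWp k (mem_range.1 hk) J (mem_range.1 hJ) C (mem_range.1 hC)) _).ne')]
    refine sum_congr rfl fun C _ => ?_
    rw [Real.log_pow]
  have hl2 : Real.log (∏ J ∈ range 8, ∏ C ∈ range Se, (w J C : ℝ) ^ (P * f)) =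
      ∑ J ∈ range 8, ∑ C ∈ range Se, ((P * f : ℕ) : ℝ) * Real.log (w J C) := by
    rw [Real.log_prod (fun J hJ => (prod_pos fun C hC =>
      pow_pos (hwp J (mem_range.1 hJ) C (mem_range.1 hC)) _).ne')]
    refine sum_congr rfl fun J hJ => ?_
    rw [Real.log_prod (fun C hC =>
      (pow_pos (hwp J (mem_range.1 hJ) C (mem_range.1 hC)) _).ne')]
    refine sum_congr rfl fun C _ => ?_
    rw [Real.log_pow]
  rw [hl1, hl2] at hlog
  have e1 : ∑ k ∈ range K, (e k : ℝ) * ∑ J ∈ range (8 ^ k), ∑ C ∈ range (S k),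
      P * Real.log ((W k J C : ℝ) / Den) =
      (∑ k ∈ range K, ∑ J ∈ range (8 ^ k), ∑ C ∈ range (S k),
        ((P * e k : ℕ) : ℝ) * Real.log (W k J C)) -
      ((P * ∑ k ∈ range K, e k * (8 ^ k * S k) : ℕ) : ℝ) * Real.log Den := by
    rw [Nat.cast_mul, Nat.cast_sum, mul_sum, sum_mul, ← sum_sub_distrib]
    refine sum_congr rfl fun k hk => ?_
    have h1 : ∀ J ∈ range (8 ^ k), ∑ C ∈ range (S k), (P : ℝ) * Real.log ((W k J C : ℝ) / Den) =
        (∑ C ∈ range (S k), (P : ℝ) * Real.log (W k J C)) - S k * (P * Real.log Den) := by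
      intro J hJ
      exact sum_log_div (S k) P Den hD (fun C => (W k J C : ℝ))
        (hWp k (mem_range.1 hk) J (mem_range.1 hJ))
    rw [sum_congr rfl h1, sum_sub_distrib, sum_const, card_range, nsmul_eq_mul, mul_sub]
    congr 1
    · rw [mul_sum]
      refine sum_congr rfl fun J _ => ?_
      rw [mul_sum]
      refine sum_congr rfl fun C _ => ?_
      push_cast
      ring
    · push_cast
      ring
  have e2 : ∑ J ∈ range 8, ∑ C ∈ range Se, P * Real.log ((w J C : ℝ) / Den) =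
      (∑ J ∈ range 8, ∑ C ∈ range Se, (P : ℝ) * Real.log (w J C)) - Ne * (P * Real.log Den) := by
    have h1 : ∀ J ∈ range 8, ∑ C ∈ range Se, (P : ℝ) * Real.log ((w J C : ℝ) / Den) =
        (∑ C ∈ range Se, (P : ℝ) * Real.log (w J C)) - Se * (P * Real.log Den) := by
      intro J hJ
      exact sum_log_div Se P Den hD (fun C => (w J C : ℝ)) (hwp J (mem_range.1 hJ))
    rw [sum_congr rfl h1, sum_sub_distrib, sum_const, card_range, nsmul_eq_mul, hNe]
    push_cast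
    ring
  have e3 : ∑ J ∈ range 8, ∑ C ∈ range Se, ((P * f : ℕ) : ℝ) * Real.log (w J C) =
      f * ∑ J ∈ range 8, ∑ C ∈ range Se, (P : ℝ) * Real.log (w J C) := by
    rw [mul_sum]
    refine sum_congr rfl fun J _ => ?_
    rw [mul_sum]
    refine sum_congr rfl fun C _ => ?_
    push_cast
    ring
  rw [e3] at hlog
  rw [e1, e2]
  push_cast at hlog ⊢
  nlinarith [hlog]

/-- SOUNDNESS. -/
theorem cert_sound (c : Cert) {a b : ℕ} (ha : 0 < a) (hb : 0 < b) (h : c.Ok a b) :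
    trialFunctional 3 ((a : ℝ) / b) (satLaw 3 (1 / (c.R : ℝ))) (Measure.dirac 0) c.r
      (exQ c.P c.r c.p) (tabQ c.D c.r c.Q c.τ) < 0 := by
  obtain ⟨hR, hDen, hM, htr, hup, hlow, hn, he, hf, hfin⟩ := h
  have haR : (0 : ℝ) < a := by exact_mod_cast ha
  have hbR : (0 : ℝ) < b := by exact_mod_cast hb
  have hMR : (0 : ℝ) < c.M := by exact_mod_cast hM
  have hRR : (2 : ℝ) ≤ c.R := by exact_mod_cast hR
  have hρ0 : (0 : ℝ) < 1 / (c.R : ℝ) := by positivity
  have hρ1 : 1 / (c.R : ℝ) < 1 := by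
    rw [div_lt_one (by linarith)]; linarith
  have hadm := exQ_adm htr
  have hX : Measurable (tabQ c.D c.r c.Q c.τ) := measurable_Xtab _ _ _
  set q : ℝ := (a : ℝ) / b with hq
  have hq0 : 0 < q := by positivity
  set A : ℕ → ℝ := siteAv (1 / (c.R : ℝ)) (exQ c.P c.r c.p) (tabQ c.D c.r c.Q c.τ) with hA
  set E : ℝ := edgeAv (1 / (c.R : ℝ)) (exQ c.P c.r c.p) (tabQ c.D c.r c.Q c.τ) with hE
  have hAn : ∀ k, A k ≤ 0 := fun k => (siteAv_mem hadm hX hρ0 hρ1 k).2
  have hEn : E ≤ 0 := (edgeAv_mem hadm hX hρ0 hρ1).2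
  have hS : ∀ k, 0 < (c.D + 1) ^ (k * 2) := fun k => by positivity
  -- table bounds
  have hupS : ∀ k < c.K, ∀ J < 8 ^ k, ∀ C < (c.D + 1) ^ (k * 2), 0 < c.W k J 0 C ∧
      Real.log (Tc ((c.D + 1) ^ (k * 2)) c.r (fun d => (c.p d : ℝ) / c.P)
        (fun C => (mixN c.D c.r (k * 2) c.Q c.τ (siteN k c.R J) C : ℝ) /
          ((2 * c.R ^ k * c.Q ^ (k * 2) : ℕ) : ℝ)) c.r C) ≤
        c.P * Real.log ((c.W k J 0 C : ℝ) / c.Den) := by
    intro k hk J hJ C hC
    refine upTab_sound (hS k) htr.hP (fun d hd => (htr.hp d hd).1) hDen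
      (Nat.mul_pos (Nat.mul_pos (by norm_num) (pow_pos (by omega) k)) (pow_pos htr.hQ _)) ?_
      (hup k hk J hJ) C hC
    intro C' _
    refine mixN_pos _ _ _ _ htr.hτ _ (fun s _ => ?_) C'
    unfold siteN
    rw [sum_range_succ, sum_range_one]
    have : ∀ ε : ℕ, 0 < ∏ j ∈ range k, (if bit s (j * 2) = bit J (j * 3) ∧
        bit s (j * 2 + 1) = bit J (j * 3 + 1) ∧ ε = bit J (j * 3 + 2) then 1 else c.R) := by
      intro ε
      refine prod_pos fun j _ => ?_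
      split_ifs <;> omega
    exact Nat.add_pos_left (this 0) _
  have hlowS : ∀ J < 8, ∀ C < (c.D + 1) ^ 3,
      c.P * Real.log ((c.w J 0 C : ℝ) / c.Den) ≤
      Real.log (Tc ((c.D + 1) ^ 3) c.r (fun d => (c.p d : ℝ) / c.P)
        (fun C => (mixN c.D c.r 3 c.Q c.τ (edgeN c.R J) C : ℝ) /
          ((c.R * c.Q ^ 3 : ℕ) : ℝ)) c.r C) := by
    intro J hJ C hC
    refine lowTab_sound (by positivity) htr.hP (fun d hd => (htr.hp d hd).1) hDen
      (Nat.mul_pos (by omega) (pow_pos htr.hQ _)) ?_ (hlow J hJ) C hC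
    intro C' _
    refine mixN_pos _ _ _ _ htr.hτ _ (fun s _ => ?_) C'
    unfold edgeN
    split_ifs <;> omega
  -- the final inequality
  have hlog := fin_log (K := c.K) (M := c.M) (Den := c.Den) (P := c.P) (f := c.f)
    (Ne := 8 * (c.D + 1) ^ 3) hDen (e := c.e) (S := fun k => (c.D + 1) ^ (k * 2))
    (W := fun k J C => c.W k J 0 C) (w := fun J C => c.w J 0 C) (Se := (c.D + 1) ^ 3) rfl
    (fun k hk J hJ C hC => (hupS k hk J hJ C hC).1) (fun J hJ C hC => (hlow J hJ).2.2 C hC) hfin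
  -- the site part
  have hsite : ∀ k < c.K, poissonWeight (q * 3) k * A k ≤ (c.e k : ℝ) / c.M *
      ∑ J ∈ range (8 ^ k), ∑ C ∈ range ((c.D + 1) ^ (k * 2)),
        c.P * Real.log ((c.W k J 0 C : ℝ) / c.Den) := by
    intro k hk
    have h1 := he_poisson (N := 8 ^ k * (c.D + 1) ^ (k * 2)) hb hM hn (he k hk)
    have h2 : poissonWeight (q * 3) k * A k ≤
        ((c.e k * (8 ^ k * (c.D + 1) ^ (k * 2)) : ℕ) : ℝ) / c.M * A k :=
      mul_le_mul_of_nonpos_right h1 (hAn k)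
    refine h2.trans ?_
    rw [hA, siteAv_tab htr hR k]
    have h3 : ∀ J ∈ range (8 ^ k), ((((c.D + 1) ^ (k * 2) : ℕ)) : ℝ)⁻¹ *
        ∑ C ∈ range ((c.D + 1) ^ (k * 2)), Real.log (Tc ((c.D + 1) ^ (k * 2)) c.r
          (fun d => (c.p d : ℝ) / c.P) (fun C => (mixN c.D c.r (k * 2) c.Q c.τ
            (siteN k c.R J) C : ℝ) / ((2 * c.R ^ k * c.Q ^ (k * 2) : ℕ) : ℝ)) c.r C) ≤
        ((((c.D + 1) ^ (k * 2) : ℕ)) : ℝ)⁻¹ * ∑ C ∈ range ((c.D + 1) ^ (k * 2)),
          c.P * Real.log ((c.W k J 0 C : ℝ) / c.Den) := by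
      intro J hJ
      refine mul_le_mul_of_nonneg_left ?_ (inv_nonneg.2 (Nat.cast_nonneg _))
      exact sum_le_sum fun C hC => (hupS k hk J (mem_range.1 hJ) C (mem_range.1 hC)).2
    have h40 : (0 : ℝ) ≤ ((8 ^ k : ℕ) : ℝ)⁻¹ := by positivity
    have h4 := mul_le_mul_of_nonneg_left (sum_le_sum h3) h40
    have h50 : (0 : ℝ) ≤ ((c.e k * (8 ^ k * (c.D + 1) ^ (k * 2)) : ℕ) : ℝ) / c.M :=
      div_nonneg (Nat.cast_nonneg _) hMR.le
    have h5 := mul_le_mul_of_nonneg_left h4 h50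
    refine h5.trans (le_of_eq ?_)
    rw [← mul_sum]
    have hSk : (((c.D + 1) ^ (k * 2) : ℕ) : ℝ) ≠ 0 := by
      have := hS k
      positivity
    push_cast
    push_cast at hSk
    field_simp
  -- the edge part
  have hedge : -(q * 2 * E) ≤ -((c.f : ℝ) / c.M *
      ∑ J ∈ range 8, ∑ C ∈ range ((c.D + 1) ^ 3),
        c.P * Real.log ((c.w J 0 C : ℝ) / c.Den)) := by
    have h1 : q * 2 ≤ (c.f : ℝ) * (8 * (c.D + 1) ^ 3 : ℕ) / c.M := by
      rw [hq, le_div_iff₀ hMR]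
      have h2 : ((c.M * (2 * a) : ℕ) : ℝ) ≤ ((c.f * (8 * (c.D + 1) ^ 3) * b : ℕ) : ℝ) := by
        exact_mod_cast hf
      rw [div_mul_eq_mul_div, div_mul_eq_mul_div, div_le_iff₀ hbR]
      push_cast at h2 ⊢
      linarith
    have h2 : q * 2 * E ≥ (c.f : ℝ) * (8 * (c.D + 1) ^ 3 : ℕ) / c.M * E :=
      mul_le_mul_of_nonpos_right h1 hEn
    have h3 : (c.f : ℝ) / c.M * ∑ J ∈ range 8, ∑ C ∈ range ((c.D + 1) ^ 3),
        c.P * Real.log ((c.w J 0 C : ℝ) / c.Den) ≤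
        (c.f : ℝ) * (8 * (c.D + 1) ^ 3 : ℕ) / c.M * E := by
      rw [hE, edgeAv_tab htr hR]
      have h4 : ∀ J ∈ range 8, ((((c.D + 1) ^ 3 : ℕ)) : ℝ)⁻¹ * ∑ C ∈ range ((c.D + 1) ^ 3),
          c.P * Real.log ((c.w J 0 C : ℝ) / c.Den) ≤ ((((c.D + 1) ^ 3 : ℕ)) : ℝ)⁻¹ *
        ∑ C ∈ range ((c.D + 1) ^ 3), Real.log (Tc ((c.D + 1) ^ 3) c.r
          (fun d => (c.p d : ℝ) / c.P) (fun C => (mixN c.D c.r 3 c.Q c.τ
            (edgeN c.R J) C : ℝ) / ((c.R * c.Q ^ 3 : ℕ) : ℝ)) c.r C) := by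
        intro J hJ
        refine mul_le_mul_of_nonneg_left ?_ (inv_nonneg.2 (Nat.cast_nonneg _))
        exact sum_le_sum fun C hC => hlowS J (mem_range.1 hJ) C (mem_range.1 hC)
      have h5 := mul_le_mul_of_nonneg_left (sum_le_sum h4) (by norm_num : (0 : ℝ) ≤ (8 : ℝ)⁻¹)
      have h60 : (0 : ℝ) ≤ (c.f : ℝ) * (8 * (c.D + 1) ^ 3 : ℕ) / c.M :=
        div_nonneg (mul_nonneg (Nat.cast_nonneg _) (Nat.cast_nonneg _)) hMR.le
      have h6 := mul_le_mul_of_nonneg_left h5 h60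
      refine (le_of_eq ?_).trans h6
      rw [← mul_sum]
      push_cast
      field_simp
    linarith
  -- truncation
  rw [trialFunctional_sat]
  have hsum := sat_summable hadm hX hq0 hρ0 hρ1
  have htail : ∑' k, poissonWeight (q * 3) k * A k ≤
      ∑ k ∈ range c.K, poissonWeight (q * 3) k * A k := by
    have h1 : ∑ k ∈ range c.K, -(poissonWeight (q * 3) k * A k) ≤
        ∑' k, -(poissonWeight (q * 3) k * A k) := by
      refine Summable.sum_le_tsum _ (fun k _ => ?_) hsum.neg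
      have := mul_nonpos_of_nonneg_of_nonpos (poissonWeight_nn (by positivity : 0 ≤ q * 3) k)
        (hAn k)
      linarith
    rw [sum_neg_distrib, tsum_neg] at h1
    linarith
  have hsites : ∑ k ∈ range c.K, poissonWeight (q * 3) k * A k ≤
      ∑ k ∈ range c.K, (c.e k : ℝ) / c.M * ∑ J ∈ range (8 ^ k),
        ∑ C ∈ range ((c.D + 1) ^ (k * 2)), c.P * Real.log ((c.W k J 0 C : ℝ) / c.Den) :=
    sum_le_sum fun k hk => hsite k (mem_range.1 hk)
  have hfinal : Real.log 2 + (∑ k ∈ range c.K, (c.e k : ℝ) / c.M * ∑ J ∈ range (8 ^ k),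
        ∑ C ∈ range ((c.D + 1) ^ (k * 2)), c.P * Real.log ((c.W k J 0 C : ℝ) / c.Den)) -
      (c.f : ℝ) / c.M * ∑ J ∈ range 8, ∑ C ∈ range ((c.D + 1) ^ 3),
        c.P * Real.log ((c.w J 0 C : ℝ) / c.Den) < 0 := by
    have h1 := div_neg_of_neg_of_pos hlog hMR
    refine lt_of_eq_of_lt ?_ h1
    rw [sub_div, add_div, sum_div]
    congr 1
    · congr 1
      · field_simp
      · refine sum_congr rfl fun k _ => ?_
        ring
    · ring
  linarith

end Crest.Agent.R153
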