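import Crest.Agent.R153.DTab1

/-!
Row 153 (S0218), piece DTab2.
Completeness of the tables: W (r-h) C = ceil (beta^h G Den), G = Tc^(1/P), beta > 1 close to 1; for large Den, W/Den <= beta^(h+1) G.
-/

set_option autoImplicit false

open Finset MeasureTheory Filter
open Crest.ProbabilityR.Diluted
open Crest.Agent.R141

namespace Crest.Agent.R153

variable {S P r : ℕ} {p : ℕ → ℕ} {num : ℕ → ℕ} {den : ℕ}

namespace DTab2aux

/-- `P`-th root of the node value. -/
noncomputable def G (S P r : ℕ) (p : ℕ → ℕ) (g : ℕ → ℝ) (h C : ℕ) : ℝ :=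
  (Tc S r (fun d => (p d : ℝ) / P) g h C) ^ (1 / (P : ℝ))

theorem G_pos (hS : 0 < S) (hP : 0 < P) (hp : ∀ d < r, 0 < p d) {g : ℕ → ℝ}
    (hg : ∀ C < S ^ (r + 1), 0 < g C) (h : ℕ) (hh : h ≤ r) (C : ℕ) (hC : C < S ^ (r - h + 1)) :
    0 < G S P r p g h C :=
  Real.rpow_pos_of_pos (Tc_pos hS hp hP hg h hh C hC) _

theorem G_pow (hS : 0 < S) (hP : 0 < P) (hp : ∀ d < r, 0 < p d) {g : ℕ → ℝ}
    (hg : ∀ C < S ^ (r + 1), 0 < g C) (h : ℕ) (hh : h ≤ r) (C : ℕ) (hC : C < S ^ (r - h + 1))
    (n : ℕ) : G S P r p g h C ^ n =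
      (Tc S r (fun d => (p d : ℝ) / P) g h C) ^ ((n : ℝ) / P) := by
  have h1 := Tc_pos hS hp hP hg h hh C hC
  rw [G, ← Real.rpow_natCast, ← Real.rpow_mul h1.le]
  congr 1
  ring

theorem mul_add_lt {S C e k : ℕ} (hC : C < S ^ k) (he : e < S) : C * S + e < S ^ (k + 1) := by
  have h1 : (C + 1) * S ≤ S ^ k * S := Nat.mul_le_mul_right S hC
  rw [pow_succ]
  have h2 : (C + 1) * S = C * S + S := by ring
  omega

theorem G_rec (hS : 0 < S) (hP : 0 < P) (hp : ∀ d < r, 0 < p d) {g : ℕ → ℝ}
    (hg : ∀ C < S ^ (r + 1), 0 < g C) (d : ℕ) (hd : d < r) (C : ℕ) (hC : C < S ^ (d + 1)) :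
    (S : ℝ) * G S P r p g (r - d) C ^ p d =
      ∑ e ∈ range S, G S P r p g (r - (d + 1)) (C * S + e) ^ p d := by
  have hS' : (S : ℝ) ≠ 0 := by exact_mod_cast hS.ne'
  have hP' : (P : ℝ) ≠ 0 := by exact_mod_cast hP.ne'
  have hpd : (p d : ℝ) ≠ 0 := by exact_mod_cast (hp d hd).ne'
  obtain ⟨h, hh⟩ : ∃ h, r - d = h + 1 := ⟨r - d - 1, by omega⟩
  have hh2 : r - (d + 1) = h := by omega
  have hh3 : r - (h + 1) = d := by omega
  rw [hh, hh2, G_pow hS hP hp hg (h + 1) (by omega) C (by rw [hh3]; exact hC)]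
  have e1 : ∀ e ∈ range S, G S P r p g h (C * S + e) ^ p d =
      (Tc S r (fun d => (p d : ℝ) / P) g h (C * S + e)) ^ ((p d : ℝ) / P) := by
    intro e he
    apply G_pow hS hP hp hg h (by omega)
    have := mul_add_lt hC (mem_range.mp he)
    rwa [show r - h + 1 = d + 1 + 1 by omega]
  rw [Finset.sum_congr rfl e1]
  rw [Tc, hh3]
  have hnn : 0 ≤ (S : ℝ)⁻¹ * ∑ e ∈ range S,
      (Tc S r (fun d => (p d : ℝ) / P) g h (C * S + e)) ^ ((p d : ℝ) / P) := by
    apply mul_nonneg (by positivity)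
    apply Finset.sum_nonneg
    intro e he
    apply Real.rpow_nonneg
    apply (Tc_pos hS hp hP hg h (by omega) _ _).le
    have := mul_add_lt hC (mem_range.mp he)
    rwa [show r - h + 1 = d + 1 + 1 by omega]
  rw [← Real.rpow_mul hnn]
  rw [show 1 / ((p d : ℝ) / P) * ((p d : ℝ) / P) = 1 by field_simp, Real.rpow_one]
  field_simp

/-- for large `Den` all node values are large -/
theorem eventually_large (hS : 0 < S) (hP : 0 < P) (hp : ∀ d < r, 0 < p d) {g : ℕ → ℝ}
    (hg : ∀ C < S ^ (r + 1), 0 < g C) {c : ℝ} (hc : 0 < c) :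
    ∀ᶠ Den : ℕ in atTop, 0 < Den ∧ ∀ d ≤ r, ∀ C < S ^ (d + 1),
      1 ≤ G S P r p g (r - d) C * Den * c := by
  have h1 : ∀ᶠ Den : ℕ in atTop, ∀ d ∈ range (r + 1), ∀ C ∈ range (S ^ (d + 1)),
      1 ≤ G S P r p g (r - d) C * Den * c := by
    rw [Filter.eventually_all_finset]
    intro d hd
    rw [Filter.eventually_all_finset]
    intro C hC
    have hd' : d ≤ r := by have := mem_range.mp hd; omega
    have hG := G_pos hS hP hp hg (r - d) (by omega) C
      (by rw [show r - (r - d) + 1 = d + 1 by omega]; exact mem_range.mp hC)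
    have h2 : Tendsto (fun Den : ℕ => G S P r p g (r - d) C * (Den : ℝ) * c) atTop atTop :=
      (tendsto_natCast_atTop_atTop.const_mul_atTop hG).atTop_mul_const hc
    exact h2.eventually_ge_atTop 1
  filter_upwards [h1, eventually_gt_atTop 0] with Den h2 h3
  refine ⟨h3, fun d hd C hC => h2 d (mem_range.mpr (by omega)) C (mem_range.mpr hC)⟩

theorem exists_beta (hP : 0 < P) {δ : ℝ} (hδ : 0 < δ) :
    ∃ β : ℝ, 1 < β ∧ (P : ℝ) * ((r + 1 : ℕ) * Real.log β) = δ := by
  have hP' : (P : ℝ) ≠ 0 := by exact_mod_cast hP.ne'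
  have hr' : ((r + 1 : ℕ) : ℝ) ≠ 0 := by positivity
  refine ⟨Real.exp (δ / (P * (r + 1 : ℕ))), ?_, ?_⟩
  · rw [Real.one_lt_exp_iff]
    positivity
  · rw [Real.log_exp]
    field_simp

end DTab2aux

open DTab2aux

theorem upTab_exists (hS : 0 < S) (hP : 0 < P) (hp : ∀ d < r, 0 < p d)
    (hden : 0 < den) (hnum : ∀ C < S ^ (r + 1), 0 < num C) {δ : ℝ} (hδ : 0 < δ) :
    ∀ᶠ Den : ℕ in Filter.atTop, ∃ W : ℕ → ℕ → ℕ, UpTab S P r Den p num den W ∧
      ∀ e < S, 0 < W 0 e ∧ P * Real.log ((W 0 e : ℝ) / Den) ≤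
        Real.log (Tc S r (fun d => (p d : ℝ) / P) (fun C => (num C : ℝ) / den) r e) + δ := by
  have hden' : (0 : ℝ) < den := by exact_mod_cast hden
  have hP' : (P : ℝ) ≠ 0 := by exact_mod_cast hP.ne'
  set g : ℕ → ℝ := fun C => (num C : ℝ) / den with hgdef
  have hg : ∀ C < S ^ (r + 1), 0 < g C := by
    intro C hC
    have : (0 : ℝ) < num C := by exact_mod_cast hnum C hC
    exact div_pos this hden'
  obtain ⟨β, hβ1, hβ⟩ := exists_beta (r := r) hP hδ
  have hβ0 : 0 < β := by linarith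
  filter_upwards [eventually_large (r := r) hS hP hp hg (show 0 < β - 1 by linarith)] with Den hD
  obtain ⟨hDen, hlarge⟩ := hD
  have hDen' : (0 : ℝ) < Den := by exact_mod_cast hDen
  -- the table
  set W : ℕ → ℕ → ℕ := fun d C => ⌈β ^ (r - d) * G S P r p g (r - d) C * Den⌉₊ with hW
  have hGpos : ∀ d ≤ r, ∀ C < S ^ (d + 1), 0 < G S P r p g (r - d) C := by
    intro d hd C hC
    exact G_pos hS hP hp hg (r - d) (by omega) C
      (by rw [show r - (r - d) + 1 = d + 1 by omega]; exact hC)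
  have hlow : ∀ d C, β ^ (r - d) * G S P r p g (r - d) C * Den ≤ (W d C : ℝ) := by
    intro d C
    exact Nat.le_ceil _
  have hup : ∀ d ≤ r, ∀ C < S ^ (d + 1),
      (W d C : ℝ) ≤ β ^ (r - d + 1) * G S P r p g (r - d) C * Den := by
    intro d hd C hC
    have h1 := hlarge d hd C hC
    have hG := hGpos d hd C hC
    have hpow : 1 ≤ β ^ (r - d) := one_le_pow₀ hβ1.le
    have hx0 : 0 ≤ β ^ (r - d) * G S P r p g (r - d) C * Den := by positivity
    have h2 : (W d C : ℝ) < β ^ (r - d) * G S P r p g (r - d) C * Den + 1 := Nat.ceil_lt_add_one hx0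
    have h3 : 1 ≤ β ^ (r - d) * (G S P r p g (r - d) C * Den * (β - 1)) := by
      calc (1 : ℝ) = 1 * 1 := by ring
        _ ≤ _ := mul_le_mul hpow h1 zero_le_one (by positivity)
    have h4 : β ^ (r - d + 1) * G S P r p g (r - d) C * Den =
        β ^ (r - d) * G S P r p g (r - d) C * Den +
          β ^ (r - d) * (G S P r p g (r - d) C * Den * (β - 1)) := by
      rw [pow_succ]; ring
    rw [h4]
    linarith
  refine ⟨W, ⟨?_, ?_⟩, ?_⟩
  · -- leaves
    intro C hC
    have hG := hGpos r le_rfl C hC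
    have h1 := hlow r C
    rw [Nat.sub_self, pow_zero, one_mul] at h1
    have h2 : (G S P r p g 0 C * Den) ^ P ≤ (W r C : ℝ) ^ P := by
      apply pow_le_pow_left₀ _ h1
      rw [Nat.sub_self] at hG
      positivity
    have h3 : G S P r p g 0 C ^ P = g C := by
      rw [G_pow hS hP hp hg 0 (by omega) C (by simpa using hC), div_self hP', Real.rpow_one]
      rfl
    rw [mul_pow, h3] at h2
    have h4 : (num C : ℝ) * Den ^ P ≤ (W r C : ℝ) ^ P * den := by
      have : (num C : ℝ) = g C * den := by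
        rw [hgdef]; field_simp
      rw [this]
      calc g C * den * (Den : ℝ) ^ P = (g C * (Den : ℝ) ^ P) * den := by ring
        _ ≤ _ := mul_le_mul_of_nonneg_right h2 hden'.le
    exact_mod_cast h4
  · -- nodes
    intro d hd C hC
    have hG := hGpos d hd.le C hC
    have h1 : ∀ e ∈ range S, (W (d + 1) (C * S + e) : ℝ) ^ p d ≤
        (β ^ (r - d) * Den) ^ p d * G S P r p g (r - (d + 1)) (C * S + e) ^ p d := by
      intro e he
      rw [← mul_pow]
      apply pow_le_pow_left₀ (Nat.cast_nonneg _)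
      have := hup (d + 1) (by omega) (C * S + e) (mul_add_lt hC (mem_range.mp he))
      rw [show r - (d + 1) + 1 = r - d by omega] at this
      calc _ ≤ _ := this
        _ = _ := by ring
    have h2 : (∑ e ∈ range S, (W (d + 1) (C * S + e) : ℝ) ^ p d) ≤ (S : ℝ) * (W d C : ℝ) ^ p d := by
      calc _ ≤ ∑ e ∈ range S,
            (β ^ (r - d) * Den) ^ p d * G S P r p g (r - (d + 1)) (C * S + e) ^ p d :=
            Finset.sum_le_sum h1
        _ = (β ^ (r - d) * Den) ^ p d * ((S : ℝ) * G S P r p g (r - d) C ^ p d) := by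
            rw [← Finset.mul_sum, G_rec hS hP hp hg d hd C hC]
        _ = (S : ℝ) * (β ^ (r - d) * G S P r p g (r - d) C * Den) ^ p d := by
            simp only [mul_pow]; ring
        _ ≤ _ := by
            apply mul_le_mul_of_nonneg_left _ (Nat.cast_nonneg _)
            apply pow_le_pow_left₀ (by positivity)
            exact hlow d C
    exact_mod_cast h2
  · intro e he
    have hG := hGpos 0 (by omega) e (by simpa using he)
    have hWpos : 0 < W 0 e := by
      rw [hW]
      apply Nat.ceil_pos.mpr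
      positivity
    refine ⟨hWpos, ?_⟩
    have hW' : (0 : ℝ) < W 0 e := by exact_mod_cast hWpos
    have h1 := hup 0 (by omega) e (by simpa using he)
    have h2 : (W 0 e : ℝ) / Den ≤ β ^ (r + 1) * G S P r p g r e := by
      rw [div_le_iff₀ hDen']
      simpa using h1
    have h3 : Real.log ((W 0 e : ℝ) / Den) ≤ (r + 1 : ℕ) * Real.log β +
        Real.log (G S P r p g r e) := by
      rw [← Real.log_pow, ← Real.log_mul (by positivity) (by simpa using hG.ne')]
      exact Real.log_le_log (by positivity) h2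
    have hT := Tc_pos hS hp hP hg r le_rfl e (by simpa using he)
    have h4 : Real.log (G S P r p g r e) =
        (1 / (P : ℝ)) * Real.log (Tc S r (fun d => (p d : ℝ) / P) g r e) := by
      rw [G, Real.log_rpow hT]
    have h5 : (0 : ℝ) ≤ P := Nat.cast_nonneg _
    calc P * Real.log ((W 0 e : ℝ) / Den)
        ≤ P * ((r + 1 : ℕ) * Real.log β + Real.log (G S P r p g r e)) :=
          mul_le_mul_of_nonneg_left h3 h5
      _ = P * ((r + 1 : ℕ) * Real.log β) +
          (P * (1 / (P : ℝ))) * Real.log (Tc S r (fun d => (p d : ℝ) / P) g r e) := by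
          rw [h4]; ring
      _ = _ := by
          rw [hβ, mul_one_div_cancel hP', one_mul]
          ring

theorem lowTab_exists (hS : 0 < S) (hP : 0 < P) (hp : ∀ d < r, 0 < p d)
    (hden : 0 < den) (hnum : ∀ C < S ^ (r + 1), 0 < num C) {δ : ℝ} (hδ : 0 < δ) :
    ∀ᶠ Den : ℕ in Filter.atTop, ∃ W : ℕ → ℕ → ℕ, LowTab S P r Den p num den W ∧
      ∀ e < S, Real.log (Tc S r (fun d => (p d : ℝ) / P) (fun C => (num C : ℝ) / den) r e) - δ ≤
        P * Real.log ((W 0 e : ℝ) / Den) := by
  have hden' : (0 : ℝ) < den := by exact_mod_cast hden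
  have hP' : (P : ℝ) ≠ 0 := by exact_mod_cast hP.ne'
  set g : ℕ → ℝ := fun C => (num C : ℝ) / den with hgdef
  have hg : ∀ C < S ^ (r + 1), 0 < g C := by
    intro C hC
    have : (0 : ℝ) < num C := by exact_mod_cast hnum C hC
    exact div_pos this hden'
  obtain ⟨β, hβ1, hβ⟩ := exists_beta (r := r) hP hδ
  have hβ0 : 0 < β := by linarith
  set γ : ℝ := β⁻¹ with hγ
  have hγ0 : 0 < γ := inv_pos.mpr hβ0
  have hγ1 : γ < 1 := inv_lt_one_of_one_lt₀ hβ1
  have hc : 0 < γ ^ r * (1 - γ) := mul_pos (pow_pos hγ0 _) (by linarith)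
  filter_upwards [eventually_large (r := r) hS hP hp hg hc] with Den hD
  obtain ⟨hDen, hlarge⟩ := hD
  have hDen' : (0 : ℝ) < Den := by exact_mod_cast hDen
  set W : ℕ → ℕ → ℕ := fun d C => ⌊γ ^ (r - d) * G S P r p g (r - d) C * Den⌋₊ with hW
  have hGpos : ∀ d ≤ r, ∀ C < S ^ (d + 1), 0 < G S P r p g (r - d) C := by
    intro d hd C hC
    exact G_pos hS hP hp hg (r - d) (by omega) C
      (by rw [show r - (r - d) + 1 = d + 1 by omega]; exact hC)
  have hup : ∀ d ≤ r, ∀ C < S ^ (d + 1),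
      (W d C : ℝ) ≤ γ ^ (r - d) * G S P r p g (r - d) C * Den := by
    intro d hd C hC
    have hG := hGpos d hd C hC
    exact Nat.floor_le (by positivity)
  have hlow : ∀ d ≤ r, ∀ C < S ^ (d + 1),
      γ ^ (r - d + 1) * G S P r p g (r - d) C * Den ≤ (W d C : ℝ) := by
    intro d hd C hC
    have h1 := hlarge d hd C hC
    have hG := hGpos d hd C hC
    have h2 : γ ^ (r - d) * G S P r p g (r - d) C * Den < (W d C : ℝ) + 1 := Nat.lt_floor_add_one _
    have hpow : γ ^ r ≤ γ ^ (r - d) := pow_le_pow_of_le_one hγ0.le hγ1.le (by omega)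
    have h3 : 1 ≤ γ ^ (r - d) * (G S P r p g (r - d) C * Den * (1 - γ)) := by
      calc (1 : ℝ) ≤ G S P r p g (r - d) C * Den * (γ ^ r * (1 - γ)) := h1
        _ = γ ^ r * (G S P r p g (r - d) C * Den * (1 - γ)) := by ring
        _ ≤ _ := by
          apply mul_le_mul_of_nonneg_right hpow
          have : 0 ≤ 1 - γ := by linarith
          positivity
    have h4 : γ ^ (r - d + 1) * G S P r p g (r - d) C * Den =
        γ ^ (r - d) * G S P r p g (r - d) C * Den -
          γ ^ (r - d) * (G S P r p g (r - d) C * Den * (1 - γ)) := by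
      rw [pow_succ]; ring
    rw [h4]
    linarith
  refine ⟨W, ⟨?_, ?_, ?_⟩, ?_⟩
  · -- leaves
    intro C hC
    have hG := hGpos r le_rfl C hC
    have h1 := hup r le_rfl C hC
    rw [Nat.sub_self, pow_zero, one_mul] at h1
    have h2 : (W r C : ℝ) ^ P ≤ (G S P r p g 0 C * Den) ^ P :=
      pow_le_pow_left₀ (Nat.cast_nonneg _) h1 _
    have h3 : G S P r p g 0 C ^ P = g C := by
      rw [G_pow hS hP hp hg 0 (by omega) C (by simpa using hC), div_self hP', Real.rpow_one]
      rfl
    rw [mul_pow, h3] at h2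
    have h4 : (W r C : ℝ) ^ P * den ≤ (num C : ℝ) * Den ^ P := by
      have : (num C : ℝ) = g C * den := by
        rw [hgdef]; field_simp
      rw [this]
      calc _ ≤ (g C * (Den : ℝ) ^ P) * den := mul_le_mul_of_nonneg_right h2 hden'.le
        _ = _ := by ring
    exact_mod_cast h4
  · -- nodes
    intro d hd C hC
    have hG := hGpos d hd.le C hC
    have h1 : ∀ e ∈ range S,
        (γ ^ (r - d) * Den) ^ p d * G S P r p g (r - (d + 1)) (C * S + e) ^ p d ≤
          (W (d + 1) (C * S + e) : ℝ) ^ p d := by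
      intro e he
      rw [← mul_pow]
      have hlt := mul_add_lt hC (mem_range.mp he)
      have hG2 := hGpos (d + 1) (by omega) (C * S + e) hlt
      apply pow_le_pow_left₀ (by positivity)
      have := hlow (d + 1) (by omega) (C * S + e) hlt
      rw [show r - (d + 1) + 1 = r - d by omega] at this
      calc _ = _ := by ring
        _ ≤ _ := this
    have h2 : (S : ℝ) * (W d C : ℝ) ^ p d ≤ (∑ e ∈ range S, (W (d + 1) (C * S + e) : ℝ) ^ p d) := by
      calc (S : ℝ) * (W d C : ℝ) ^ p d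
          ≤ (S : ℝ) * (γ ^ (r - d) * G S P r p g (r - d) C * Den) ^ p d := by
            apply mul_le_mul_of_nonneg_left _ (Nat.cast_nonneg _)
            exact pow_le_pow_left₀ (Nat.cast_nonneg _) (hup d hd.le C hC) _
        _ = (γ ^ (r - d) * Den) ^ p d * ((S : ℝ) * G S P r p g (r - d) C ^ p d) := by
            simp only [mul_pow]; ring
        _ = ∑ e ∈ range S,
            (γ ^ (r - d) * Den) ^ p d * G S P r p g (r - (d + 1)) (C * S + e) ^ p d := by
            rw [← Finset.mul_sum, G_rec hS hP hp hg d hd C hC]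
        _ ≤ _ := Finset.sum_le_sum h1
    exact_mod_cast h2
  · intro e he
    have hG := hGpos 0 (by omega) e (by simpa using he)
    have h1 := hlow 0 (by omega) e (by simpa using he)
    have : (0 : ℝ) < W 0 e := lt_of_lt_of_le (by positivity) h1
    exact_mod_cast this
  · intro e he
    have hG := hGpos 0 (by omega) e (by simpa using he)
    have h1 := hlow 0 (by omega) e (by simpa using he)
    have hW' : (0 : ℝ) < W 0 e := lt_of_lt_of_le (by positivity) h1
    have h2 : γ ^ (r + 1) * G S P r p g r e ≤ (W 0 e : ℝ) / Den := by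
      rw [le_div_iff₀ hDen']
      simpa using h1
    have hG' : 0 < G S P r p g r e := by simpa using hG
    have h3 : (r + 1 : ℕ) * Real.log γ + Real.log (G S P r p g r e) ≤
        Real.log ((W 0 e : ℝ) / Den) := by
      rw [← Real.log_pow, ← Real.log_mul (by positivity) hG'.ne']
      exact Real.log_le_log (by positivity) h2
    have hT := Tc_pos hS hp hP hg r le_rfl e (by simpa using he)
    have h4 : Real.log (G S P r p g r e) =
        (1 / (P : ℝ)) * Real.log (Tc S r (fun d => (p d : ℝ) / P) g r e) := by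
      rw [G, Real.log_rpow hT]
    have h5 : (0 : ℝ) ≤ P := Nat.cast_nonneg _
    have h6 : Real.log γ = -Real.log β := by rw [hγ, Real.log_inv]
    calc Real.log (Tc S r (fun d => (p d : ℝ) / P) g r e) - δ
        = P * ((r + 1 : ℕ) * Real.log γ) +
          (P * (1 / (P : ℝ))) * Real.log (Tc S r (fun d => (p d : ℝ) / P) g r e) := by
          rw [h6, mul_one_div_cancel hP', one_mul]
          have : (P : ℝ) * ((r + 1 : ℕ) * -Real.log β) = -δ := by rw [← hβ]; ring
          rw [this]; ring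
      _ = P * ((r + 1 : ℕ) * Real.log γ + Real.log (G S P r p g r e)) := by
          rw [h4]; ring
      _ ≤ _ := mul_le_mul_of_nonneg_left h3 h5

end Crest.Agent.R153
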