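import Crest.Agent.R153.DCert1
import Crest.Agent.R153.DSat1
import Crest.Agent.R153.DSat2
import Crest.Agent.R153.DTab2

/-!
Row 153 (S0218), piece DComp1.
Truncation; all tables with a common denominator (finitely many eventually-statements).
-/

set_option autoImplicit false

open Finset MeasureTheory Filter
open Crest.ProbabilityR.Diluted
open Crest.Agent.R141

namespace Crest.Agent.R153

/-- Truncation of the series. -/
theorem trunc_neg {r : ℕ} {m : Fin r → ℝ} {X : (Fin (r + 1) → unitInterval) → ℝ}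
    (hm : AdmissibleExponents m) (hX : Measurable X) {q : ℝ} (hq : 0 < q) {ρ : ℝ}
    (hρ0 : 0 < ρ) (hρ1 : ρ < 1)
    (h : trialFunctional 3 q (satLaw 3 ρ) (Measure.dirac 0) r m X < 0) :
    ∃ K : ℕ, Real.log 2 + (∑ k ∈ range K, poissonWeight (q * 3) k * siteAv ρ m X k) -
      q * 2 * edgeAv ρ m X < 0 := by
  rw [trialFunctional_sat] at h
  have h1 := (sat_summable hm hX hq hρ0 hρ1).hasSum.tendsto_sum_nat
  have h2 : Tendsto (fun K : ℕ => Real.log 2 +
      (∑ k ∈ range K, poissonWeight (q * 3) k * siteAv ρ m X k) - q * 2 * edgeAv ρ m X) atTop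
      (nhds (Real.log 2 + (∑' k : ℕ, poissonWeight (q * 3) k * siteAv ρ m X k) -
        q * 2 * edgeAv ρ m X)) := (h1.const_add _).sub_const _
  exact (h2.eventually_lt_const h).exists

/-- All tables at once, with a common denominator. -/
theorem tables {r D P Q : ℕ} {p τ : ℕ → ℕ} (h : TrialOk r D P Q p τ) {R : ℕ} (hR : 2 ≤ R)
    (K : ℕ) {δ : ℝ} (hδ : 0 < δ) :
    ∃ Den : ℕ, 0 < Den ∧ ∃ (W : ℕ → ℕ → ℕ → ℕ → ℕ) (w : ℕ → ℕ → ℕ → ℕ),
      (∀ k < K, ∀ J < 8 ^ k, UpTab ((D + 1) ^ (k * 2)) P r Den p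
        (mixN D r (k * 2) Q τ (siteN k R J)) (2 * R ^ k * Q ^ (k * 2)) (W k J) ∧
        ∀ C < (D + 1) ^ (k * 2), 0 < W k J 0 C ∧ P * Real.log ((W k J 0 C : ℝ) / Den) ≤
          Real.log (Tc ((D + 1) ^ (k * 2)) r
          (fun d => (p d : ℝ) / P) (fun C => (mixN D r (k * 2) Q τ (siteN k R J) C : ℝ) /
            ((2 * R ^ k * Q ^ (k * 2) : ℕ) : ℝ)) r C) + δ) ∧
      (∀ J < 8, LowTab ((D + 1) ^ 3) P r Den p
        (mixN D r 3 Q τ (edgeN R J)) (R * Q ^ 3) (w J) ∧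
        ∀ C < (D + 1) ^ 3, Real.log (Tc ((D + 1) ^ 3) r
          (fun d => (p d : ℝ) / P) (fun C => (mixN D r 3 Q τ (edgeN R J) C : ℝ) /
            ((R * Q ^ 3 : ℕ) : ℝ)) r C) - δ ≤ P * Real.log ((w J 0 C : ℝ) / Den)) := by
  have hRpos : 0 < R := by omega
  have hsite : ∀ k J s : ℕ, 0 < siteN k R J s := by
    intro k J s
    unfold siteN
    refine sum_pos (fun ε _ => prod_pos fun j _ => ?_) ⟨0, by simp⟩
    split_ifs <;> omega
  have hedge : ∀ J s : ℕ, 0 < edgeN R J s := by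
    intro J s
    unfold edgeN
    split_ifs <;> omega
  have hup : ∀ k ∈ range K, ∀ J ∈ range (8 ^ k), ∀ᶠ Den : ℕ in atTop, ∃ W : ℕ → ℕ → ℕ,
      UpTab ((D + 1) ^ (k * 2)) P r Den p
        (mixN D r (k * 2) Q τ (siteN k R J)) (2 * R ^ k * Q ^ (k * 2)) W ∧
        ∀ C < (D + 1) ^ (k * 2), 0 < W 0 C ∧ P * Real.log ((W 0 C : ℝ) / Den) ≤
          Real.log (Tc ((D + 1) ^ (k * 2)) r
          (fun d => (p d : ℝ) / P) (fun C => (mixN D r (k * 2) Q τ (siteN k R J) C : ℝ) /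
            ((2 * R ^ k * Q ^ (k * 2) : ℕ) : ℝ)) r C) + δ := by
    intro k _ J _
    refine upTab_exists (by positivity) h.hP (fun d hd => (h.hp d hd).1)
      (by have := h.hQ; positivity) (fun C _ => ?_) hδ
    exact mixN_pos D r (k * 2) τ h.hτ _ (fun s _ => hsite k J s) C
  have hlow : ∀ J ∈ range 8, ∀ᶠ Den : ℕ in atTop, ∃ W : ℕ → ℕ → ℕ,
      LowTab ((D + 1) ^ 3) P r Den p
        (mixN D r 3 Q τ (edgeN R J)) (R * Q ^ 3) W ∧
        ∀ C < (D + 1) ^ 3, Real.log (Tc ((D + 1) ^ 3) r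
          (fun d => (p d : ℝ) / P) (fun C => (mixN D r 3 Q τ (edgeN R J) C : ℝ) /
            ((R * Q ^ 3 : ℕ) : ℝ)) r C) - δ ≤ P * Real.log ((W 0 C : ℝ) / Den) := by
    intro J _
    refine lowTab_exists (by positivity) h.hP (fun d hd => (h.hp d hd).1)
      (by have := h.hQ; positivity) (fun C _ => ?_) hδ
    exact mixN_pos D r 3 τ h.hτ _ (fun s _ => hedge J s) C
  have hup' : ∀ᶠ Den : ℕ in atTop, ∀ k ∈ range K, ∀ J ∈ range (8 ^ k), ∃ W : ℕ → ℕ → ℕ,
      UpTab ((D + 1) ^ (k * 2)) P r Den p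
        (mixN D r (k * 2) Q τ (siteN k R J)) (2 * R ^ k * Q ^ (k * 2)) W ∧
        ∀ C < (D + 1) ^ (k * 2), 0 < W 0 C ∧ P * Real.log ((W 0 C : ℝ) / Den) ≤
          Real.log (Tc ((D + 1) ^ (k * 2)) r
          (fun d => (p d : ℝ) / P) (fun C => (mixN D r (k * 2) Q τ (siteN k R J) C : ℝ) /
            ((2 * R ^ k * Q ^ (k * 2) : ℕ) : ℝ)) r C) + δ := by
    rw [Filter.eventually_all_finset]
    intro k hk
    rw [Filter.eventually_all_finset]
    exact hup k hk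
  have hlow' := (Filter.eventually_all_finset (range 8)).2 hlow
  obtain ⟨Den, hDen, h1, h2⟩ := ((eventually_ge_atTop 1).and (hup'.and hlow')).exists
  choose! W hW using h1
  choose! w hw using h2
  exact ⟨Den, hDen, W, w, fun k hk J hJ => hW k (mem_range.2 hk) J (mem_range.2 hJ),
    fun J hJ => hw J (mem_range.2 hJ)⟩

end Crest.Agent.R153
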