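import Crest.Agent.R153.DDefs

/-!
Row 153 (S0218), piece DComp2.
Integer weights: first n large ((1-x/n)^n -> exp(-x)), then M large, e_k = floor (M x_k(n)), f = ceil (M 2q/Ne).
-/

set_option autoImplicit false

open Finset MeasureTheory Filter
open Crest.ProbabilityR.Diluted
open Crest.Agent.R141

namespace Crest.Agent.R153

/-- Integer approximations of the Poisson weights. `y k` : the logarithms multiplied by the weights,
`z` : the edge part. -/
theorem weights {a b : ℕ} (ha : 0 < a) (hb : 0 < b) (K : ℕ) (N : ℕ → ℕ) (hN : ∀ k, 0 < N k)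
    (Ne : ℕ) (hNe : 0 < Ne) (y : ℕ → ℝ) (z : ℝ)
    (h : Real.log 2 + (∑ k ∈ range K, poissonWeight ((a : ℝ) / b * 3) k / N k * y k) +
      ((a : ℝ) / b * 2 / Ne) * z < 0) :
    ∃ (n M f : ℕ) (e : ℕ → ℕ), 0 < M ∧ 3 * a < n * b ∧
      (∀ k < K, e k * N k * Nat.factorial k * (n * b) ^ n * b ^ k ≤
        M * (n * b - 3 * a) ^ n * (3 * a) ^ k) ∧
      M * (2 * a) ≤ f * Ne * b ∧
      M * Real.log 2 + (∑ k ∈ range K, e k * y k) + f * z < 0 := by
  have haR : (0 : ℝ) < a := by exact_mod_cast ha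
  have hbR : (0 : ℝ) < b := by exact_mod_cast hb
  have hNR : ∀ k, (0 : ℝ) < N k := fun k => by exact_mod_cast hN k
  have hNeR : (0 : ℝ) < Ne := by exact_mod_cast hNe
  set lam : ℝ := (a : ℝ) / b * 3 with hlam
  have hlam0 : 0 < lam := by positivity
  set q : ℝ := (a : ℝ) / b * 2 / Ne with hq
  have hq0 : 0 < q := by positivity
  -- the first limit
  have hT : Tendsto (fun n : ℕ => Real.log 2 + (∑ k ∈ range K,
      ((1 + (-lam) / (n : ℝ)) ^ n * lam ^ k / (Nat.factorial k : ℝ)) / N k * y k) + q * z)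
      atTop (nhds (Real.log 2 + (∑ k ∈ range K, poissonWeight lam k / N k * y k) + q * z)) := by
    refine (tendsto_const_nhds.add (tendsto_finsetSum _ fun k _ => ?_)).add tendsto_const_nhds
    refine (Tendsto.div_const ?_ _).mul_const _
    have h1 := Real.tendsto_one_add_div_pow_exp (-lam)
    unfold poissonWeight
    exact (h1.mul_const _).div_const _
  obtain ⟨n, hn1, hn2⟩ := ((hT.eventually (gt_mem_nhds h)).and
    (eventually_gt_atTop (3 * a))).exists
  have hnb : 3 * a < n * b := lt_of_lt_of_le hn2 (Nat.le_mul_of_pos_right n hb)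
  have hnR : (0 : ℝ) < n := by
    have : 0 < n := by omega
    exact_mod_cast this
  have hsub : ((n * b - 3 * a : ℕ) : ℝ) = n * b - 3 * a := by
    rw [Nat.cast_sub hnb.le]; push_cast; ring
  have hsub0 : (0 : ℝ) < n * b - 3 * a := by
    rw [← hsub]
    exact_mod_cast Nat.sub_pos_of_lt hnb
  set x : ℕ → ℝ := fun k => ((n : ℝ) * b - 3 * a) ^ n * (3 * a) ^ k /
    (N k * Nat.factorial k * (n * b) ^ n * b ^ k) with hx
  have hfk : ∀ k, (0 : ℝ) < Nat.factorial k := fun k => by exact_mod_cast Nat.factorial_pos k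
  have hx0 : ∀ k, 0 ≤ x k := by
    intro k
    simp only [hx]
    have := hNR k
    have := hfk k
    positivity
  have hxe : ∀ k, ((1 + (-lam) / (n : ℝ)) ^ n * lam ^ k / (Nat.factorial k : ℝ)) / N k = x k := by
    intro k
    have h1 : 1 + (-lam) / (n : ℝ) = (n * b - 3 * a) / (n * b) := by
      rw [hlam]; field_simp; ring
    have h2 : lam = (3 * a) / b := by rw [hlam]; ring
    rw [h1, h2, div_pow, div_pow]
    simp only [hx]
    have := hNR k
    have := hfk k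
    field_simp
  simp only [hxe] at hn1
  set g : ℝ := Real.log 2 + (∑ k ∈ range K, x k * y k) + q * z with hg
  -- the second limit
  obtain ⟨M, hM⟩ := exists_nat_gt (((∑ k ∈ range K, |y k|) + |z|) / (-g))
  have hng : 0 < -g := by linarith
  have hM0 : (0 : ℝ) < M := by
    refine lt_of_le_of_lt ?_ hM
    have : 0 ≤ (∑ k ∈ range K, |y k|) := Finset.sum_nonneg fun _ _ => abs_nonneg _
    positivity
  rw [div_lt_iff₀ hng] at hM
  refine ⟨n, M, ⌈(M : ℝ) * q⌉₊, fun k => ⌊(M : ℝ) * x k⌋₊, by exact_mod_cast hM0, hnb, ?_, ?_, ?_⟩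
  · intro k _
    have h1 : ((⌊(M : ℝ) * x k⌋₊ : ℕ) : ℝ) ≤ M * x k :=
      Nat.floor_le (mul_nonneg hM0.le (hx0 k))
    have h2 : ((⌊(M : ℝ) * x k⌋₊ * N k * Nat.factorial k * (n * b) ^ n * b ^ k : ℕ) : ℝ) ≤
        ((M * (n * b - 3 * a) ^ n * (3 * a) ^ k : ℕ) : ℝ) := by
      push_cast [hsub]
      have h3 : (0 : ℝ) < N k * Nat.factorial k * (n * b) ^ n * b ^ k := by
        have := hNR k
        have := hfk k
        positivity
      calc (⌊(M : ℝ) * x k⌋₊ : ℝ) * N k * Nat.factorial k * (n * b) ^ n * b ^ k =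
          (⌊(M : ℝ) * x k⌋₊ : ℝ) * (N k * Nat.factorial k * (n * b) ^ n * b ^ k) := by ring
        _ ≤ (M * x k) * (N k * Nat.factorial k * (n * b) ^ n * b ^ k) :=
            mul_le_mul_of_nonneg_right h1 h3.le
        _ = M * (n * b - 3 * a) ^ n * (3 * a) ^ k := by
            simp only [hx]
            have h5 := (hNR k).ne'
            have h6 := (hfk k).ne'
            field_simp
    exact_mod_cast h2
  · have h1 : (M : ℝ) * q ≤ (⌈(M : ℝ) * q⌉₊ : ℕ) := Nat.le_ceil _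
    have h2 : ((M * (2 * a) : ℕ) : ℝ) ≤ ((⌈(M : ℝ) * q⌉₊ * Ne * b : ℕ) : ℝ) := by
      push_cast
      calc (M : ℝ) * (2 * a) = M * q * (Ne * b) := by rw [hq]; field_simp
        _ ≤ (⌈(M : ℝ) * q⌉₊ : ℝ) * (Ne * b) := mul_le_mul_of_nonneg_right h1 (by positivity)
        _ = (⌈(M : ℝ) * q⌉₊ : ℝ) * Ne * b := by ring
    exact_mod_cast h2
  · have h1 : ∀ k, ((⌊(M : ℝ) * x k⌋₊ : ℕ) : ℝ) * y k ≤ M * (x k * y k) + |y k| := by
      intro k
      have e1 : ((⌊(M : ℝ) * x k⌋₊ : ℕ) : ℝ) ≤ M * x k :=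
        Nat.floor_le (mul_nonneg hM0.le (hx0 k))
      have e2 : (M : ℝ) * x k < (⌊(M : ℝ) * x k⌋₊ : ℕ) + 1 := Nat.lt_floor_add_one _
      have e3 : |((⌊(M : ℝ) * x k⌋₊ : ℕ) : ℝ) - M * x k| ≤ 1 := by
        rw [abs_le]; constructor <;> linarith
      have e4 : (((⌊(M : ℝ) * x k⌋₊ : ℕ) : ℝ) - M * x k) * y k ≤ 1 * |y k| := by
        refine (le_abs_self _).trans ?_
        rw [abs_mul]
        exact mul_le_mul_of_nonneg_right e3 (abs_nonneg _)
      linarith
    have h2 : ((⌈(M : ℝ) * q⌉₊ : ℕ) : ℝ) * z ≤ M * (q * z) + |z| := by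
      have e1 : (M : ℝ) * q ≤ (⌈(M : ℝ) * q⌉₊ : ℕ) := Nat.le_ceil _
      have e2 : ((⌈(M : ℝ) * q⌉₊ : ℕ) : ℝ) < M * q + 1 := Nat.ceil_lt_add_one (by positivity)
      have e3 : |((⌈(M : ℝ) * q⌉₊ : ℕ) : ℝ) - M * q| ≤ 1 := by
        rw [abs_le]; constructor <;> linarith
      have e4 : (((⌈(M : ℝ) * q⌉₊ : ℕ) : ℝ) - M * q) * z ≤ 1 * |z| := by
        refine (le_abs_self _).trans ?_
        rw [abs_mul]
        exact mul_le_mul_of_nonneg_right e3 (abs_nonneg _)
      linarith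
    have h3 : ∑ k ∈ range K, ((⌊(M : ℝ) * x k⌋₊ : ℕ) : ℝ) * y k ≤
        M * (∑ k ∈ range K, x k * y k) + ∑ k ∈ range K, |y k| := by
      rw [Finset.mul_sum, ← Finset.sum_add_distrib]
      exact Finset.sum_le_sum fun k _ => h1 k
    have h4 : (M : ℝ) * Real.log 2 + M * (∑ k ∈ range K, x k * y k) + M * (q * z) = M * g := by
      rw [hg]; ring
    linarith

end Crest.Agent.R153
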