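import Crest.Agent.R153.DComp1
import Crest.Agent.R153.DComp2

/-!
Row 153 (S0218), piece DComp3.
Completeness of certificates for rational table trials.
-/

set_option autoImplicit false

open Finset MeasureTheory Filter
open Crest.ProbabilityR.Diluted
open Crest.Agent.R141

namespace Crest.Agent.R153

theorem comp_sum_log_div (n : ℕ) (P D : ℝ) (hD : 0 < D) (x : ℕ → ℝ) (hx : ∀ C < n, 0 < x C) :
    ∑ C ∈ range n, P * Real.log (x C / D) =
      (∑ C ∈ range n, P * Real.log (x C)) - n * (P * Real.log D) := by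
  have h : ∑ C ∈ range n, P * Real.log (x C / D) =
      ∑ C ∈ range n, (P * Real.log (x C) - P * Real.log D) := by
    refine sum_congr rfl fun C hC => ?_
    rw [Real.log_div (hx C (mem_range.1 hC)).ne' hD.ne']
    ring
  rw [h, sum_sub_distrib, sum_const, card_range, nsmul_eq_mul]

/-- The final inequality from its logarithmic form. -/
theorem fin_of_log {K M Den P f Ne : ℕ} (hDen : 0 < Den) {e S : ℕ → ℕ}
    {W : ℕ → ℕ → ℕ → ℕ} {w : ℕ → ℕ → ℕ} {Se : ℕ} (hNe : Ne = 8 * Se)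
    (hW : ∀ k < K, ∀ J < 8 ^ k, ∀ C < S k, 0 < W k J C) (hw : ∀ J < 8, ∀ C < Se, 0 < w J C)
    (hlog0 : M * Real.log 2 + (∑ k ∈ range K, (e k : ℝ) * ∑ J ∈ range (8 ^ k),
      ∑ C ∈ range (S k), P * Real.log ((W k J C : ℝ) / Den)) -
      f * ∑ J ∈ range 8, ∑ C ∈ range Se, P * Real.log ((w J C : ℝ) / Den) < 0) :
    2 ^ M * (∏ k ∈ range K, ∏ J ∈ range (8 ^ k), ∏ C ∈ range (S k),
      W k J C ^ (P * e k)) * Den ^ (P * f * Ne) <
    Den ^ (P * ∑ k ∈ range K, e k * (8 ^ k * S k)) *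
      ∏ J ∈ range 8, ∏ C ∈ range Se, w J C ^ (P * f) := by
  have hD : (0 : ℝ) < Den := by exact_mod_cast hDen
  have hWp : ∀ k < K, ∀ J < 8 ^ k, ∀ C < S k, (0 : ℝ) < W k J C := fun k hk J hJ C hC => by
    exact_mod_cast hW k hk J hJ C hC
  have hwp : ∀ J < 8, ∀ C < Se, (0 : ℝ) < w J C := fun J hJ C hC => by
    exact_mod_cast hw J hJ C hC
  have hp1 : 0 < ∏ k ∈ range K, ∏ J ∈ range (8 ^ k), ∏ C ∈ range (S k),
      (W k J C : ℝ) ^ (P * e k) :=
    prod_pos fun k hk => prod_pos fun J hJ => prod_pos fun C hC =>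
      pow_pos (hWp k (mem_range.1 hk) J (mem_range.1 hJ) C (mem_range.1 hC)) _
  have hp2 : 0 < ∏ J ∈ range 8, ∏ C ∈ range Se, (w J C : ℝ) ^ (P * f) :=
    prod_pos fun J hJ => prod_pos fun C hC =>
      pow_pos (hwp J (mem_range.1 hJ) C (mem_range.1 hC)) _
  suffices hR : (2 : ℝ) ^ M * (∏ k ∈ range K, ∏ J ∈ range (8 ^ k), ∏ C ∈ range (S k),
      (W k J C : ℝ) ^ (P * e k)) * (Den : ℝ) ^ (P * f * Ne) <
    (Den : ℝ) ^ (P * ∑ k ∈ range K, e k * (8 ^ k * S k)) *
      ∏ J ∈ range 8, ∏ C ∈ range Se, (w J C : ℝ) ^ (P * f) by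
    exact_mod_cast hR
  rw [← Real.log_lt_log_iff (by positivity) (by positivity)]
  rw [Real.log_mul (by positivity) (by positivity), Real.log_mul (by positivity) hp1.ne',
    Real.log_mul (by positivity) hp2.ne', Real.log_pow, Real.log_pow, Real.log_pow]
  have hl1 : Real.log (∏ k ∈ range K, ∏ J ∈ range (8 ^ k), ∏ C ∈ range (S k),
      (W k J C : ℝ) ^ (P * e k)) = ∑ k ∈ range K, ∑ J ∈ range (8 ^ k), ∑ C ∈ range (S k),
        ((P * e k : ℕ) : ℝ) * Real.log (W k J C) := by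
    rw [Real.log_prod (fun k hk => (prod_pos fun J hJ => prod_pos fun C hC =>
      pow_pos (hWp k (mem_range.1 hk) J (mem_range.1 hJ) C (mem_range.1 hC)) _).ne')]
    refine sum_congr rfl fun k hk => ?_
    rw [Real.log_prod (fun J hJ => (prod_pos fun C hC =>
      pow_pos (hWp k (mem_range.1 hk) J (mem_range.1 hJ) C (mem_range.1 hC)) _).ne')]
    refine sum_congr rfl fun J hJ => ?_
    rw [Real.log_prod (fun C hC =>
      (pow_pos (hWp k (mem_range.1 hk) J (mem_range.1 hJ) C (mem_range.1 hC)) _).ne')]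
    refine sum_congr rfl fun C _ => ?_
    rw [Real.log_pow]
  have hl2 : Real.log (∏ J ∈ range 8, ∏ C ∈ range Se, (w J C : ℝ) ^ (P * f)) =
      ∑ J ∈ range 8, ∑ C ∈ range Se, ((P * f : ℕ) : ℝ) * Real.log (w J C) := by
    rw [Real.log_prod (fun J hJ => (prod_pos fun C hC =>
      pow_pos (hwp J (mem_range.1 hJ) C (mem_range.1 hC)) _).ne')]
    refine sum_congr rfl fun J hJ => ?_
    rw [Real.log_prod (fun C hC =>
      (pow_pos (hwp J (mem_range.1 hJ) C (mem_range.1 hC)) _).ne')]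
    refine sum_congr rfl fun C _ => ?_
    rw [Real.log_pow]
  rw [hl1, hl2]
  have e1 : ∑ k ∈ range K, (e k : ℝ) * ∑ J ∈ range (8 ^ k), ∑ C ∈ range (S k),
      P * Real.log ((W k J C : ℝ) / Den) =
      (∑ k ∈ range K, ∑ J ∈ range (8 ^ k), ∑ C ∈ range (S k),
        ((P * e k : ℕ) : ℝ) * Real.log (W k J C)) -
      ((P * ∑ k ∈ range K, e k * (8 ^ k * S k) : ℕ) : ℝ) * Real.log Den := by
    rw [Nat.cast_mul, Nat.cast_sum, mul_sum, sum_mul, ← sum_sub_distrib]
    refine sum_congr rfl fun k hk => ?_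
    have h1 : ∀ J ∈ range (8 ^ k), ∑ C ∈ range (S k), (P : ℝ) * Real.log ((W k J C : ℝ) / Den) =
        (∑ C ∈ range (S k), (P : ℝ) * Real.log (W k J C)) - S k * (P * Real.log Den) := by
      intro J hJ
      exact comp_sum_log_div (S k) P Den hD (fun C => (W k J C : ℝ))
        (hWp k (mem_range.1 hk) J (mem_range.1 hJ))
    rw [sum_congr rfl h1, sum_sub_distrib, sum_const, card_range, nsmul_eq_mul, mul_sub]
    congr 1
    · rw [mul_sum]
      refine sum_congr rfl fun J _ => ?_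
      rw [mul_sum]
      refine sum_congr rfl fun C _ => ?_
      push_cast
      ring
    · push_cast
      ring
  have e2 : ∑ J ∈ range 8, ∑ C ∈ range Se, P * Real.log ((w J C : ℝ) / Den) =
      (∑ J ∈ range 8, ∑ C ∈ range Se, (P : ℝ) * Real.log (w J C)) - Ne * (P * Real.log Den) := by
    have h1 : ∀ J ∈ range 8, ∑ C ∈ range Se, (P : ℝ) * Real.log ((w J C : ℝ) / Den) =
        (∑ C ∈ range Se, (P : ℝ) * Real.log (w J C)) - Se * (P * Real.log Den) := by
      intro J hJ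
      exact comp_sum_log_div Se P Den hD (fun C => (w J C : ℝ)) (hwp J (mem_range.1 hJ))
    rw [sum_congr rfl h1, sum_sub_distrib, sum_const, card_range, nsmul_eq_mul, hNe]
    push_cast
    ring
  have e3 : ∑ J ∈ range 8, ∑ C ∈ range Se, ((P * f : ℕ) : ℝ) * Real.log (w J C) =
      f * ∑ J ∈ range 8, ∑ C ∈ range Se, (P : ℝ) * Real.log (w J C) := by
    rw [mul_sum]
    refine sum_congr rfl fun J _ => ?_
    rw [mul_sum]
    refine sum_congr rfl fun C _ => ?_
    push_cast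
    ring
  rw [e3]
  rw [e1, e2] at hlog0
  push_cast at hlog0 ⊢
  nlinarith [hlog0]

/-- The logarithmic inequality for the tables. `A k`, `Bd` : sums of the true logarithms. -/
theorem slack {K : ℕ} {L2 : ℝ} (x A : ℕ → ℝ) (y E : ℝ)
    (h : L2 + (∑ k ∈ range K, x k * A k) - y * E < 0) (n : ℕ → ℝ) (n' : ℝ) :
    ∃ δ : ℝ, 0 < δ ∧ ∀ (A' : ℕ → ℝ) (E' : ℝ), (∀ k < K, x k * A' k ≤ x k * A k + n k * δ) →
      -(y * E') ≤ -(y * E) + n' * δ → L2 + (∑ k ∈ range K, x k * A' k) - y * E' < 0 := by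
  set s : ℝ := L2 + (∑ k ∈ range K, x k * A k) - y * E with hs
  set T : ℝ := |∑ k ∈ range K, n k| + |n'| + 1 with hT
  have hT0 : 0 < T := by positivity
  refine ⟨-s / (2 * T), by apply div_pos <;> linarith, fun A' E' h1 h2 => ?_⟩
  set δ : ℝ := -s / (2 * T) with hδ
  have hδ0 : 0 < δ := by apply div_pos <;> linarith
  have h3 : ∑ k ∈ range K, x k * A' k ≤ (∑ k ∈ range K, x k * A k) + (∑ k ∈ range K, n k) * δ := by
    rw [sum_mul, ← sum_add_distrib]
    exact sum_le_sum fun k hk => h1 k (mem_range.1 hk)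
  have h4 : (∑ k ∈ range K, n k) * δ ≤ |∑ k ∈ range K, n k| * δ :=
    mul_le_mul_of_nonneg_right (le_abs_self _) hδ0.le
  have h5 : n' * δ ≤ |n'| * δ := mul_le_mul_of_nonneg_right (le_abs_self _) hδ0.le
  have h6 : T * δ = -s / 2 := by
    rw [hδ]; field_simp
  have h7 : |∑ k ∈ range K, n k| * δ + |n'| * δ + δ = T * δ := by rw [hT]; ring
  linarith

/-- COMPLETENESS for rational table trials. -/
theorem cert_complete {r D P Q : ℕ} {p τ : ℕ → ℕ} (h : TrialOk r D P Q p τ) {R : ℕ} (hR : 2 ≤ R)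
    {a b : ℕ} (ha : 0 < a) (hb : 0 < b)
    (hneg : trialFunctional 3 ((a : ℝ) / b) (satLaw 3 (1 / (R : ℝ))) (Measure.dirac 0) r
      (exQ P r p) (tabQ D r Q τ) < 0) : ∃ c : Cert, c.Ok a b := by
  have haR : (0 : ℝ) < a := by exact_mod_cast ha
  have hbR : (0 : ℝ) < b := by exact_mod_cast hb
  have hRR : (2 : ℝ) ≤ R := by exact_mod_cast hR
  have hρ0 : (0 : ℝ) < 1 / (R : ℝ) := by positivity
  have hρ1 : 1 / (R : ℝ) < 1 := by
    rw [div_lt_one (by linarith)]; linarith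
  have hadm := exQ_adm h
  have hX : Measurable (tabQ D r Q τ) := measurable_Xtab _ _ _
  set q : ℝ := (a : ℝ) / b with hq
  have hq0 : 0 < q := by positivity
  obtain ⟨K, hK⟩ := trunc_neg hadm hX hq0 hρ0 hρ1 hneg
  have hpw : ∀ k, 0 ≤ poissonWeight (q * 3) k := fun k => by
    unfold poissonWeight
    positivity
  -- slack
  obtain ⟨δ, hδ, hslack⟩ := slack (K := K) (fun k => poissonWeight (q * 3) k)
    (fun k => siteAv (1 / (R : ℝ)) (exQ P r p) (tabQ D r Q τ) k) (q * 2)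
    (edgeAv (1 / (R : ℝ)) (exQ P r p) (tabQ D r Q τ)) hK
    (fun k => poissonWeight (q * 3) k) (q * 2)
  obtain ⟨Den, hDen, W, w, hW, hw⟩ := tables h hR K hδ
  have hDR : (0 : ℝ) < Den := by exact_mod_cast hDen
  set S : ℕ → ℕ := fun k => (D + 1) ^ (k * 2) with hS
  set Se : ℕ := (D + 1) ^ 3 with hSe
  have hS0 : ∀ k, 0 < S k := fun k => by simp only [hS]; positivity
  have hSe0 : 0 < Se := by rw [hSe]; positivity
  -- sums of the logarithms
  set Y : ℕ → ℝ := fun k => ∑ J ∈ range (8 ^ k), ∑ C ∈ range (S k),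
    P * Real.log ((W k J 0 C : ℝ) / Den) with hY
  set Z : ℝ := ∑ J ∈ range 8, ∑ C ∈ range Se, P * Real.log ((w J 0 C : ℝ) / Den) with hZ
  have hA : ∀ k < K, ((8 ^ k * S k : ℕ) : ℝ)⁻¹ * Y k ≤
      siteAv (1 / (R : ℝ)) (exQ P r p) (tabQ D r Q τ) k + δ := by
    intro k hk
    rw [siteAv_tab h hR k]
    have h1 : ∀ J ∈ range (8 ^ k), ((S k : ℕ) : ℝ)⁻¹ * ∑ C ∈ range (S k),
        P * Real.log ((W k J 0 C : ℝ) / Den) ≤ ((S k : ℕ) : ℝ)⁻¹ *
        (∑ C ∈ range (S k), Real.log (Tc ((D + 1) ^ (k * 2)) r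
          (fun d => (p d : ℝ) / P) (fun C => (mixN D r (k * 2) Q τ (siteN k R J) C : ℝ) /
            ((2 * R ^ k * Q ^ (k * 2) : ℕ) : ℝ)) r C)) + δ := by
      intro J hJ
      have hSk : (0 : ℝ) < (S k : ℕ) := by exact_mod_cast hS0 k
      have h2 : ∑ C ∈ range (S k), P * Real.log ((W k J 0 C : ℝ) / Den) ≤
          (∑ C ∈ range (S k), Real.log (Tc ((D + 1) ^ (k * 2)) r
          (fun d => (p d : ℝ) / P) (fun C => (mixN D r (k * 2) Q τ (siteN k R J) C : ℝ) /
            ((2 * R ^ k * Q ^ (k * 2) : ℕ) : ℝ)) r C)) + S k * δ := by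
        have h3 := sum_le_sum fun C (hC : C ∈ range (S k)) =>
          ((hW k hk J (mem_range.1 hJ)).2 C (mem_range.1 hC)).2
        rw [sum_add_distrib, sum_const, card_range, nsmul_eq_mul] at h3
        exact h3
      calc _ ≤ ((S k : ℕ) : ℝ)⁻¹ * _ := mul_le_mul_of_nonneg_left h2 (by positivity)
        _ = _ := by rw [mul_add, inv_mul_cancel_left₀ hSk.ne']
    have h80 : (0 : ℝ) < ((8 ^ k : ℕ) : ℝ) := by positivity
    have h4 := mul_le_mul_of_nonneg_left (sum_le_sum h1) (inv_nonneg.2 h80.le)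
    rw [sum_add_distrib, sum_const, card_range, nsmul_eq_mul, mul_add,
      inv_mul_cancel_left₀ h80.ne'] at h4
    refine le_trans (le_of_eq ?_) h4
    rw [hY, ← mul_sum]
    push_cast
    rw [mul_inv]
    ring
  have hE : edgeAv (1 / (R : ℝ)) (exQ P r p) (tabQ D r Q τ) - δ ≤ ((8 * Se : ℕ) : ℝ)⁻¹ * Z := by
    rw [edgeAv_tab h hR]
    have h1 : ∀ J ∈ range 8, ((Se : ℕ) : ℝ)⁻¹ *
        (∑ C ∈ range Se, Real.log (Tc ((D + 1) ^ 3) r
          (fun d => (p d : ℝ) / P) (fun C => (mixN D r 3 Q τ (edgeN R J) C : ℝ) /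
            ((R * Q ^ 3 : ℕ) : ℝ)) r C)) - δ ≤ ((Se : ℕ) : ℝ)⁻¹ * ∑ C ∈ range Se,
        P * Real.log ((w J 0 C : ℝ) / Den) := by
      intro J hJ
      have hSk : (0 : ℝ) < (Se : ℕ) := by exact_mod_cast hSe0
      have h2 : (∑ C ∈ range Se, Real.log (Tc ((D + 1) ^ 3) r
          (fun d => (p d : ℝ) / P) (fun C => (mixN D r 3 Q τ (edgeN R J) C : ℝ) /
            ((R * Q ^ 3 : ℕ) : ℝ)) r C)) - Se * δ ≤
          ∑ C ∈ range Se, P * Real.log ((w J 0 C : ℝ) / Den) := by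
        have h3 := sum_le_sum fun C (hC : C ∈ range Se) =>
          (hw J (mem_range.1 hJ)).2 C (mem_range.1 hC)
        rw [sum_sub_distrib, sum_const, card_range, nsmul_eq_mul] at h3
        exact h3
      calc _ = ((Se : ℕ) : ℝ)⁻¹ * ((∑ C ∈ range Se, Real.log (Tc ((D + 1) ^ 3) r
          (fun d => (p d : ℝ) / P) (fun C => (mixN D r 3 Q τ (edgeN R J) C : ℝ) /
            ((R * Q ^ 3 : ℕ) : ℝ)) r C)) - Se * δ) := by
            rw [mul_sub, inv_mul_cancel_left₀ hSk.ne']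
        _ ≤ _ := mul_le_mul_of_nonneg_left h2 (by positivity)
    have h4 := mul_le_mul_of_nonneg_left (sum_le_sum h1) (by norm_num : (0 : ℝ) ≤ (8 : ℝ)⁻¹)
    rw [sum_sub_distrib, sum_const, card_range, nsmul_eq_mul, mul_sub] at h4
    have h5 : (8 : ℝ)⁻¹ * (((8 : ℕ) : ℝ) * δ) = δ := by push_cast; ring
    rw [h5] at h4
    refine h4.trans (le_of_eq ?_)
    rw [hZ, ← mul_sum]
    push_cast
    rw [mul_inv]
    ring
  have hneg2 := hslack (fun k => ((8 ^ k * S k : ℕ) : ℝ)⁻¹ * Y k) (((8 * Se : ℕ) : ℝ)⁻¹ * Z)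
    (fun k hk => by
      have := mul_le_mul_of_nonneg_left (hA k hk) (hpw k)
      rw [mul_add] at this
      exact this)
    (by
      have := mul_le_mul_of_nonneg_left hE (by positivity : 0 ≤ q * 2)
      rw [mul_sub] at this
      linarith)
  -- integer weights
  obtain ⟨n, M, f, e, hM, hn, he, hf, hlog⟩ := weights ha hb K (fun k => 8 ^ k * S k)
    (fun k => Nat.mul_pos (by positivity) (hS0 k)) (8 * Se) (by omega) Y (-Z) (by
      refine lt_of_eq_of_lt ?_ hneg2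
      rw [sub_eq_add_neg]
      congr 1
      · congr 1
        refine sum_congr rfl fun k _ => ?_
        rw [div_eq_mul_inv, mul_assoc]
      · rw [div_eq_mul_inv]
        ring)
  refine ⟨{ R := R, r := r, D := D, P := P, Q := Q, Den := Den, K := K, n := n, M := M, f := f,
            p := p, τ := τ, e := e, W := W, w := w }, hR, hDen, hM, h,
    fun k hk J hJ => (hW k hk J hJ).1, fun J hJ => (hw J hJ).1, hn, he, hf, ?_⟩
  refine fin_of_log (S := S) (Se := Se) (W := fun k J C => W k J 0 C) (w := fun J C => w J 0 C)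
    hDen rfl (fun k hk J hJ C hC => ((hW k hk J hJ).2 C hC).1)
    (fun J hJ C hC => (hw J hJ).1.2.2 C hC) ?_
  have : (M : ℝ) * Real.log 2 + (∑ k ∈ range K, (e k : ℝ) * Y k) + f * (-Z) < 0 := hlog
  rw [mul_neg, ← sub_eq_add_neg] at this
  exact this

end Crest.Agent.R153
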