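import Crest.Agent.R153.VT4
import Crest.Agent.R141.LTri

/-!
Row 153 (S0218), parts D2 + E: definitions.

`D + 1` cells per level; a table trial is a function of the cells.  Nested power means of a table
trial are a recursion on natural number codes (`Tc`).  Certificates are tables of natural numbers
whose `P`-th powers bound the node values.
-/

set_option autoImplicit false

open Finset MeasureTheory
open Crest.ProbabilityR.Diluted
open Crest.Agent.R141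

namespace Crest.Agent.R153

noncomputable section

variable {B : Type} [Fintype B] [DecidableEq B]

/-- The cell (among `D + 1`) of a point of `[0,1]`. -/
def cell (D : ℕ) (u : unitInterval) : Fin (D + 1) :=
  ⟨min ⌊((D : ℝ) + 1) * (u : ℝ)⌋₊ D, by omega⟩

/-- Code of the sequence `f 0, …, f d` in base `S`. -/
def codeOf (S : ℕ) (f : ℕ → ℕ) (d : ℕ) : ℕ := ∑ i ∈ range (d + 1), f i * S ^ (d - i)

/-- Code of the path of cells of one label. -/
def pcode (D : ℕ) {r : ℕ} (x : Fin (r + 1) → unitInterval) : ℕ :=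
  codeOf (D + 1) (fun i => if h : i < r + 1 then (cell D (x ⟨i, h⟩)).val else 0) r

/-- The trial with table `τ` (value of `tilt · true` on each cell). -/
def Xtab (D r : ℕ) (τ : ℕ → ℝ) (x : Fin (r + 1) → unitInterval) : ℝ :=
  (1 / 2) * Real.log (τ (pcode D x) / (1 - τ (pcode D x)))

/-- Coded recursion.  `Tc S r m g h C` is the value at level `r - h`, at the code `C`. -/
def Tc (S r : ℕ) (m : ℕ → ℝ) (g : ℕ → ℝ) : ℕ → ℕ → ℝ
  | 0, C => g C
  | h + 1, C => ((S : ℝ)⁻¹ * ∑ e ∈ range S, (Tc S r m g h (C * S + e)) ^ (m (r - (h + 1)))) ^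
      (1 / m (r - (h + 1)))

/-- Label code of one level. -/
def lab (D : ℕ) {nB : ℕ} (eB : B ≃ Fin nB) (v : B → Fin (D + 1)) : ℕ :=
  ∑ b, (v b).val * (D + 1) ^ (eB b).val

/-- Code of the first levels (`≤ d`) of an array. -/
def acode (D : ℕ) {nB r : ℕ} (eB : B ≃ Fin nB) (u : B → Fin (r + 1) → unitInterval) (d : ℕ) : ℕ :=
  codeOf ((D + 1) ^ nB)
    (fun i => if h : i < r + 1 then lab D eB (fun b => cell D (u b ⟨i, h⟩)) else 0) d

/-- Index of the cell path of the label `b` in a code. -/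
def pidx (D r nB C b : ℕ) : ℕ :=
  codeOf (D + 1) (fun i => C / ((D + 1) ^ nB) ^ (r - i) % ((D + 1) ^ nB) / (D + 1) ^ b % (D + 1)) r

/-- The mixture as a function of the code. -/
def mixC (D r : ℕ) {nB : ℕ} (eB : B ≃ Fin nB) (τ : ℕ → ℝ) (V : (B → Bool) → ℝ) (C : ℕ) : ℝ :=
  ∑ s : B → Bool, V s *
    ∏ b, (if s b then τ (pidx D r nB C (eB b).val) else 1 - τ (pidx D r nB C (eB b).val))

/-- Upper table: `(W d C / Den)^P` is an upper bound of the node value at level `d`, code `C`. -/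
def UpTab (S P r Den : ℕ) (p : ℕ → ℕ) (num : ℕ → ℕ) (den : ℕ) (W : ℕ → ℕ → ℕ) : Prop :=
  (∀ C < S ^ (r + 1), num C * Den ^ P ≤ W r C ^ P * den) ∧
  (∀ d < r, ∀ C < S ^ (d + 1), ∑ e ∈ range S, W (d + 1) (C * S + e) ^ p d ≤ S * W d C ^ p d)

/-- Lower table. -/
def LowTab (S P r Den : ℕ) (p : ℕ → ℕ) (num : ℕ → ℕ) (den : ℕ) (W : ℕ → ℕ → ℕ) : Prop :=
  (∀ C < S ^ (r + 1), W r C ^ P * den ≤ num C * Den ^ P) ∧
  (∀ d < r, ∀ C < S ^ (d + 1), S * W d C ^ p d ≤ ∑ e ∈ range S, W (d + 1) (C * S + e) ^ p d) ∧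
  (∀ e < S, 0 < W 0 e)

/-- Binary digit. -/
def bit (n i : ℕ) : ℕ := n / 2 ^ i % 2

/-- Numerator of the weight of the spin with digit `i` (`1` = true) for the table value `t / Q`. -/
def tv (Q t i : ℕ) : ℕ := if i = 1 then t else Q - t

/-- Numerator of the mixture. -/
def mixN (D r nB Q : ℕ) (τ : ℕ → ℕ) (Vn : ℕ → ℕ) (C : ℕ) : ℕ :=
  ∑ s ∈ range (2 ^ nB), Vn s * ∏ b ∈ range nB, tv Q (τ (pidx D r nB C b)) (bit s b)

/-- Edge weight, numerators (denominator `R`). -/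
def edgeN (R J s : ℕ) : ℕ :=
  if bit s 0 = bit J 0 ∧ bit s 1 = bit J 1 ∧ bit s 2 = bit J 2 then 1 else R

/-- Site weight, numerators (denominator `2 R^k`). -/
def siteN (k R J s : ℕ) : ℕ := ∑ ε ∈ range 2, ∏ j ∈ range k,
  if bit s (j * 2) = bit J (j * 3) ∧ bit s (j * 2 + 1) = bit J (j * 3 + 1) ∧
    ε = bit J (j * 3 + 2) then 1 else R

/-- The pattern of clause `j` coded by `J`. -/
def pat (J j : ℕ) : Fin 3 → Bool := fun i => decide (bit J (j * 3 + i.val) = 1)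

/-- The label `(j, i)` has number `2 j + i`. -/
def siteE (k : ℕ) : Fin k × Fin 2 ≃ Fin (k * 2) := finProdFinEquiv

/-- Average value of the site term with `k` clauses. -/
def siteAv (ρ : ℝ) {r : ℕ} (m : Fin r → ℝ) (X : (Fin (r + 1) → unitInterval) → ℝ) (k : ℕ) : ℝ :=
  (((8 ^ k : ℕ)) : ℝ)⁻¹ * ∑ J ∈ range (8 ^ k),
    P.trialVal m X (P.siteV (p := 3) 0 (fun j : Fin k => satInter 3 ρ (pat J j.val)))

/-- Average value of the edge term. -/
def edgeAv (ρ : ℝ) {r : ℕ} (m : Fin r → ℝ) (X : (Fin (r + 1) → unitInterval) → ℝ) : ℝ :=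
  (8 : ℝ)⁻¹ * ∑ J ∈ range 8, P.trialVal m X (P.edgeV (satInter 3 ρ (pat J 0)))

/-- Data of a certificate. -/
structure Cert where
  R : ℕ
  r : ℕ
  D : ℕ
  P : ℕ
  Q : ℕ
  Den : ℕ
  K : ℕ
  n : ℕ
  M : ℕ
  f : ℕ
  p : ℕ → ℕ
  τ : ℕ → ℕ
  e : ℕ → ℕ
  W : ℕ → ℕ → ℕ → ℕ → ℕ
  w : ℕ → ℕ → ℕ → ℕ

/-- The trial part of the conditions. -/
structure TrialOk (r D P Q : ℕ) (p τ : ℕ → ℕ) : Prop where
  hP : 0 < P
  hQ : 0 < Q
  hp : ∀ d < r, 0 < p d ∧ p d < P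
  hpm : ∀ d < r, d + 1 < r → p d < p (d + 1)
  hτ : ∀ c < (D + 1) ^ (r + 1), 0 < τ c ∧ τ c < Q

/-- Validity of a certificate for the density `a / b`. -/
structure Cert.Ok (c : Cert) (a b : ℕ) : Prop where
  hR : 2 ≤ c.R
  hDen : 0 < c.Den
  hM : 0 < c.M
  tr : TrialOk c.r c.D c.P c.Q c.p c.τ
  up : ∀ k < c.K, ∀ J < 8 ^ k, UpTab ((c.D + 1) ^ (k * 2)) c.P c.r c.Den c.p
    (mixN c.D c.r (k * 2) c.Q c.τ (siteN k c.R J)) (2 * c.R ^ k * c.Q ^ (k * 2)) (c.W k J)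
  low : ∀ J < 8, LowTab ((c.D + 1) ^ 3) c.P c.r c.Den c.p
    (mixN c.D c.r 3 c.Q c.τ (edgeN c.R J)) (c.R * c.Q ^ 3) (c.w J)
  hn : 3 * a < c.n * b
  he : ∀ k < c.K, c.e k * (8 ^ k * (c.D + 1) ^ (k * 2)) * Nat.factorial k *
    (c.n * b) ^ c.n * b ^ k ≤ c.M * (c.n * b - 3 * a) ^ c.n * (3 * a) ^ k
  hf : c.M * (2 * a) ≤ c.f * (8 * (c.D + 1) ^ 3) * b
  fin : 2 ^ c.M * (∏ k ∈ range c.K, ∏ J ∈ range (8 ^ k), ∏ C ∈ range ((c.D + 1) ^ (k * 2)),
      c.W k J 0 C ^ (c.P * c.e k)) * c.Den ^ (c.P * c.f * (8 * (c.D + 1) ^ 3)) <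
    c.Den ^ (c.P * ∑ k ∈ range c.K, c.e k * (8 ^ k * (c.D + 1) ^ (k * 2))) *
      ∏ J ∈ range 8, ∏ C ∈ range ((c.D + 1) ^ 3), c.w J 0 C ^ (c.P * c.f)

/-- The exponents of a rational trial. -/
noncomputable def exQ (P r : ℕ) (p : ℕ → ℕ) (d : Fin r) : ℝ := (p d.val : ℝ) / P

/-- The table of a rational trial. -/
noncomputable def tabQ (D r Q : ℕ) (τ : ℕ → ℕ) : (Fin (r + 1) → unitInterval) → ℝ :=
  Xtab D r (fun c => (τ c : ℝ) / Q)

/-- Entry of a coded family of tables. -/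
def cget (l : List ℕ) (tag x : ℕ) : ℕ := l.getD (Nat.pair tag x) 0

/-- The certificate coded by a list. -/
def Cert.ofList (l : List ℕ) : Cert where
  R := cget l 0 0
  r := cget l 0 1
  D := cget l 0 2
  P := cget l 0 3
  Q := cget l 0 4
  Den := cget l 0 5
  K := cget l 0 6
  n := cget l 0 7
  M := cget l 0 8
  f := cget l 0 9
  p := fun d => cget l 1 d
  τ := fun c => cget l 2 c
  e := fun k => cget l 3 k
  W := fun k J d C => cget l 4 (Nat.pair k (Nat.pair J (Nat.pair d C)))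
  w := fun J d C => cget l 5 (Nat.pair J (Nat.pair d C))

open Classical in
/-- The test: `c` codes a certificate for the density `a / b` (with `a, b > 0`). -/
noncomputable def testU (a b c : ℕ) : Bool :=
  decide (0 < a ∧ 0 < b ∧ (Cert.ofList (Denumerable.ofNat (List ℕ) c)).Ok a b)

end

end Crest.Agent.R153
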