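import Crest.Agent.R153.DDefs

/-!
Row 153 (S0218), piece DDens1.
Almost everywhere convergence is preserved by power means (Fubini + dominated convergence; see UAvg/UT files of R141 for repl, measure preservation).
-/

set_option autoImplicit false

open Finset MeasureTheory Filter
open Crest.ProbabilityR.Diluted
open Crest.Agent.R141

namespace Crest.Agent.R153

variable {B : Type} [Fintype B] [DecidableEq B]

variable {r : ℕ}

namespace DDens1_aux

/-- resampling one coordinate of one label -/
theorem mp_one (lvl : Fin (r + 1)) :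
    MeasurePreserving (fun z : (Fin (r + 1) → unitInterval) × unitInterval =>
        (fun j : Fin (r + 1) => if j = lvl then z.2 else z.1 j))
      ((Measure.pi fun _ : Fin (r + 1) => (volume : Measure unitInterval)).prod
        (volume : Measure unitInterval))
      (Measure.pi fun _ : Fin (r + 1) => (volume : Measure unitInterval)) := by
  have hmeas : Measurable (fun z : (Fin (r + 1) → unitInterval) × unitInterval =>
        (fun j : Fin (r + 1) => if j = lvl then z.2 else z.1 j)) := by
    refine measurable_pi_lambda _ fun j => ?_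
    by_cases hj : j = lvl
    · simp only [hj, if_true]; exact measurable_snd
    · simp only [hj, if_false]; exact (measurable_pi_apply j).comp measurable_fst
  refine ⟨hmeas, ?_⟩
  symm
  refine Measure.pi_eq fun s hs => ?_
  rw [Measure.map_apply hmeas (MeasurableSet.univ_pi hs)]
  have hpre : (fun z : (Fin (r + 1) → unitInterval) × unitInterval =>
        (fun j : Fin (r + 1) => if j = lvl then z.2 else z.1 j)) ⁻¹' (Set.univ.pi s) =
      (Set.univ.pi fun j => if j = lvl then Set.univ else s j) ×ˢ s lvl := by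
    ext z
    simp only [Set.mem_preimage, Set.mem_pi, Set.mem_univ, true_implies, Set.mem_prod]
    constructor
    · intro h
      refine ⟨fun j => ?_, ?_⟩
      · by_cases hj : j = lvl
        · rw [if_pos hj]; trivial
        · rw [if_neg hj]; have := h j; rwa [if_neg hj] at this
      · have := h lvl; rwa [if_pos rfl] at this
    · rintro ⟨h1, h2⟩ j
      by_cases hj : j = lvl
      · rw [if_pos hj, hj]; exact h2
      · rw [if_neg hj]; have := h1 j; rwa [if_neg hj] at this
  rw [hpre, Measure.prod_prod, Measure.pi_pi]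
  rw [← Finset.mul_prod_erase Finset.univ (fun j => (volume : Measure unitInterval) (s j))
    (Finset.mem_univ lvl)]
  rw [← Finset.mul_prod_erase Finset.univ (fun j => (volume : Measure unitInterval)
    (if j = lvl then Set.univ else s j)) (Finset.mem_univ lvl)]
  rw [if_pos rfl, measure_univ, one_mul, mul_comm]
  congr 1
  refine Finset.prod_congr rfl fun j hj => ?_
  rw [if_neg (Finset.ne_of_mem_erase hj)]

/-- resampling one level of all labels -/
theorem mp_repl (lvl : Fin (r + 1)) :
    MeasurePreserving (fun z : (B → Fin (r + 1) → unitInterval) × (B → unitInterval) =>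
        (fun (b : B) (j : Fin (r + 1)) => if j = lvl then z.2 b else z.1 b j))
      ((uniformArrays B r).prod (Measure.pi fun _ : B => (volume : Measure unitInterval)))
      (uniformArrays B r) := by
  have h1 := (measurePreserving_arrowProdEquivProdArrow (Fin (r + 1) → unitInterval)
    unitInterval B (fun _ => Measure.pi fun _ : Fin (r + 1) => (volume : Measure unitInterval))
    (fun _ => (volume : Measure unitInterval))).symm
  have h2 : MeasurePreserving (fun (a : B → (Fin (r + 1) → unitInterval) × unitInterval) (b : B) =>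
      (fun j : Fin (r + 1) => if j = lvl then (a b).2 else (a b).1 j))
      (Measure.pi fun _ : B => (Measure.pi fun _ : Fin (r + 1) =>
        (volume : Measure unitInterval)).prod (volume : Measure unitInterval))
      (uniformArrays B r) :=
    measurePreserving_pi _ _ fun _ => mp_one lvl
  exact h2.comp h1

end DDens1_aux

open DDens1_aux

/-- Almost sure statements after resampling one level. -/
theorem ae_repl (lvl : Fin (r + 1)) {Q : (B → Fin (r + 1) → unitInterval) → Prop}
    (h : ∀ᵐ u ∂(uniformArrays B r), Q u) :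
    ∀ᵐ u ∂(uniformArrays B r), ∀ᵐ v ∂(Measure.pi fun _ : B => (volume : Measure unitInterval)),
      Q (fun b j => if j = lvl then v b else u b j) := by
  have h1 := (mp_repl (B := B) lvl).quasiMeasurePreserving.ae h
  exact Measure.ae_ae_of_ae_prod h1

namespace DDens1_aux

theorem pmStep_meas (lvl : Fin (r + 1)) (m : ℝ) {W : (B → Fin (r + 1) → unitInterval) → ℝ}
    (hW : Measurable W) : Measurable (pmStep m lvl W) :=
  U.T_meas [(m, lvl)] W hW

theorem pmStep_btw (lvl : Fin (r + 1)) {m : ℝ} (hm : 0 < m)
    {W : (B → Fin (r + 1) → unitInterval) → ℝ} (hW : Measurable W) {c C : ℝ} (hc : 0 < c)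
    (hb : ∀ u, c ≤ W u ∧ W u ≤ C) : ∀ u, c ≤ pmStep m lvl W u ∧ pmStep m lvl W u ≤ C :=
  U.T_btw [(m, lvl)] (by
    intro x hx
    rw [List.mem_singleton] at hx
    rw [hx]; exact hm) hc hW hb

end DDens1_aux

/-- One power mean step preserves almost everywhere convergence. -/
theorem pmStep_tendsto (lvl : Fin (r + 1)) {m : ℝ} {mn : ℕ → ℝ} (hm : 0 < m)
    (hmn : ∀ n, 0 < mn n) (hlim : Tendsto mn atTop (nhds m))
    {W : (B → Fin (r + 1) → unitInterval) → ℝ} {Wn : ℕ → (B → Fin (r + 1) → unitInterval) → ℝ}
    (hW : Measurable W) (hWn : ∀ n, Measurable (Wn n)) {c C : ℝ} (hc : 0 < c)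
    (hb : ∀ u, c ≤ W u ∧ W u ≤ C) (hbn : ∀ n u, c ≤ Wn n u ∧ Wn n u ≤ C)
    (h : ∀ᵐ u ∂(uniformArrays B r), Tendsto (fun n => Wn n u) atTop (nhds (W u))) :
    ∀ᵐ u ∂(uniformArrays B r), Tendsto (fun n => pmStep (mn n) lvl (Wn n) u) atTop
      (nhds (pmStep m lvl W u)) := by
  obtain ⟨M, hM⟩ := hlim.bddAbove_range
  have hM' : ∀ n, mn n ≤ M := fun n => hM ⟨n, rfl⟩
  filter_upwards [ae_repl lvl h] with u hu
  have hmeasn : ∀ n, Measurable fun v : B → unitInterval =>
      Wn n (fun b j => if j = lvl then v b else u b j) := fun n =>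
    U.UAVG1aux.meas_slice lvl (hWn n) u
  have key : Tendsto (fun n => ∫ v : B → unitInterval,
      (Wn n (fun b j => if j = lvl then v b else u b j)) ^ (mn n)
      ∂(Measure.pi fun _ : B => (volume : Measure unitInterval))) atTop
      (nhds (∫ v : B → unitInterval,
      (W (fun b j => if j = lvl then v b else u b j)) ^ m
      ∂(Measure.pi fun _ : B => (volume : Measure unitInterval)))) := by
    refine tendsto_integral_of_dominated_convergence (fun _ => (max 1 C) ^ M) (fun n => ?_)
      (integrable_const _) (fun n => ?_) ?_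
    · exact ((hmeasn n).pow_const (mn n)).aestronglyMeasurable
    · refine Eventually.of_forall fun v => ?_
      have h1 := hbn n (fun b j => if j = lvl then v b else u b j)
      have h0 : 0 ≤ Wn n (fun b j => if j = lvl then v b else u b j) := hc.le.trans h1.1
      rw [Real.norm_eq_abs, abs_of_nonneg (Real.rpow_nonneg h0 _)]
      calc (Wn n (fun b j => if j = lvl then v b else u b j)) ^ (mn n) ≤ (max 1 C) ^ (mn n) :=
            Real.rpow_le_rpow h0 (h1.2.trans (le_max_right _ _)) (hmn n).le
        _ ≤ (max 1 C) ^ M := Real.rpow_le_rpow_of_exponent_le (le_max_left _ _) (hM' n)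
    · filter_upwards [hu] with v hv
      refine hv.rpow hlim (Or.inl ?_)
      exact (hc.trans_le (hb _).1).ne'
  have hpos : 0 < ∫ v : B → unitInterval,
      (W (fun b j => if j = lvl then v b else u b j)) ^ m
      ∂(Measure.pi fun _ : B => (volume : Measure unitInterval)) := by
    have hbt : U.Btw (c ^ m) (C ^ m) (fun u' : B → Fin (r + 1) → unitInterval => (W u') ^ m) :=
      fun u' => ⟨Real.rpow_le_rpow hc.le (hb u').1 hm.le,
        Real.rpow_le_rpow (hc.le.trans (hb u').1) (hb u').2 hm.le⟩
    exact (Real.rpow_pos_of_pos hc m).trans_le (U.avgL_btw lvl (hW.pow_const m) hbt u).1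
  have h2 : Tendsto (fun n => 1 / mn n) atTop (nhds (1 / m)) :=
    tendsto_const_nhds.div hlim hm.ne'
  exact key.rpow h2 (Or.inl hpos.ne')

theorem powerMeans_tendsto {m : Fin r → ℝ} {mn : ℕ → Fin r → ℝ} (hm : ∀ d, 0 < m d)
    (hmn : ∀ n d, 0 < mn n d) (hlim : ∀ d, Tendsto (fun n => mn n d) atTop (nhds (m d)))
    {W : (B → Fin (r + 1) → unitInterval) → ℝ} {Wn : ℕ → (B → Fin (r + 1) → unitInterval) → ℝ}
    (hW : Measurable W) (hWn : ∀ n, Measurable (Wn n)) {c C : ℝ} (hc : 0 < c)
    (hb : ∀ u, c ≤ W u ∧ W u ≤ C) (hbn : ∀ n u, c ≤ Wn n u ∧ Wn n u ≤ C)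
    (h : ∀ᵐ u ∂(uniformArrays B r), Tendsto (fun n => Wn n u) atTop (nhds (W u))) :
    ∀ᵐ u ∂(uniformArrays B r), Tendsto (fun n => powerMeans (mn n) (Wn n) u) atTop
      (nhds (powerMeans m W u)) := by
  have key : ∀ l : List (Fin r),
      (Measurable (l.foldr (fun d acc => pmStep (m d) d.succ acc) W) ∧
        ∀ u, c ≤ l.foldr (fun d acc => pmStep (m d) d.succ acc) W u ∧
          l.foldr (fun d acc => pmStep (m d) d.succ acc) W u ≤ C) ∧
      (∀ n, Measurable (l.foldr (fun d acc => pmStep (mn n d) d.succ acc) (Wn n)) ∧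
        ∀ u, c ≤ l.foldr (fun d acc => pmStep (mn n d) d.succ acc) (Wn n) u ∧
          l.foldr (fun d acc => pmStep (mn n d) d.succ acc) (Wn n) u ≤ C) ∧
      ∀ᵐ u ∂(uniformArrays B r),
        Tendsto (fun n => l.foldr (fun d acc => pmStep (mn n d) d.succ acc) (Wn n) u) atTop
          (nhds (l.foldr (fun d acc => pmStep (m d) d.succ acc) W u)) := by
    intro l
    induction l with
    | nil => exact ⟨⟨hW, hb⟩, fun n => ⟨hWn n, hbn n⟩, h⟩
    | cons d l ih =>
      obtain ⟨⟨i1, i2⟩, i3, i4⟩ := ih
      refine ⟨⟨pmStep_meas d.succ (m d) i1, pmStep_btw d.succ (hm d) i1 hc i2⟩,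
        fun n => ⟨pmStep_meas d.succ (mn n d) (i3 n).1,
          pmStep_btw d.succ (hmn n d) (i3 n).1 hc (i3 n).2⟩, ?_⟩
      exact pmStep_tendsto d.succ (hm d) (fun n => hmn n d) (hlim d) i1 (fun n => (i3 n).1) hc i2
        (fun n => (i3 n).2) i4
  exact (key (List.finRange r)).2.2

end Crest.Agent.R153
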