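import Crest.Agent.R153.DDens1

/-!
Row 153 (S0218), piece DDens2.
Convergence of the value of a trial.
-/

set_option autoImplicit false

open Finset MeasureTheory Filter
open Crest.ProbabilityR.Diluted
open Crest.Agent.R141

namespace Crest.Agent.R153

variable {B : Type} [Fintype B] [DecidableEq B]

variable {r : ℕ}

namespace DDens2aux

/-- the mixture -/
noncomputable def mixW (V : (B → Bool) → ℝ) (X : (Fin (r + 1) → unitInterval) → ℝ)
    (u' : B → Fin (r + 1) → unitInterval) : ℝ :=
  ∑ s : B → Bool, V s * ∏ b, tilt (X (u' b)) (s b)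

theorem mixW_meas (V : (B → Bool) → ℝ) {X : (Fin (r + 1) → unitInterval) → ℝ}
    (hX : Measurable X) : Measurable (mixW V X) := by
  refine Finset.measurable_sum _ fun s _ => Measurable.const_mul ?_ _
  refine Finset.measurable_prod _ fun b _ => ?_
  exact (U.measurable_tilt (s b)).comp (hX.comp (measurable_pi_apply b))

theorem mixW_btw (V : (B → Bool) → ℝ) {c C : ℝ} (hV : ∀ s, c ≤ V s ∧ V s ≤ C)
    (X : (Fin (r + 1) → unitInterval) → ℝ) : U.Btw c C (mixW V X) := by
  intro u
  have h1 := U.prod_tilt_sum (fun b => X (u b))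
  have h0 : ∀ s : B → Bool, 0 ≤ ∏ b, tilt (X (u b)) (s b) := fun s =>
    Finset.prod_nonneg fun b _ => (U.tilt_pos _ _).le
  constructor
  · calc c = ∑ s : B → Bool, c * ∏ b, tilt (X (u b)) (s b) := by
          rw [← Finset.mul_sum, h1, mul_one]
      _ ≤ _ := Finset.sum_le_sum fun s _ => mul_le_mul_of_nonneg_right (hV s).1 (h0 s)
  · calc _ ≤ ∑ s : B → Bool, C * ∏ b, tilt (X (u b)) (s b) :=
          Finset.sum_le_sum fun s _ => mul_le_mul_of_nonneg_right (hV s).2 (h0 s)
      _ = C := by rw [← Finset.mul_sum, h1, mul_one]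

theorem tilt_false_eq (x : ℝ) : tilt x false = 1 - tilt x true := by
  have h := U.tilt_sum x
  rw [Fintype.sum_bool] at h
  linarith

theorem tilt_tendsto {xn : ℕ → ℝ} {x : ℝ}
    (h : Tendsto (fun n => tilt (xn n) true) atTop (nhds (tilt x true))) (s : Bool) :
    Tendsto (fun n => tilt (xn n) s) atTop (nhds (tilt x s)) := by
  cases s
  · simp only [tilt_false_eq]
    exact h.const_sub 1
  · exact h

end DDens2aux

open DDens2aux in
/-- Convergence of the value of a trial. -/
theorem trialVal_tendsto {m : Fin r → ℝ} {mn : ℕ → Fin r → ℝ} (hm : AdmissibleExponents m)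
    (hmn : ∀ n, AdmissibleExponents (mn n))
    (hlim : ∀ d, Tendsto (fun n => mn n d) atTop (nhds (m d)))
    {X : (Fin (r + 1) → unitInterval) → ℝ} {Xn : ℕ → (Fin (r + 1) → unitInterval) → ℝ}
    (hX : Measurable X) (hXn : ∀ n, Measurable (Xn n))
    (h : ∀ᵐ x ∂(Measure.pi fun _ : Fin (r + 1) => (volume : Measure unitInterval)),
      Tendsto (fun n => tilt (Xn n x) true) atTop (nhds (tilt (X x) true)))
    (V : (B → Bool) → ℝ) (hV : ∀ s, 0 < V s) :
    Tendsto (fun n => P.trialVal (mn n) (Xn n) V) atTop (nhds (P.trialVal m X V)) := by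
  have hprob : IsProbabilityMeasure (uniformArrays B r) := by
    unfold uniformArrays
    infer_instance
  obtain ⟨s0, hs0⟩ := Finite.exists_min V
  obtain ⟨s1, hs1⟩ := Finite.exists_max V
  set c := V s0 with hc
  set C := V s1 with hC
  have hc0 : 0 < c := hV s0
  have hVb : ∀ s, c ≤ V s ∧ V s ≤ C := fun s => ⟨hs0 s, hs1 s⟩
  -- a.e. convergence of the mixtures
  have hall : ∀ᵐ u ∂(uniformArrays B r), ∀ b : B,
      Tendsto (fun n => tilt (Xn n (u b)) true) atTop (nhds (tilt (X (u b)) true)) := by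
    rw [ae_all_iff]
    intro b
    unfold uniformArrays
    exact (Measure.quasiMeasurePreserving_eval (fun _ : B =>
      Measure.pi fun _ : Fin (r + 1) => (volume : Measure unitInterval)) b).ae h
  have hW : ∀ᵐ u ∂(uniformArrays B r),
      Tendsto (fun n => mixW V (Xn n) u) atTop (nhds (mixW V X u)) := by
    filter_upwards [hall] with u hu
    refine tendsto_finsetSum _ fun s _ => ?_
    refine Tendsto.const_mul _ ?_
    exact tendsto_finsetProd _ fun b _ => tilt_tendsto (hu b) (s b)
  have hPM := powerMeans_tendsto (m := m) (mn := mn) (fun d => (hm.2 d).1)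
    (fun n d => ((hmn n).2 d).1) hlim (mixW_meas V hX) (fun n => mixW_meas V (hXn n)) hc0
    (mixW_btw V hVb X) (fun n => mixW_btw V hVb (Xn n)) hW
  -- bounds of the power means
  have hB : ∀ (m' : Fin r → ℝ), AdmissibleExponents m' →
      ∀ (X' : (Fin (r + 1) → unitInterval) → ℝ), Measurable X' →
      Measurable (powerMeans m' (mixW V X' : (B → Fin (r + 1) → unitInterval) → ℝ)) ∧
      ∀ u, c ≤ powerMeans m' (mixW V X') u ∧ powerMeans m' (mixW V X') u ≤ C := by
    intro m' hm' X' hX'
    rw [U.powerMeans_eq_T]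
    exact ⟨U.T_meas _ _ (mixW_meas V hX'), U.T_btw (U.stepsOf m')
      (fun x hx => ((U.adm_stepsOf m' hm').2 x hx).1) hc0 (mixW_meas V hX') (mixW_btw V hVb X')⟩
  show Tendsto (fun n => ∫ u, Real.log (powerMeans (mn n) (mixW V (Xn n)) u)
    ∂(uniformArrays B r)) atTop (nhds (∫ u, Real.log (powerMeans m (mixW V X) u)
    ∂(uniformArrays B r)))
  refine tendsto_integral_of_dominated_convergence (fun _ => max |Real.log c| |Real.log C|)
    (fun n => ?_) (integrable_const _) (fun n => ?_) ?_
  · exact (Real.measurable_log.comp (hB _ (hmn n) _ (hXn n)).1).aestronglyMeasurable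
  · refine Filter.Eventually.of_forall fun u => ?_
    have hb := (hB _ (hmn n) _ (hXn n)).2 u
    have hp : 0 < powerMeans (mn n) (mixW V (Xn n)) u := hc0.trans_le hb.1
    rw [Real.norm_eq_abs]
    have h1 : Real.log c ≤ Real.log (powerMeans (mn n) (mixW V (Xn n)) u) :=
      Real.log_le_log hc0 hb.1
    have h2 : Real.log (powerMeans (mn n) (mixW V (Xn n)) u) ≤ Real.log C :=
      Real.log_le_log hp hb.2
    exact abs_le_max_abs_abs h1 h2
  · filter_upwards [hPM] with u hu
    have hb := (hB _ hm _ hX).2 u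
    exact hu.log (hc0.trans_le hb.1).ne'

end Crest.Agent.R153
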