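import Crest.Agent.R153.DDens2
import Crest.Agent.R153.DSat1
import Crest.Agent.R153.DSat2

/-!
Row 153 (S0218), piece DDens3.
Convergence of the trial functional (tendsto_tsum_of_dominated_convergence).
-/

set_option autoImplicit false

open Finset MeasureTheory Filter
open Crest.ProbabilityR.Diluted
open Crest.Agent.R141

namespace Crest.Agent.R153

namespace DDens3aux

theorem summable_bound (lam c : ℝ) :
    Summable fun k : ℕ => poissonWeight lam k * ((k : ℝ) * c) := by
  rw [← summable_nat_add_iff 1]
  have h := (Real.summable_pow_div_factorial lam).mul_left (Real.exp (-lam) * lam * c)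
  refine h.congr fun k => ?_
  unfold poissonWeight
  rw [Nat.factorial_succ]
  push_cast
  have h1 : ((k : ℝ) + 1) ≠ 0 := by positivity
  have h2 : ((Nat.factorial k : ℕ) : ℝ) ≠ 0 := by positivity
  field_simp
  ring

theorem poissonWeight_nonneg {lam : ℝ} (h : 0 ≤ lam) (k : ℕ) : 0 ≤ poissonWeight lam k := by
  unfold poissonWeight; positivity

end DDens3aux

open DDens3aux in
/-- Convergence of the trial functional. -/
theorem trialFunctional_tendsto {r : ℕ} {m : Fin r → ℝ} {mn : ℕ → Fin r → ℝ}
    (hm : AdmissibleExponents m) (hmn : ∀ n, AdmissibleExponents (mn n))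
    (hlim : ∀ d, Tendsto (fun n => mn n d) atTop (nhds (m d)))
    {X : (Fin (r + 1) → unitInterval) → ℝ} {Xn : ℕ → (Fin (r + 1) → unitInterval) → ℝ}
    (hX : Measurable X) (hXn : ∀ n, Measurable (Xn n))
    (h : ∀ᵐ x ∂(Measure.pi fun _ : Fin (r + 1) => (volume : Measure unitInterval)),
      Tendsto (fun n => tilt (Xn n x) true) atTop (nhds (tilt (X x) true)))
    {q : ℝ} (hq : 0 < q) {ρ : ℝ} (hρ0 : 0 < ρ) (hρ1 : ρ < 1) :
    Tendsto (fun n => trialFunctional 3 q (satLaw 3 ρ) (Measure.dirac 0) r (mn n) (Xn n)) atTop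
      (nhds (trialFunctional 3 q (satLaw 3 ρ) (Measure.dirac 0) r m X)) := by
  simp only [trialFunctional_sat]
  refine Tendsto.sub (Tendsto.add tendsto_const_nhds ?_) (Tendsto.const_mul _ ?_)
  · refine tendsto_tsum_of_dominated_convergence (summable_bound (q * 3) |Real.log ρ|) ?_ ?_
    · intro k
      refine Tendsto.const_mul _ ?_
      unfold siteAv
      refine Tendsto.const_mul _ (tendsto_finsetSum _ fun J _ => ?_)
      refine trialVal_tendsto hm hmn hlim hX hXn h _ fun s => ?_
      exact lt_of_lt_of_le (Real.exp_pos _) (siteV_sat_mem k hρ0 hρ1 J s).1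
    · refine Eventually.of_forall fun n k => ?_
      have h1 := siteAv_mem (hmn n) (hXn n) hρ0 hρ1 k
      have h2 : |siteAv ρ (mn n) (Xn n) k| ≤ (k : ℝ) * |Real.log ρ| := by
        rw [abs_le]
        refine ⟨h1.1, h1.2.trans (by positivity)⟩
      rw [norm_mul, Real.norm_eq_abs, Real.norm_eq_abs,
        abs_of_nonneg (poissonWeight_nonneg (by positivity : 0 ≤ q * 3) k)]
      exact mul_le_mul_of_nonneg_left h2 (poissonWeight_nonneg (by positivity) k)
  · unfold edgeAv
    refine Tendsto.const_mul _ (tendsto_finsetSum _ fun J _ => ?_)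
    refine trialVal_tendsto hm hmn hlim hX hXn h _ fun s => ?_
    exact Real.exp_pos _

end Crest.Agent.R153
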