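import Crest.Agent.R153.DDefs

/-!
Row 153 (S0218), piece DDens4.
Rational exponents.
-/

set_option autoImplicit false

open Finset MeasureTheory Filter
open Crest.ProbabilityR.Diluted
open Crest.Agent.R141

namespace Crest.Agent.R153

/-- Rational exponents. -/
theorem exponents_approx {r : ℕ} {m : Fin r → ℝ} (hm : AdmissibleExponents m) {ε : ℝ}
    (hε : 0 < ε) : ∃ (P : ℕ) (p : ℕ → ℕ), 0 < P ∧ (∀ d < r, 0 < p d ∧ p d < P) ∧
      (∀ d < r, d + 1 < r → p d < p (d + 1)) ∧ ∀ d : Fin r, |(p d.val : ℝ) / P - m d| ≤ ε := by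
  have key : ∀ x : ℝ, 0 < x → ∀ᶠ P : ℕ in atTop, 1 ≤ x * (P : ℝ) := by
    intro x hx
    have h1 : Tendsto (fun P : ℕ => x * (P : ℝ)) atTop atTop :=
      tendsto_natCast_atTop_atTop.const_mul_atTop hx
    exact h1.eventually_ge_atTop 1
  have e1 : ∀ᶠ P : ℕ in atTop, ∀ d : Fin r, 1 ≤ m d * (P : ℝ) :=
    eventually_all.2 fun d => key _ (hm.2 d).1
  have e2 : ∀ᶠ P : ℕ in atTop, ∀ d : Fin r, ∀ h : d.val + 1 < r,
      1 ≤ (m ⟨d.val + 1, h⟩ - m d) * (P : ℝ) := by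
    refine eventually_all.2 fun d => ?_
    by_cases h : d.val + 1 < r
    · have hlt : m d < m ⟨d.val + 1, h⟩ := hm.1 (Fin.lt_def.2 (Nat.lt_succ_self _))
      filter_upwards [key _ (sub_pos.2 hlt)] with P hP _ using hP
    · exact Filter.Eventually.of_forall fun P h' => absurd h' h
  obtain ⟨P, ⟨h1, h2⟩, h3, h4⟩ :=
    ((e1.and e2).and ((key ε hε).and (eventually_gt_atTop 0))).exists
  have hP0 : (0 : ℝ) < P := by exact_mod_cast h4
  refine ⟨P, fun d => if h : d < r then ⌊m ⟨d, h⟩ * (P : ℝ)⌋₊ else 0, h4, ?_, ?_, ?_⟩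
  · intro d hd
    simp only [hd, dif_pos]
    have hm0 : 0 ≤ m ⟨d, hd⟩ * (P : ℝ) := mul_nonneg (hm.2 _).1.le hP0.le
    refine ⟨Nat.floor_pos.2 (h1 _), ?_⟩
    rw [Nat.floor_lt hm0]
    calc m ⟨d, hd⟩ * (P : ℝ) < 1 * P := mul_lt_mul_of_pos_right (hm.2 _).2 hP0
      _ = P := one_mul _
  · intro d hd hd1
    simp only [hd, hd1, dif_pos]
    have hm0 : 0 ≤ m ⟨d, hd⟩ * (P : ℝ) := mul_nonneg (hm.2 _).1.le hP0.le
    have := h2 ⟨d, hd⟩ hd1
    rw [sub_mul] at this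
    rw [← Nat.add_one_le_iff, ← Nat.floor_add_one hm0]
    exact Nat.floor_le_floor (by linarith)
  · intro d
    have hd := d.isLt
    simp only [hd, dif_pos, Fin.eta]
    have hm0 : 0 ≤ m d * (P : ℝ) := mul_nonneg (hm.2 _).1.le hP0.le
    have f1 := Nat.floor_le hm0
    have f2 := Nat.lt_floor_add_one (m d * (P : ℝ))
    rw [abs_le]
    constructor
    · rw [neg_le_sub_iff_le_add, ← sub_le_iff_le_add, le_div_iff₀ hP0]
      nlinarith
    · rw [sub_le_iff_le_add, div_le_iff₀ hP0]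
      nlinarith

end Crest.Agent.R153
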