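import Crest.Agent.R153.DCell2

/-!
Row 153 (S0218), piece DDens5.
L1 density of rational tables: bounded continuous approximation (Integrable.exists_boundedContinuous_integral_sub_le or MemLp version), uniform continuity on the compact cube, values at grid points of the cells.
-/

set_option autoImplicit false

open Finset MeasureTheory Filter
open Crest.ProbabilityR.Diluted
open Crest.Agent.R141

namespace Crest.Agent.R153

namespace DDens5aux

/-- clip to `[0,1]` -/
noncomputable def clip (v : ℝ) : ℝ := max 0 (min 1 v)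

theorem clip_nonneg (v : ℝ) : 0 ≤ clip v := le_max_left _ _

theorem clip_le_one (v : ℝ) : clip v ≤ 1 := max_le (by norm_num) (min_le_left _ _)

theorem clip_lip (a b : ℝ) : |clip a - clip b| ≤ |a - b| := by
  unfold clip
  rcases le_total 1 a with h1 | h1 <;> rcases le_total 1 b with h2 | h2 <;>
    rcases le_total 0 a with h3 | h3 <;> rcases le_total 0 b with h4 | h4 <;>
    simp only [min_eq_left, min_eq_right, max_eq_left, max_eq_right, h1, h2, h3, h4,
      zero_le_one, sub_self, abs_zero, abs_nonneg] <;>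
    first
    | exact le_rfl
    | (rw [abs_le]; constructor <;> linarith [le_abs_self (a - b), neg_abs_le (a - b)])

theorem clip_of_mem {v : ℝ} (h0 : 0 ≤ v) (h1 : v ≤ 1) : clip v = v := by
  unfold clip
  rw [min_eq_right h1, max_eq_right h0]

/-- rounding to multiples of `1/Q` in `(0,1)` -/
theorem exists_round (Q : ℕ) (hQ : 2 ≤ Q) (v : ℝ) (h0 : 0 ≤ v) (h1 : v ≤ 1) :
    ∃ t : ℕ, 0 < t ∧ t < Q ∧ |(t : ℝ) / Q - v| ≤ 1 / Q := by
  have hQr : (0 : ℝ) < Q := by
    have : 0 < Q := by omega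
    exact_mod_cast this
  have key : ∀ t : ℕ, |(t : ℝ) - Q * v| ≤ 1 → |(t : ℝ) / Q - v| ≤ 1 / Q := by
    intro t ht
    have e : (t : ℝ) / Q - v = ((t : ℝ) - Q * v) / Q := by field_simp
    rw [e, abs_div, abs_of_pos hQr]
    exact div_le_div_of_nonneg_right ht hQr.le
  have hf1 : ((⌊(Q : ℝ) * v⌋₊ : ℕ) : ℝ) ≤ Q * v := Nat.floor_le (by positivity)
  have hf2 : (Q : ℝ) * v < (⌊(Q : ℝ) * v⌋₊ : ℕ) + 1 := Nat.lt_floor_add_one _
  have hf3 : ⌊(Q : ℝ) * v⌋₊ ≤ Q := by
    have : ((⌊(Q : ℝ) * v⌋₊ : ℕ) : ℝ) ≤ Q := hf1.trans (by nlinarith)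
    exact_mod_cast this
  by_cases hz : ⌊(Q : ℝ) * v⌋₊ = 0
  · refine ⟨1, by norm_num, by omega, key 1 ?_⟩
    rw [hz] at hf2
    push_cast at hf2 ⊢
    rw [abs_le]
    have : 0 ≤ (Q : ℝ) * v := by positivity
    constructor <;> linarith
  · by_cases hq : ⌊(Q : ℝ) * v⌋₊ = Q
    · refine ⟨Q - 1, by omega, by omega, key (Q - 1) ?_⟩
      rw [hq] at hf1
      rw [Nat.cast_sub (by omega), abs_le]
      push_cast
      constructor <;> nlinarith
    · refine ⟨⌊(Q : ℝ) * v⌋₊, by omega, by omega, key _ ?_⟩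
      rw [abs_le]
      constructor <;> linarith

theorem cell_close (D : ℕ) (u v : unitInterval) (h : cell D u = cell D v) :
    |(u : ℝ) - v| ≤ 1 / ((D : ℝ) + 1) := by
  have hD : (0 : ℝ) < (D : ℝ) + 1 := by positivity
  have key : ∀ u : unitInterval, ((cell D u).val : ℝ) ≤ ((D : ℝ) + 1) * u ∧
      ((D : ℝ) + 1) * u ≤ (cell D u).val + 1 := by
    intro u
    have hu0 := u.2.1
    have hu1 := u.2.2
    have h1 : ((⌊((D : ℝ) + 1) * (u : ℝ)⌋₊ : ℕ) : ℝ) ≤ ((D : ℝ) + 1) * u :=
      Nat.floor_le (by positivity)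
    have h2 : ((D : ℝ) + 1) * (u : ℝ) < (⌊((D : ℝ) + 1) * (u : ℝ)⌋₊ : ℕ) + 1 :=
      Nat.lt_floor_add_one _
    have hc : (cell D u).val = min ⌊((D : ℝ) + 1) * (u : ℝ)⌋₊ D := rfl
    rw [hc]
    rcases le_total ⌊((D : ℝ) + 1) * (u : ℝ)⌋₊ D with h3 | h3
    · rw [min_eq_left h3]
      exact ⟨h1, h2.le⟩
    · rw [min_eq_right h3]
      have h4 : (D : ℝ) ≤ (⌊((D : ℝ) + 1) * (u : ℝ)⌋₊ : ℕ) := by exact_mod_cast h3
      exact ⟨h4.trans h1, by nlinarith⟩
  have h1 := key u
  have h2 := key v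
  rw [h] at h1
  rw [abs_le]
  have e : (1 : ℝ) / (D + 1) * (D + 1) = 1 := by field_simp
  constructor
  · by_contra hc
    push Not at hc
    nlinarith
  · by_contra hc
    push Not at hc
    nlinarith

theorem pcode_close (D r : ℕ) (x y : Fin (r + 1) → unitInterval) (h : pcode D x = pcode D y) :
    dist x y ≤ 1 / ((D : ℝ) + 1) := by
  rw [dist_pi_le_iff (by positivity)]
  intro i
  rw [Subtype.dist_eq, Real.dist_eq]
  apply cell_close
  have hi : i.val ≤ r := Nat.lt_succ_iff.1 i.2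
  have h1 : ∀ x : Fin (r + 1) → unitInterval,
      pcode D x / (D + 1) ^ (r - i.val) % (D + 1) = (cell D (x i)).val := by
    intro x
    unfold pcode
    rw [codeOf_digit (S := D + 1) _ r (fun j hj => by
      rw [dif_pos (Nat.lt_succ_iff.2 hj)]
      exact (cell D _).2) hi, dif_pos i.2]
  apply Fin.ext
  rw [← h1 x, ← h1 y, h]

end DDens5aux

open DDens5aux

/-- Table approximation of a function with values in `(0,1)`: integral form. -/
theorem table_approx_int {r : ℕ} (F : (Fin (r + 1) → unitInterval) → ℝ) (hF : Measurable F)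
    (h01 : ∀ x, 0 < F x ∧ F x < 1) {ε : ℝ} (hε : 0 < ε) :
    ∃ (D Q : ℕ) (τ : ℕ → ℕ), 0 < Q ∧ (∀ c < (D + 1) ^ (r + 1), 0 < τ c ∧ τ c < Q) ∧
      ∫ x, |(τ (pcode D x) : ℝ) / Q - F x|
        ∂(Measure.pi fun _ : Fin (r + 1) => (volume : Measure unitInterval)) ≤ ε := by
  classical
  set μ : Measure (Fin (r + 1) → unitInterval) :=
    Measure.pi fun _ : Fin (r + 1) => (volume : Measure unitInterval) with hμ
  have hFi : Integrable F μ := Integrable.of_bound hF.aestronglyMeasurable 1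
    (Filter.Eventually.of_forall fun x => by
      rw [Real.norm_eq_abs, abs_le]
      constructor <;> linarith [(h01 x).1, (h01 x).2])
  obtain ⟨g, hg, hgi⟩ := hFi.exists_boundedContinuous_integral_sub_le (show 0 < ε / 3 by linarith)
  have huc : UniformContinuous g := CompactSpace.uniformContinuous_of_continuous g.continuous
  obtain ⟨δ, hδ, hδg⟩ := Metric.uniformContinuous_iff.1 huc (ε / 3) (by linarith)
  obtain ⟨D, hD⟩ := exists_nat_one_div_lt hδ
  obtain ⟨Q0, hQ0⟩ := exists_nat_one_div_lt (show 0 < ε / 3 by linarith)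
  set Q : ℕ := Q0 + 2 with hQ
  have hQr : (1 : ℝ) / Q ≤ ε / 3 := by
    refine le_trans ?_ hQ0.le
    apply one_div_le_one_div_of_le (by positivity)
    rw [hQ]; push_cast; linarith
  -- representatives of the codes
  let rep : ℕ → (Fin (r + 1) → unitInterval) := fun c =>
    if h : ∃ x : Fin (r + 1) → unitInterval, pcode D x = c then h.choose else fun _ => 0
  have hrep : ∀ x : Fin (r + 1) → unitInterval, pcode D (rep (pcode D x)) = pcode D x := by
    intro x
    have hex : ∃ x' : Fin (r + 1) → unitInterval, pcode D x' = pcode D x := ⟨x, rfl⟩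
    simp only [rep, dif_pos hex]
    exact hex.choose_spec
  choose τ hτ0 hτ1 hτ2 using fun c : ℕ => exists_round Q (by omega) (clip (g (rep c)))
    (clip_nonneg _) (clip_le_one _)
  refine ⟨D, Q, τ, by omega, fun c _ => ⟨hτ0 c, hτ1 c⟩, ?_⟩
  have hpt : ∀ x, |(τ (pcode D x) : ℝ) / Q - F x| ≤ (ε / 3 + ε / 3) + ‖F x - g x‖ := by
    intro x
    have h1 := hτ2 (pcode D x)
    have h2 : dist (rep (pcode D x)) x < δ :=
      lt_of_le_of_lt (pcode_close D r _ _ (hrep x)) hD
    have h3 := hδg h2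
    rw [Real.dist_eq] at h3
    have h4 := clip_lip (g (rep (pcode D x))) (g x)
    have h5 : |clip (g x) - F x| ≤ |g x - F x| := by
      have := clip_lip (g x) (F x)
      rwa [clip_of_mem (h01 x).1.le (h01 x).2.le] at this
    have e : (τ (pcode D x) : ℝ) / Q - F x = ((τ (pcode D x) : ℝ) / Q -
        clip (g (rep (pcode D x)))) + (clip (g (rep (pcode D x))) - clip (g x)) +
        (clip (g x) - F x) := by ring
    rw [e, Real.norm_eq_abs, abs_sub_comm (F x)]
    refine (abs_add_three _ _ _).trans ?_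
    linarith
  calc ∫ x, |(τ (pcode D x) : ℝ) / Q - F x| ∂μ ≤ ∫ x, ((ε / 3 + ε / 3) + ‖F x - g x‖) ∂μ := by
        apply integral_mono_of_nonneg
        · exact Filter.Eventually.of_forall fun x => abs_nonneg _
        · exact (integrable_const _).add (hFi.sub hgi).norm
        · exact Filter.Eventually.of_forall hpt
    _ = (ε / 3 + ε / 3) + ∫ x, ‖F x - g x‖ ∂μ := by
        have hint : Integrable (fun x => ‖F x - g x‖) μ := (hFi.sub hgi).norm
        rw [integral_add (integrable_const _) hint, integral_const]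
        simp
    _ ≤ ε := by linarith

end Crest.Agent.R153
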