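import Crest.Agent.R153.DDens3
import Crest.Agent.R153.DDens4
import Crest.Agent.R153.DDens5
import Crest.Agent.R153.DCert1

/-!
Row 153 (S0218), piece DDens6.
Density.
-/

set_option autoImplicit false

open Finset MeasureTheory Filter
open Crest.ProbabilityR.Diluted
open Crest.Agent.R141

namespace Crest.Agent.R153

/-- Table approximation: almost everywhere form. -/
theorem table_approx_ae {r : ℕ} (F : (Fin (r + 1) → unitInterval) → ℝ) (hF : Measurable F)
    (h01 : ∀ x, 0 < F x ∧ F x < 1) :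
    ∃ (D Q : ℕ → ℕ) (τ : ℕ → ℕ → ℕ), (∀ n, 0 < Q n) ∧
      (∀ n, ∀ c < (D n + 1) ^ (r + 1), 0 < τ n c ∧ τ n c < Q n) ∧
      ∀ᵐ x ∂(Measure.pi fun _ : Fin (r + 1) => (volume : Measure unitInterval)),
        Tendsto (fun n => (τ n (pcode (D n) x) : ℝ) / Q n) atTop (nhds (F x)) := by
  have h := fun n : ℕ => table_approx_int F hF h01 (ε := 1 / ((n : ℝ) + 1)) (by positivity)
  choose D Q τ hQ hτ hint using h
  set μ : Measure (Fin (r + 1) → unitInterval) :=
    Measure.pi fun _ : Fin (r + 1) => (volume : Measure unitInterval) with hμ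
  let f : ℕ → (Fin (r + 1) → unitInterval) → ℝ := fun n x => (τ n (pcode (D n) x) : ℝ) / Q n
  have hfm : ∀ n, Measurable (f n) := fun n =>
    (Measurable.of_discrete (f := fun c : ℕ => (τ n c : ℝ) / Q n)).comp (measurable_pcode (D n) r)
  have hf01 : ∀ n x, 0 < f n x ∧ f n x < 1 := by
    intro n x
    obtain ⟨h1, h2⟩ := hτ n _ (pcode_lt (D n) x)
    have hq : (0 : ℝ) < Q n := by exact_mod_cast hQ n
    refine ⟨div_pos (by exact_mod_cast h1) hq, ?_⟩
    show (τ n (pcode (D n) x) : ℝ) / Q n < 1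
    rw [div_lt_one hq]
    exact_mod_cast h2
  have hdi : ∀ n, Integrable (f n - F) μ := by
    intro n
    refine (integrable_const (1 : ℝ)).mono' ((hfm n).sub hF).aestronglyMeasurable
      (Eventually.of_forall fun x => ?_)
    rw [Real.norm_eq_abs, Pi.sub_apply, abs_le]
    have h1 := hf01 n x
    have h2 := h01 x
    constructor <;> linarith
  have hL : ∀ n, eLpNorm (f n - F) 1 μ ≤ ENNReal.ofReal (1 / ((n : ℝ) + 1)) := by
    intro n
    rw [eLpNorm_one_eq_lintegral_enorm, ← ofReal_integral_norm_eq_lintegral_enorm (hdi n)]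
    exact ENNReal.ofReal_le_ofReal (hint n)
  have hlim : Tendsto (fun n => eLpNorm (f n - F) 1 μ) atTop (nhds 0) := by
    refine tendsto_of_tendsto_of_tendsto_of_le_of_le tendsto_const_nhds ?_
      (fun n => zero_le) hL
    have := ENNReal.tendsto_ofReal (tendsto_one_div_add_atTop_nhds_zero_nat (𝕜 := ℝ))
    simpa using this
  have hmeas : TendstoInMeasure μ f atTop F :=
    tendstoInMeasure_of_tendsto_eLpNorm one_ne_zero
      (fun n => (hfm n).aestronglyMeasurable) hF.aestronglyMeasurable hlim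
  obtain ⟨ns, -, hns⟩ := hmeas.exists_seq_tendsto_ae
  exact ⟨fun n => D (ns n), fun n => Q (ns n), fun n => τ (ns n), fun n => hQ _,
    fun n => hτ _, hns⟩

/-- DENSITY: a negative value is attained by a rational table trial. -/
theorem dens {q : ℝ} (hq : 0 < q) {ρ : ℝ} (hρ0 : 0 < ρ) (hρ1 : ρ < 1) {r : ℕ} {m : Fin r → ℝ}
    {X : (Fin (r + 1) → unitInterval) → ℝ} (hm : AdmissibleExponents m) (hX : Measurable X)
    (hneg : trialFunctional 3 q (satLaw 3 ρ) (Measure.dirac 0) r m X < 0) :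
    ∃ (D P Q : ℕ) (p τ : ℕ → ℕ), TrialOk r D P Q p τ ∧
      trialFunctional 3 q (satLaw 3 ρ) (Measure.dirac 0) r (exQ P r p) (tabQ D r Q τ) < 0 := by
  have hF : Measurable fun x => tilt (X x) true :=
    (Crest.Agent.R141.U.measurable_tilt true).comp hX
  have h01 : ∀ x, 0 < tilt (X x) true ∧ tilt (X x) true < 1 := by
    intro x
    refine ⟨Crest.Agent.R141.U.tilt_pos _ _, ?_⟩
    have h1 := Crest.Agent.R141.U.tilt_sum (X x)
    rw [Fintype.sum_bool] at h1
    have h2 := Crest.Agent.R141.U.tilt_pos (X x) false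
    linarith
  obtain ⟨D, Q, τ, hQ, hτ, hae⟩ := table_approx_ae _ hF h01
  have hex := fun n : ℕ => exponents_approx hm (ε := 1 / ((n : ℝ) + 1)) (by positivity)
  choose P p hP hp hpm happ using hex
  have hTr : ∀ n, TrialOk r (D n) (P n) (Q n) (p n) (τ n) := fun n =>
    ⟨hP n, hQ n, hp n, hpm n, hτ n⟩
  have hmn : ∀ n, AdmissibleExponents (exQ (P n) r (p n)) := fun n => exQ_adm (hTr n)
  have hlim : ∀ d, Tendsto (fun n => exQ (P n) r (p n) d) atTop (nhds (m d)) := by
    intro d
    rw [tendsto_iff_dist_tendsto_zero]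
    refine squeeze_zero (fun _ => dist_nonneg) (fun n => ?_)
      (tendsto_one_div_add_atTop_nhds_zero_nat (𝕜 := ℝ))
    rw [Real.dist_eq]
    exact happ n d
  have hXn : ∀ n, Measurable (tabQ (D n) r (Q n) (τ n)) := fun n => measurable_Xtab _ _ _
  have hae' : ∀ᵐ x ∂(Measure.pi fun _ : Fin (r + 1) => (volume : Measure unitInterval)),
      Tendsto (fun n => tilt (tabQ (D n) r (Q n) (τ n) x) true) atTop
        (nhds (tilt (X x) true)) := by
    filter_upwards [hae] with x hx
    refine hx.congr fun n => ?_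
    have hq : (0 : ℝ) < Q n := by exact_mod_cast hQ n
    have := tilt_Xtab (D n) r (fun c => (τ n c : ℝ) / Q n) (fun c hc => by
      obtain ⟨h1, h2⟩ := hτ n c hc
      refine ⟨div_pos (by exact_mod_cast h1) hq, ?_⟩
      rw [div_lt_one hq]
      exact_mod_cast h2) x true
    unfold tabQ
    rw [this]
    simp
  have hT := trialFunctional_tendsto hm hmn hlim hX hXn hae' hq hρ0 hρ1
  obtain ⟨n, hn⟩ := (hT.eventually (gt_mem_nhds hneg)).exists
  exact ⟨D n, P n, Q n, p n, τ n, hTr n, hn⟩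

end Crest.Agent.R153
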