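import Crest.Agent.R153.DCell1
import Crest.Agent.R153.DCell2

/-!
Row 153 (S0218), piece DTc1.
Power means of functions of the code.
-/

set_option autoImplicit false

open Finset MeasureTheory Filter
open Crest.ProbabilityR.Diluted
open Crest.Agent.R141

namespace Crest.Agent.R153

variable {B : Type} [Fintype B] [DecidableEq B]

theorem lab_eq (D : ℕ) {nB : ℕ} (eB : B ≃ Fin nB) (v : B → Fin (D + 1)) :
    lab D eB v = (finFunctionFinEquiv (fun i : Fin nB => v (eB.symm i))).val := by
  rw [finFunctionFinEquiv_apply]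
  unfold lab
  exact Fintype.sum_equiv eB _ _ fun b => by simp

theorem lab_lt (D : ℕ) {nB : ℕ} (eB : B ≃ Fin nB) (v : B → Fin (D + 1)) :
    lab D eB v < (D + 1) ^ nB := by
  rw [lab_eq]
  exact Fin.isLt _

theorem lab_digit (D : ℕ) {nB : ℕ} (eB : B ≃ Fin nB) (v : B → Fin (D + 1)) (b : B) :
    lab D eB v / (D + 1) ^ (eB b).val % (D + 1) = (v b).val := by
  rw [lab_eq]
  have h := congrFun (finFunctionFinEquiv.symm_apply_apply (fun i : Fin nB => v (eB.symm i))) (eB b)
  have h2 : (finFunctionFinEquiv (fun i : Fin nB => v (eB.symm i))).val /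
      (D + 1) ^ (eB b).val % (D + 1) = (v (eB.symm (eB b))).val := congrArg Fin.val h
  rw [Equiv.symm_apply_apply] at h2
  exact h2

/-- Averages over one level are averages over codes. -/
theorem avg_lab (D : ℕ) {nB : ℕ} (eB : B ≃ Fin nB) (F : ℕ → ℝ) :
    (Fintype.card (B → Fin (D + 1)) : ℝ)⁻¹ * ∑ v : B → Fin (D + 1), F (lab D eB v) =
      ((((D + 1) ^ nB : ℕ)) : ℝ)⁻¹ * ∑ e ∈ range ((D + 1) ^ nB), F e := by
  have hc : Fintype.card (B → Fin (D + 1)) = (D + 1) ^ nB := by
    rw [Fintype.card_fun, Fintype.card_fin, Fintype.card_congr eB, Fintype.card_fin]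
  rw [hc]
  congr 1
  rw [← Fin.sum_univ_eq_sum_range]
  let E : (B → Fin (D + 1)) ≃ Fin ((D + 1) ^ nB) :=
    (Equiv.arrowCongr eB (Equiv.refl _)).trans finFunctionFinEquiv
  refine Fintype.sum_equiv E _ _ fun v => ?_
  rw [lab_eq]
  rfl

theorem acode_repl (D : ℕ) {nB r : ℕ} (eB : B ≃ Fin nB) (d : Fin r)
    (u : B → Fin (r + 1) → unitInterval) (v : B → unitInterval) :
    acode D eB (fun b j => if j = d.succ then v b else u b j) (d.val + 1) =
      acode D eB u d.val * (D + 1) ^ nB + lab D eB (fun b => cell D (v b)) := by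
  unfold acode
  rw [codeOf_succ]
  congr 1
  · congr 1
    refine codeOf_congr _ _ _ _ fun i hi => ?_
    have hd := d.isLt
    have h1 : i < r + 1 := by omega
    simp only [h1, dif_pos]
    congr 1
    funext b
    have h2 : (⟨i, h1⟩ : Fin (r + 1)) ≠ d.succ := by
      intro h
      have := congrArg Fin.val h
      simp at this
      omega
    rw [if_neg h2]
  · have h1 : d.val + 1 < r + 1 := by have := d.isLt; omega
    simp only [h1, dif_pos]
    congr 1
    funext b
    have h2 : (⟨d.val + 1, h1⟩ : Fin (r + 1)) = d.succ := rfl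
    rw [if_pos h2]

/-- One power mean step. -/
theorem pmStep_code (D : ℕ) {nB r : ℕ} (eB : B ≃ Fin nB) (m : ℝ) (d : Fin r) (F : ℕ → ℝ)
    (u : B → Fin (r + 1) → unitInterval) :
    pmStep m d.succ (fun u' => F (acode D eB u' (d.val + 1))) u =
      (((((D + 1) ^ nB : ℕ)) : ℝ)⁻¹ * ∑ e ∈ range ((D + 1) ^ nB),
        (F (acode D eB u d.val * (D + 1) ^ nB + e)) ^ m) ^ (1 / m) := by
  unfold pmStep
  congr 1
  rw [← avg_lab D eB (fun e => (F (acode D eB u d.val * (D + 1) ^ nB + e)) ^ m),
    ← int_cells_level D (fun v : B → Fin (D + 1) =>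
      (F (acode D eB u d.val * (D + 1) ^ nB + lab D eB v)) ^ m)]
  congr 1
  funext v
  show F (acode D eB (fun b j => if j = d.succ then v b else u b j) (d.val + 1)) ^ m = _
  rw [acode_repl]

/-- the steps from height `h`. -/
theorem powerMeans_code_aux (D : ℕ) {nB r : ℕ} (eB : B ≃ Fin nB) (m : Fin r → ℝ) (m' : ℕ → ℝ)
    (hmm : ∀ i : Fin r, m' i.val = m i) (g : ℕ → ℝ) (h : ℕ) (hh : h ≤ r) :
    ((List.finRange r).drop (r - h)).foldr (fun d acc => pmStep (m d) d.succ acc)
      (fun u' : B → Fin (r + 1) → unitInterval => g (acode D eB u' r)) =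
      fun u => Tc ((D + 1) ^ nB) r m' g h (acode D eB u (r - h)) := by
  induction h with
  | zero =>
    have : (List.finRange r).drop (r - 0) = [] := by simp
    rw [this]
    rfl
  | succ h ih =>
    have hlt : r - (h + 1) < r := by omega
    have hlen : r - (h + 1) < (List.finRange r).length := by simpa using hlt
    have hdrop : (List.finRange r).drop (r - (h + 1)) =
        (⟨r - (h + 1), hlt⟩ : Fin r) :: (List.finRange r).drop (r - h) := by
      rw [List.drop_eq_getElem_cons hlen, List.getElem_finRange]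
      congr 1
      congr 1
      omega
    rw [hdrop, List.foldr_cons, ih (by omega)]
    funext u
    have h1 : r - h = (⟨r - (h + 1), hlt⟩ : Fin r).val + 1 := by
      show r - h = r - (h + 1) + 1
      omega
    have h2 : (fun u' : B → Fin (r + 1) → unitInterval =>
        Tc ((D + 1) ^ nB) r m' g h (acode D eB u' (r - h))) =
        fun u' => Tc ((D + 1) ^ nB) r m' g h
          (acode D eB u' ((⟨r - (h + 1), hlt⟩ : Fin r).val + 1)) := by
      funext u'
      rw [h1]
    rw [h2, pmStep_code]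
    show _ = ((((D + 1) ^ nB : ℕ) : ℝ)⁻¹ * ∑ e ∈ range ((D + 1) ^ nB),
      (Tc ((D + 1) ^ nB) r m' g h (acode D eB u (r - (h + 1)) * (D + 1) ^ nB + e)) ^
        (m' (r - (h + 1)))) ^ (1 / m' (r - (h + 1)))
    have h3 : m' (r - (h + 1)) = m ⟨r - (h + 1), hlt⟩ := hmm ⟨r - (h + 1), hlt⟩
    rw [h3]

theorem powerMeans_code (D : ℕ) {nB r : ℕ} (eB : B ≃ Fin nB) (m : Fin r → ℝ) (m' : ℕ → ℝ)
    (hmm : ∀ i : Fin r, m' i.val = m i) (g : ℕ → ℝ) (u : B → Fin (r + 1) → unitInterval) :
    powerMeans m (fun u' => g (acode D eB u' r)) u =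
      Tc ((D + 1) ^ nB) r m' g r (acode D eB u 0) := by
  have h := powerMeans_code_aux D eB m m' hmm g r le_rfl
  rw [Nat.sub_self, List.drop_zero] at h
  unfold powerMeans
  rw [h]

end Crest.Agent.R153
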