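import Crest.Agent.R153.DTc1

/-!
Row 153 (S0218), piece DTc2.
The value of a table trial.
-/

set_option autoImplicit false

open Finset MeasureTheory Filter
open Crest.ProbabilityR.Diluted
open Crest.Agent.R141

namespace Crest.Agent.R153

variable {B : Type} [Fintype B] [DecidableEq B]

theorem pidx_lt (D r nB C b : ℕ) : pidx D r nB C b < (D + 1) ^ (r + 1) := by
  unfold pidx
  exact codeOf_lt _ _ fun i _ => Nat.mod_lt _ (Nat.succ_pos D)

theorem pidx_acode (D : ℕ) {nB r : ℕ} (eB : B ≃ Fin nB) (u : B → Fin (r + 1) → unitInterval)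
    (b : B) : pidx D r nB (acode D eB u r) (eB b).val = pcode D (u b) := by
  unfold pidx pcode
  refine codeOf_congr _ _ _ _ fun i hi => ?_
  have hi' : i < r + 1 := by omega
  have hdig : acode D eB u r / ((D + 1) ^ nB) ^ (r - i) % ((D + 1) ^ nB) =
      lab D eB (fun b => cell D (u b ⟨i, hi'⟩)) := by
    unfold acode
    rw [codeOf_digit _ _ _ hi, dif_pos hi']
    intro j _
    show (if h : j < r + 1 then lab D eB (fun b => cell D (u b ⟨j, h⟩)) else 0) < (D + 1) ^ nB
    split_ifs with h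
    · exact lab_lt D eB _
    · exact pow_pos (Nat.succ_pos D) _
  show acode D eB u r / ((D + 1) ^ nB) ^ (r - i) % ((D + 1) ^ nB) / (D + 1) ^ (eB b).val % (D + 1) =
    if h : i < r + 1 then (cell D (u b ⟨i, h⟩)).val else 0
  rw [hdig, lab_digit, dif_pos hi']

/-- The mixture of a table trial is a function of the code. -/
theorem mix_tab (D r : ℕ) {nB : ℕ} (eB : B ≃ Fin nB) (τ : ℕ → ℝ)
    (hτ : ∀ c < (D + 1) ^ (r + 1), 0 < τ c ∧ τ c < 1) (V : (B → Bool) → ℝ)
    (u : B → Fin (r + 1) → unitInterval) :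
    ∑ s : B → Bool, V s * ∏ b, tilt (Xtab D r τ (u b)) (s b) =
      mixC D r eB τ V (acode D eB u r) := by
  unfold mixC
  refine Finset.sum_congr rfl fun s _ => ?_
  congr 1
  refine Finset.prod_congr rfl fun b _ => ?_
  rw [tilt_Xtab D r τ hτ, pidx_acode]

/-- The value of a table trial. -/
theorem trialVal_tab (D r : ℕ) {nB : ℕ} (eB : B ≃ Fin nB) (m : Fin r → ℝ) (m' : ℕ → ℝ)
    (hmm : ∀ i : Fin r, m' i.val = m i) (τ : ℕ → ℝ)
    (hτ : ∀ c < (D + 1) ^ (r + 1), 0 < τ c ∧ τ c < 1) (V : (B → Bool) → ℝ) :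
    Crest.Agent.R141.P.trialVal m (Xtab D r τ) V =
      ((((D + 1) ^ nB : ℕ)) : ℝ)⁻¹ * ∑ e ∈ range ((D + 1) ^ nB),
        Real.log (Tc ((D + 1) ^ nB) r m' (mixC D r eB τ V) r e) := by
  unfold Crest.Agent.R141.P.trialVal
  have h1 : (fun u' : B → Fin (r + 1) → unitInterval =>
      ∑ s : B → Bool, V s * ∏ b, tilt (Xtab D r τ (u' b)) (s b)) =
      fun u' => mixC D r eB τ V (acode D eB u' r) := funext fun u' => mix_tab D r eB τ hτ V u'
  rw [h1]
  simp only [powerMeans_code D eB m m' hmm]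
  have h2 : ∀ u : B → Fin (r + 1) → unitInterval,
      acode D eB u 0 = lab D eB (fun b => cell D (u b 0)) := by
    intro u
    unfold acode
    rw [codeOf_zero, dif_pos (Nat.succ_pos r)]
    rfl
  simp only [h2]
  rw [int_cells_zero D r (fun v : B → Fin (D + 1) =>
    Real.log (Tc ((D + 1) ^ nB) r m' (mixC D r eB τ V) r (lab D eB v)))]
  exact avg_lab D eB (fun e => Real.log (Tc ((D + 1) ^ nB) r m' (mixC D r eB τ V) r e))

end Crest.Agent.R153
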