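import Crest.Agent.R153.DDefs

/-!
Row 153 (S0218), piece DTest1.
Coding certificates by lists: l = (List.range M).map F, F decoding the tags, M larger than all (finitely many) indices used.
-/

set_option autoImplicit false

open Finset MeasureTheory Filter
open Crest.ProbabilityR.Diluted
open Crest.Agent.R141

namespace Crest.Agent.R153

namespace Coding

theorem ev_ball {n : ℕ} {q : ℕ → ℕ → Prop} (h : ∀ i < n, ∀ᶠ M in atTop, q M i) :
    ∀ᶠ M in atTop, ∀ i < n, q M i := by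
  have h1 : ∀ᶠ M in (atTop : Filter ℕ), ∀ i ∈ Set.Iio n, q M i :=
    (Set.finite_Iio n).eventually_all.2 fun i hi => h i hi
  filter_upwards [h1] with M hM i hi using hM i hi

theorem ev_sum {n : ℕ} {f : ℕ → ℕ → ℕ} {g : ℕ → ℕ} (h : ∀ i, ∀ᶠ M in atTop, f M i = g i) :
    ∀ᶠ M in atTop, ∑ i ∈ range n, f M i = ∑ i ∈ range n, g i := by
  filter_upwards [ev_ball (n := n) fun i _ => h i] with M hM
  exact Finset.sum_congr rfl fun i hi => hM i (Finset.mem_range.1 hi)

theorem ev_prod {n : ℕ} {f : ℕ → ℕ → ℕ} {g : ℕ → ℕ} (h : ∀ i, ∀ᶠ M in atTop, f M i = g i) :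
    ∀ᶠ M in atTop, ∏ i ∈ range n, f M i = ∏ i ∈ range n, g i := by
  filter_upwards [ev_ball (n := n) fun i _ => h i] with M hM
  exact Finset.prod_congr rfl fun i hi => hM i (Finset.mem_range.1 hi)

theorem upTab_ev {S P r Den den : ℕ} {p num : ℕ → ℕ} {W : ℕ → ℕ → ℕ} {pM numM : ℕ → ℕ → ℕ}
    {WM : ℕ → ℕ → ℕ → ℕ} (hp : ∀ d, ∀ᶠ M in atTop, pM M d = p d)
    (hnum : ∀ C, ∀ᶠ M in atTop, numM M C = num C)
    (hW : ∀ d C, ∀ᶠ M in atTop, WM M d C = W d C) (h : UpTab S P r Den p num den W) :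
    ∀ᶠ M in atTop, UpTab S P r Den (pM M) (numM M) den (WM M) := by
  refine Filter.Eventually.and ?_ ?_
  · refine ev_ball fun C hC => ?_
    filter_upwards [hnum C, hW r C] with M h1 h2
    rw [h1, h2]
    exact h.1 C hC
  · refine ev_ball fun d hd => ev_ball fun C hC => ?_
    filter_upwards [hp d, hW d C, ev_sum (n := S) (f := fun M e => WM M (d + 1) (C * S + e) ^ pM M d)
      (g := fun e => W (d + 1) (C * S + e) ^ p d) (by
        intro e
        filter_upwards [hp d, hW (d + 1) (C * S + e)] with M h1 h2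
        rw [h1, h2])] with M h1 h2 h3
    rw [h3, h2, h1]
    exact h.2 d hd C hC

theorem lowTab_ev {S P r Den den : ℕ} {p num : ℕ → ℕ} {W : ℕ → ℕ → ℕ} {pM numM : ℕ → ℕ → ℕ}
    {WM : ℕ → ℕ → ℕ → ℕ} (hp : ∀ d, ∀ᶠ M in atTop, pM M d = p d)
    (hnum : ∀ C, ∀ᶠ M in atTop, numM M C = num C)
    (hW : ∀ d C, ∀ᶠ M in atTop, WM M d C = W d C) (h : LowTab S P r Den p num den W) :
    ∀ᶠ M in atTop, LowTab S P r Den (pM M) (numM M) den (WM M) := by
  refine Filter.Eventually.and ?_ (Filter.Eventually.and ?_ ?_)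
  · refine ev_ball fun C hC => ?_
    filter_upwards [hnum C, hW r C] with M h1 h2
    rw [h1, h2]
    exact h.1 C hC
  · refine ev_ball fun d hd => ev_ball fun C hC => ?_
    filter_upwards [hp d, hW d C, ev_sum (n := S) (f := fun M e => WM M (d + 1) (C * S + e) ^ pM M d)
      (g := fun e => W (d + 1) (C * S + e) ^ p d) (by
        intro e
        filter_upwards [hp d, hW (d + 1) (C * S + e)] with M h1 h2
        rw [h1, h2])] with M h1 h2 h3
    rw [h3, h2, h1]
    exact h.2.1 d hd C hC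
  · refine ev_ball fun e he => ?_
    filter_upwards [hW 0 e] with M h1
    rw [h1]
    exact h.2.2 e he

theorem mixN_ev {D r nB Q C : ℕ} {τ : ℕ → ℕ} {τM : ℕ → ℕ → ℕ} {Vn : ℕ → ℕ}
    (hτ : ∀ x, ∀ᶠ M in atTop, τM M x = τ x) :
    ∀ᶠ M in atTop, mixN D r nB Q (τM M) Vn C = mixN D r nB Q τ Vn C := by
  unfold mixN
  refine ev_sum fun s => ?_
  filter_upwards [ev_prod (n := nB) (f := fun M b => tv Q (τM M (pidx D r nB C b)) (bit s b))
    (g := fun b => tv Q (τ (pidx D r nB C b)) (bit s b)) (by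
      intro b
      filter_upwards [hτ (pidx D r nB C b)] with M h
      rw [h])] with M h
  rw [h]

/-- The decoding function. -/
def dec (c : Cert) (n : ℕ) : ℕ :=
  match (Nat.unpair n).1 with
  | 0 => match (Nat.unpair n).2 with
    | 0 => c.R
    | 1 => c.r
    | 2 => c.D
    | 3 => c.P
    | 4 => c.Q
    | 5 => c.Den
    | 6 => c.K
    | 7 => c.n
    | 8 => c.M
    | 9 => c.f
    | _ => 0
  | 1 => c.p (Nat.unpair n).2
  | 2 => c.τ (Nat.unpair n).2
  | 3 => c.e (Nat.unpair n).2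
  | 4 => c.W (Nat.unpair (Nat.unpair n).2).1 (Nat.unpair (Nat.unpair (Nat.unpair n).2).2).1
      (Nat.unpair (Nat.unpair (Nat.unpair (Nat.unpair n).2).2).2).1
      (Nat.unpair (Nat.unpair (Nat.unpair (Nat.unpair n).2).2).2).2
  | 5 => c.w (Nat.unpair (Nat.unpair n).2).1 (Nat.unpair (Nat.unpair (Nat.unpair n).2).2).1
      (Nat.unpair (Nat.unpair (Nat.unpair n).2).2).2
  | _ => 0

/-- The list of the first `M` values. -/
def lst (c : Cert) (M : ℕ) : List ℕ := (List.range M).map (dec c)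

theorem cget_lst (c : Cert) (t x : ℕ) :
    ∀ᶠ M in atTop, cget (lst c M) t x = dec c (Nat.pair t x) := by
  filter_upwards [eventually_gt_atTop (Nat.pair t x)] with M hM
  unfold cget lst
  rw [List.getD_eq_getElem _ _ (by simpa using hM)]
  simp

end Coding

open Coding in
/-- Every certificate is coded by a list. -/
theorem exists_list {a b : ℕ} (c : Cert) (h : c.Ok a b) : ∃ l : List ℕ, (Cert.ofList l).Ok a b := by
  have hp : ∀ d, ∀ᶠ M in atTop, cget (lst c M) 1 d = c.p d := fun d => by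
    filter_upwards [cget_lst c 1 d] with M hM
    rw [hM]; simp [dec]
  have hτ : ∀ d, ∀ᶠ M in atTop, cget (lst c M) 2 d = c.τ d := fun d => by
    filter_upwards [cget_lst c 2 d] with M hM
    rw [hM]; simp [dec]
  have he : ∀ d, ∀ᶠ M in atTop, cget (lst c M) 3 d = c.e d := fun d => by
    filter_upwards [cget_lst c 3 d] with M hM
    rw [hM]; simp [dec]
  have hW : ∀ k J d C, ∀ᶠ M in atTop,
      cget (lst c M) 4 (Nat.pair k (Nat.pair J (Nat.pair d C))) = c.W k J d C := fun k J d C => by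
    filter_upwards [cget_lst c 4 (Nat.pair k (Nat.pair J (Nat.pair d C)))] with M hM
    rw [hM]; simp [dec]
  have hw : ∀ J d C, ∀ᶠ M in atTop,
      cget (lst c M) 5 (Nat.pair J (Nat.pair d C)) = c.w J d C := fun J d C => by
    filter_upwards [cget_lst c 5 (Nat.pair J (Nat.pair d C))] with M hM
    rw [hM]; simp [dec]
  -- the certificate with the scalars of `c` and the tables of the list
  let c' : ℕ → Cert := fun M => { c with
    p := fun d => cget (lst c M) 1 d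
    τ := fun x => cget (lst c M) 2 x
    e := fun k => cget (lst c M) 3 k
    W := fun k J d C => cget (lst c M) 4 (Nat.pair k (Nat.pair J (Nat.pair d C)))
    w := fun J d C => cget (lst c M) 5 (Nat.pair J (Nat.pair d C)) }
  have hc' : ∀ᶠ M in atTop, Cert.ofList (lst c M) = c' M := by
    filter_upwards [cget_lst c 0 0, cget_lst c 0 1, cget_lst c 0 2, cget_lst c 0 3,
      cget_lst c 0 4, cget_lst c 0 5, cget_lst c 0 6, cget_lst c 0 7, cget_lst c 0 8,
      cget_lst c 0 9] with M h0 h1 h2 h3 h4 h5 h6 h7 h8 h9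
    simp only [Cert.ofList, c', h0, h1, h2, h3, h4, h5, h6, h7, h8, h9]
    simp [dec]
  have htr : ∀ᶠ M in atTop, TrialOk (c' M).r (c' M).D (c' M).P (c' M).Q (c' M).p (c' M).τ := by
    have e1 : ∀ᶠ M in atTop, ∀ d < c.r, cget (lst c M) 1 d = c.p d := ev_ball fun d _ => hp d
    have e2 : ∀ᶠ M in atTop, ∀ d < (c.D + 1) ^ (c.r + 1), cget (lst c M) 2 d = c.τ d :=
      ev_ball fun d _ => hτ d
    filter_upwards [e1, e2] with M h1 h2
    refine ⟨h.tr.hP, h.tr.hQ, fun d hd => ?_, fun d hd hd1 => ?_, fun x hx => ?_⟩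
    · show 0 < cget (lst c M) 1 d ∧ cget (lst c M) 1 d < c.P
      rw [h1 d hd]
      exact h.tr.hp d hd
    · show cget (lst c M) 1 d < cget (lst c M) 1 (d + 1)
      rw [h1 d hd, h1 (d + 1) hd1]
      exact h.tr.hpm d hd hd1
    · show 0 < cget (lst c M) 2 x ∧ cget (lst c M) 2 x < c.Q
      rw [h2 x hx]
      exact h.tr.hτ x hx
  have hup : ∀ᶠ M in atTop, ∀ k < c.K, ∀ J < 8 ^ k, UpTab ((c.D + 1) ^ (k * 2)) c.P c.r c.Den
      (c' M).p (mixN c.D c.r (k * 2) c.Q (c' M).τ (siteN k c.R J))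
      (2 * c.R ^ k * c.Q ^ (k * 2)) ((c' M).W k J) := by
    refine ev_ball fun k hk => ev_ball fun J hJ => ?_
    exact upTab_ev (pM := fun M => (c' M).p)
      (numM := fun M => mixN c.D c.r (k * 2) c.Q (c' M).τ (siteN k c.R J))
      (WM := fun M => (c' M).W k J) hp (fun C => mixN_ev hτ) (fun d C => hW k J d C)
      (h.up k hk J hJ)
  have hlow : ∀ᶠ M in atTop, ∀ J < 8, LowTab ((c.D + 1) ^ 3) c.P c.r c.Den
      (c' M).p (mixN c.D c.r 3 c.Q (c' M).τ (edgeN c.R J)) (c.R * c.Q ^ 3) ((c' M).w J) := by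
    refine ev_ball fun J hJ => ?_
    exact lowTab_ev (pM := fun M => (c' M).p)
      (numM := fun M => mixN c.D c.r 3 c.Q (c' M).τ (edgeN c.R J))
      (WM := fun M => (c' M).w J) hp (fun C => mixN_ev hτ) (fun d C => hw J d C)
      (h.low J hJ)
  have hee : ∀ᶠ M in atTop, ∀ k < c.K, cget (lst c M) 3 k = c.e k := ev_ball fun k _ => he k
  have hfin : ∀ᶠ M in atTop, (∏ k ∈ range c.K, ∏ J ∈ range (8 ^ k),
      ∏ C ∈ range ((c.D + 1) ^ (k * 2)), (c' M).W k J 0 C ^ (c.P * (c' M).e k)) =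
      ∏ k ∈ range c.K, ∏ J ∈ range (8 ^ k),
      ∏ C ∈ range ((c.D + 1) ^ (k * 2)), c.W k J 0 C ^ (c.P * c.e k) := by
    refine ev_prod fun k => ev_prod fun J => ev_prod fun C => ?_
    filter_upwards [hW k J 0 C, he k] with M h1 h2
    show cget (lst c M) 4 (Nat.pair k (Nat.pair J (Nat.pair 0 C))) ^
      (c.P * cget (lst c M) 3 k) = _
    rw [h1, h2]
  have hfin2 : ∀ᶠ M in atTop, (∏ J ∈ range 8, ∏ C ∈ range ((c.D + 1) ^ 3),
      (c' M).w J 0 C ^ (c.P * c.f)) =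
      ∏ J ∈ range 8, ∏ C ∈ range ((c.D + 1) ^ 3), c.w J 0 C ^ (c.P * c.f) := by
    refine ev_prod fun J => ev_prod fun C => ?_
    filter_upwards [hw J 0 C] with M h1
    show cget (lst c M) 5 (Nat.pair J (Nat.pair 0 C)) ^ (c.P * c.f) = _
    rw [h1]
  have hfin3 : ∀ᶠ M in atTop, (∑ k ∈ range c.K, (c' M).e k * (8 ^ k * (c.D + 1) ^ (k * 2))) =
      ∑ k ∈ range c.K, c.e k * (8 ^ k * (c.D + 1) ^ (k * 2)) := by
    refine ev_sum fun k => ?_
    filter_upwards [he k] with M h1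
    show cget (lst c M) 3 k * _ = _
    rw [h1]
  have hall : ∀ᶠ M in atTop, (Cert.ofList (lst c M)).Ok a b := by
    filter_upwards [hc', htr, hup, hlow, hee, hfin, hfin2, hfin3] with M g1 g2 g3 g4 g5 g6 g7 g8
    rw [g1]
    refine ⟨h.hR, h.hDen, h.hM, g2, g3, g4, h.hn, fun k hk => ?_, h.hf, ?_⟩
    · show cget (lst c M) 3 k * _ * _ * _ * _ ≤ _
      rw [g5 k hk]
      exact h.he k hk
    · show 2 ^ c.M * (∏ k ∈ range c.K, ∏ J ∈ range (8 ^ k),
        ∏ C ∈ range ((c.D + 1) ^ (k * 2)), (c' M).W k J 0 C ^ (c.P * (c' M).e k)) *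
          c.Den ^ (c.P * c.f * (8 * (c.D + 1) ^ 3)) <
        c.Den ^ (c.P * ∑ k ∈ range c.K, (c' M).e k * (8 ^ k * (c.D + 1) ^ (k * 2))) *
        ∏ J ∈ range 8, ∏ C ∈ range ((c.D + 1) ^ 3), (c' M).w J 0 C ^ (c.P * c.f)
      rw [g6, g7, g8]
      exact h.fin
  obtain ⟨M, hM⟩ := hall.exists
  exact ⟨_, hM⟩

end Crest.Agent.R153
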