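import Crest.Agent.R153.DPR
import Crest.Agent.R153.DDefs

/-!
Row 153 (S0218), piece DTest2.
Primitive recursive components (toolkit DPR).
-/

set_option autoImplicit false

open Finset MeasureTheory Filter
open Crest.ProbabilityR.Diluted
open Crest.Agent.R141

namespace Crest.Agent.R153

variable {α : Type} [Primcodable α]

theorem cget_pr {l : α → List ℕ} {t x : α → ℕ} (hl : Primrec l) (ht : Primrec t)
    (hx : Primrec x) : Primrec fun a => cget (l a) (t a) (x a) :=
  PR.getD hl (PR.npair ht hx)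

theorem bit_pr {f g : α → ℕ} (hf : Primrec f) (hg : Primrec g) :
    Primrec fun a => bit (f a) (g a) :=
  PR.mod (PR.div hf (PR.pow (Primrec.const 2) hg)) (Primrec.const 2)

theorem edgeN_pr {R J s : α → ℕ} (hR : Primrec R) (hJ : Primrec J) (hs : Primrec s) :
    Primrec fun a => edgeN (R a) (J a) (s a) := by
  unfold edgeN
  have hb : ∀ i : ℕ, PrimrecPred fun a => bit (s a) i = bit (J a) i := fun i =>
    PR.eq (bit_pr hs (Primrec.const i)) (bit_pr hJ (Primrec.const i))
  exact PR.ite (PR.and (hb 0) (PR.and (hb 1) (hb 2))) (Primrec.const 1) hR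

theorem siteN_pr {k R J s : α → ℕ} (hk : Primrec k) (hR : Primrec R) (hJ : Primrec J)
    (hs : Primrec s) : Primrec fun a => siteN (k a) (R a) (J a) (s a) := by
  unfold siteN
  refine PR.sum (Primrec.const 2) ?_
  refine PR.prod (hk.comp Primrec.fst) ?_
  have h1 : Primrec fun x : (α × ℕ) × ℕ => x.1.1 := Primrec.fst.comp Primrec.fst
  have h2 : Primrec fun x : (α × ℕ) × ℕ => x.1.2 := Primrec.snd.comp Primrec.fst
  have h3 : Primrec fun x : (α × ℕ) × ℕ => x.2 := Primrec.snd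
  refine PR.ite (PR.and ?_ (PR.and ?_ ?_)) (Primrec.const 1) (hR.comp h1)
  · exact PR.eq (bit_pr (hs.comp h1) (PR.mul h3 (Primrec.const 2)))
      (bit_pr (hJ.comp h1) (PR.mul h3 (Primrec.const 3)))
  · exact PR.eq (bit_pr (hs.comp h1) (PR.add (PR.mul h3 (Primrec.const 2)) (Primrec.const 1)))
      (bit_pr (hJ.comp h1) (PR.add (PR.mul h3 (Primrec.const 3)) (Primrec.const 1)))
  · exact PR.eq h2
      (bit_pr (hJ.comp h1) (PR.add (PR.mul h3 (Primrec.const 3)) (Primrec.const 2)))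

theorem pidx_pr {D r nB C b : α → ℕ} (hD : Primrec D) (hr : Primrec r) (hn : Primrec nB)
    (hC : Primrec C) (hb : Primrec b) :
    Primrec fun a => pidx (D a) (r a) (nB a) (C a) (b a) := by
  unfold pidx codeOf
  have hr1 : Primrec fun a => r a + 1 := PR.add hr (Primrec.const 1)
  have f1 : ∀ {f : α → ℕ}, Primrec f → Primrec fun x : α × ℕ => f x.1 :=
    fun hf => hf.comp Primrec.fst
  have hD1 : Primrec fun x : α × ℕ => D x.1 + 1 := PR.add (f1 hD) (Primrec.const 1)
  have hri : Primrec fun x : α × ℕ => r x.1 - x.2 := PR.sub (f1 hr) Primrec.snd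
  have hS : Primrec fun x : α × ℕ => (D x.1 + 1) ^ nB x.1 := PR.pow hD1 (f1 hn)
  refine PR.sum hr1 ?_
  refine PR.mul (PR.mod (PR.div (PR.mod (PR.div (f1 hC) (PR.pow hS hri)) hS)
    (PR.pow hD1 (f1 hb))) hD1) (PR.pow hD1 hri)

/-- The mixture numerators, table read from the list with tag `2`. -/
theorem mixN_pr {D r nB Q C : α → ℕ} {l : α → List ℕ} {V : α → ℕ → ℕ} (hD : Primrec D)
    (hr : Primrec r) (hn : Primrec nB) (hQ : Primrec Q) (hl : Primrec l)
    (hV : Primrec fun x : α × ℕ => V x.1 x.2) (hC : Primrec C) :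
    Primrec fun a => mixN (D a) (r a) (nB a) (Q a) (fun c => cget (l a) 2 c) (V a) (C a) := by
  unfold mixN tv
  refine PR.sum (PR.pow (Primrec.const 2) hn) (PR.mul hV ?_)
  refine PR.prod (hn.comp Primrec.fst) ?_
  have f1 : ∀ {f : α → ℕ}, Primrec f → Primrec fun x : (α × ℕ) × ℕ => f x.1.1 :=
    fun hf => hf.comp (Primrec.fst.comp Primrec.fst)
  have h2 : Primrec fun x : (α × ℕ) × ℕ => x.1.2 := Primrec.snd.comp Primrec.fst
  have h3 : Primrec fun x : (α × ℕ) × ℕ => x.2 := Primrec.snd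
  have hp : Primrec fun x : (α × ℕ) × ℕ =>
      cget (l x.1.1) 2 (pidx (D x.1.1) (r x.1.1) (nB x.1.1) (C x.1.1) x.2) :=
    cget_pr (hl.comp (Primrec.fst.comp Primrec.fst)) (Primrec.const 2)
      (pidx_pr (f1 hD) (f1 hr) (f1 hn) (f1 hC) h3)
  exact PR.ite (PR.eq (bit_pr h2 h3) (Primrec.const 1)) hp (PR.sub (f1 hQ) hp)

end Crest.Agent.R153
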