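import Crest.Agent.R153.DTest2

/-!
Row 153 (S0218), piece DTest3.
Primitive recursive predicates (toolkit DPR).
-/

set_option autoImplicit false

open Finset MeasureTheory Filter
open Crest.ProbabilityR.Diluted
open Crest.Agent.R141

namespace Crest.Agent.R153

variable {α : Type} [Primcodable α]

theorem upTab_pr {S P r Den den : α → ℕ} {p num : α → ℕ → ℕ} {W : α → ℕ → ℕ → ℕ}
    (hS : Primrec S) (hP : Primrec P) (hr : Primrec r) (hDen : Primrec Den) (hden : Primrec den)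
    (hp : Primrec fun x : α × ℕ => p x.1 x.2) (hnum : Primrec fun x : α × ℕ => num x.1 x.2)
    (hW : Primrec fun x : (α × ℕ) × ℕ => W x.1.1 x.1.2 x.2) :
    PrimrecPred fun a => UpTab (S a) (P a) (r a) (Den a) (p a) (num a) (den a) (W a) := by
  unfold UpTab
  have f1 : ∀ {f : α → ℕ}, Primrec f → Primrec fun x : α × ℕ => f x.1 :=
    fun hf => hf.comp Primrec.fst
  refine PR.and ?_ ?_
  · refine PR.ball (PR.pow hS (PR.add hr (Primrec.const 1))) ?_
    refine PR.le (PR.mul hnum (PR.pow (f1 hDen) (f1 hP)))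
      (PR.mul (PR.pow ?_ (f1 hP)) (f1 hden))
    exact hW.comp (Primrec.pair (Primrec.pair Primrec.fst (f1 hr)) Primrec.snd)
  · refine PR.ball hr ?_
    refine PR.ball (PR.pow (f1 hS) (PR.add Primrec.snd (Primrec.const 1))) ?_
    -- α × ℕ) × ℕ : (a, d), C
    have g1 : ∀ {f : α → ℕ}, Primrec f → Primrec fun x : (α × ℕ) × ℕ => f x.1.1 :=
      fun hf => hf.comp (Primrec.fst.comp Primrec.fst)
    have hd : Primrec fun x : (α × ℕ) × ℕ => x.1.2 := Primrec.snd.comp Primrec.fst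
    have hpd : Primrec fun x : (α × ℕ) × ℕ => p x.1.1 x.1.2 := hp.comp Primrec.fst
    have hq : Primrec fun y : ((α × ℕ) × ℕ) × ℕ => y.1 := Primrec.fst
    refine PR.le (PR.sum (g1 hS) (PR.pow ?_ (hpd.comp hq)))
      (PR.mul (g1 hS) (PR.pow hW hpd))
    have ha : Primrec fun x : (α × ℕ) × ℕ => x.1.1 := Primrec.fst.comp Primrec.fst
    have hC : Primrec fun x : (α × ℕ) × ℕ => x.2 := Primrec.snd
    have hWy : Primrec fun y : ((α × ℕ) × ℕ) × ℕ =>
        W y.1.1.1 (y.1.1.2 + 1) (y.1.2 * S y.1.1.1 + y.2) :=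
      hW.comp (Primrec.pair (Primrec.pair (ha.comp hq) (PR.add (hd.comp hq) (Primrec.const 1)))
        (PR.add (PR.mul (hC.comp hq) ((g1 hS).comp hq)) Primrec.snd))
    exact hWy

theorem lowTab_pr {S P r Den den : α → ℕ} {p num : α → ℕ → ℕ} {W : α → ℕ → ℕ → ℕ}
    (hS : Primrec S) (hP : Primrec P) (hr : Primrec r) (hDen : Primrec Den) (hden : Primrec den)
    (hp : Primrec fun x : α × ℕ => p x.1 x.2) (hnum : Primrec fun x : α × ℕ => num x.1 x.2)
    (hW : Primrec fun x : (α × ℕ) × ℕ => W x.1.1 x.1.2 x.2) :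
    PrimrecPred fun a => LowTab (S a) (P a) (r a) (Den a) (p a) (num a) (den a) (W a) := by
  unfold LowTab
  have f1 : ∀ {f : α → ℕ}, Primrec f → Primrec fun x : α × ℕ => f x.1 :=
    fun hf => hf.comp Primrec.fst
  refine PR.and ?_ (PR.and ?_ ?_)
  · refine PR.ball (PR.pow hS (PR.add hr (Primrec.const 1))) ?_
    refine PR.le (PR.mul (PR.pow ?_ (f1 hP)) (f1 hden))
      (PR.mul hnum (PR.pow (f1 hDen) (f1 hP)))
    exact hW.comp (Primrec.pair (Primrec.pair Primrec.fst (f1 hr)) Primrec.snd)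
  · refine PR.ball hr ?_
    refine PR.ball (PR.pow (f1 hS) (PR.add Primrec.snd (Primrec.const 1))) ?_
    have g1 : ∀ {f : α → ℕ}, Primrec f → Primrec fun x : (α × ℕ) × ℕ => f x.1.1 :=
      fun hf => hf.comp (Primrec.fst.comp Primrec.fst)
    have hd : Primrec fun x : (α × ℕ) × ℕ => x.1.2 := Primrec.snd.comp Primrec.fst
    have hpd : Primrec fun x : (α × ℕ) × ℕ => p x.1.1 x.1.2 := hp.comp Primrec.fst
    have hq : Primrec fun y : ((α × ℕ) × ℕ) × ℕ => y.1 := Primrec.fst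
    refine PR.le (PR.mul (g1 hS) (PR.pow hW hpd))
      (PR.sum (g1 hS) (PR.pow ?_ (hpd.comp hq)))
    have ha : Primrec fun x : (α × ℕ) × ℕ => x.1.1 := Primrec.fst.comp Primrec.fst
    have hC : Primrec fun x : (α × ℕ) × ℕ => x.2 := Primrec.snd
    have hWy : Primrec fun y : ((α × ℕ) × ℕ) × ℕ =>
        W y.1.1.1 (y.1.1.2 + 1) (y.1.2 * S y.1.1.1 + y.2) :=
      hW.comp (Primrec.pair (Primrec.pair (ha.comp hq) (PR.add (hd.comp hq) (Primrec.const 1)))
        (PR.add (PR.mul (hC.comp hq) ((g1 hS).comp hq)) Primrec.snd))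
    exact hWy
  · refine PR.ball hS (PR.lt (Primrec.const 0) ?_)
    exact hW.comp (Primrec.pair (Primrec.pair Primrec.fst (Primrec.const 0)) Primrec.snd)

theorem trialOk_pr {l : α → List ℕ} (hl : Primrec l) :
    PrimrecPred fun a => TrialOk (cget (l a) 0 1) (cget (l a) 0 2) (cget (l a) 0 3)
      (cget (l a) 0 4) (fun d => cget (l a) 1 d) (fun c => cget (l a) 2 c) := by
  have h0 : ∀ i : ℕ, Primrec fun a => cget (l a) 0 i := fun i =>
    cget_pr hl (Primrec.const 0) (Primrec.const i)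
  have hl1 : Primrec fun x : α × ℕ => l x.1 := hl.comp Primrec.fst
  have h01 : ∀ i : ℕ, Primrec fun x : α × ℕ => cget (l x.1) 0 i := fun i =>
    cget_pr hl1 (Primrec.const 0) (Primrec.const i)
  have hp : Primrec fun x : α × ℕ => cget (l x.1) 1 x.2 :=
    cget_pr hl1 (Primrec.const 1) Primrec.snd
  have hp1 : Primrec fun x : α × ℕ => cget (l x.1) 1 (x.2 + 1) :=
    cget_pr hl1 (Primrec.const 1) (PR.add Primrec.snd (Primrec.const 1))
  have ht : Primrec fun x : α × ℕ => cget (l x.1) 2 x.2 :=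
    cget_pr hl1 (Primrec.const 2) Primrec.snd
  have key : PrimrecPred fun a =>
      (0 < cget (l a) 0 3) ∧ (0 < cget (l a) 0 4) ∧
      (∀ d < cget (l a) 0 1, 0 < cget (l a) 1 d ∧ cget (l a) 1 d < cget (l a) 0 3) ∧
      (∀ d < cget (l a) 0 1, d + 1 < cget (l a) 0 1 → cget (l a) 1 d < cget (l a) 1 (d + 1)) ∧
      (∀ c < (cget (l a) 0 2 + 1) ^ (cget (l a) 0 1 + 1), 0 < cget (l a) 2 c ∧
        cget (l a) 2 c < cget (l a) 0 4) := by
    refine PR.and (PR.lt (Primrec.const 0) (h0 3)) (PR.and (PR.lt (Primrec.const 0) (h0 4))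
      (PR.and ?_ (PR.and ?_ ?_)))
    · exact PR.ball (h0 1) (PR.and (PR.lt (Primrec.const 0) hp) (PR.lt hp (h01 3)))
    · exact PR.ball (h0 1) (PR.imp (PR.lt (PR.add Primrec.snd (Primrec.const 1)) (h01 1))
        (PR.lt hp hp1))
    · exact PR.ball (PR.pow (PR.add (h0 2) (Primrec.const 1)) (PR.add (h0 1) (Primrec.const 1)))
        (PR.and (PR.lt (Primrec.const 0) ht) (PR.lt ht (h01 4)))
  refine key.of_eq fun a => ?_
  constructor
  · rintro ⟨h1, h2, h3, h4, h5⟩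
    exact ⟨h1, h2, h3, h4, h5⟩
  · rintro ⟨h1, h2, h3, h4, h5⟩
    exact ⟨h1, h2, h3, h4, h5⟩

end Crest.Agent.R153
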