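import Crest.Agent.R153.DTest3

/-!
Row 153 (S0218), piece DTest4.
The test is primitive recursive.
-/

set_option autoImplicit false

open Finset MeasureTheory Filter
open Crest.ProbabilityR.Diluted
open Crest.Agent.R141

namespace Crest.Agent.R153

section

variable {α : Type} [Primcodable α]

/-- One upper table. -/
theorem ok_up1 {l : α → List ℕ} {k J : α → ℕ} (hl : Primrec l) (hk : Primrec k)
    (hJ : Primrec J) :
    PrimrecPred fun x => UpTab ((cget (l x) 0 2 + 1) ^ (k x * 2)) (cget (l x) 0 3)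
      (cget (l x) 0 1) (cget (l x) 0 5) (fun d => cget (l x) 1 d)
      (fun C => mixN (cget (l x) 0 2) (cget (l x) 0 1) (k x * 2) (cget (l x) 0 4)
        (fun c => cget (l x) 2 c) (siteN (k x) (cget (l x) 0 0) (J x)) C)
      (2 * cget (l x) 0 0 ^ k x * cget (l x) 0 4 ^ (k x * 2))
      (fun d C => cget (l x) 4 (Nat.pair (k x) (Nat.pair (J x) (Nat.pair d C)))) := by
  have h0 : ∀ i : ℕ, Primrec fun x : α => cget (l x) 0 i := fun i =>
    cget_pr hl (Primrec.const 0) (Primrec.const i)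
  have f1 : ∀ {f : α → ℕ}, Primrec f → Primrec fun y : α × ℕ => f y.1 :=
    fun hf => hf.comp Primrec.fst
  have hl1 : Primrec fun y : α × ℕ => l y.1 := hl.comp Primrec.fst
  have hl2 : Primrec fun y : (α × ℕ) × ℕ => l y.1.1 := hl1.comp Primrec.fst
  have f2 : ∀ {f : α × ℕ → ℕ}, Primrec f → Primrec fun y : (α × ℕ) × ℕ => f y.1 :=
    fun hf => hf.comp Primrec.fst
  have hv1 : Primrec fun y : α × ℕ => y.2 := Primrec.snd
  have hv2 : Primrec fun y : (α × ℕ) × ℕ => y.2 := Primrec.snd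
  have hk2 : Primrec fun x : α => k x * 2 := PR.mul hk (Primrec.const 2)
  have hS : Primrec fun x : α => (cget (l x) 0 2 + 1) ^ (k x * 2) :=
    PR.pow (PR.add (h0 2) (Primrec.const 1)) hk2
  have hden : Primrec fun x : α => 2 * cget (l x) 0 0 ^ k x * cget (l x) 0 4 ^ (k x * 2) :=
    PR.mul (PR.mul (Primrec.const 2) (PR.pow (h0 0) hk)) (PR.pow (h0 4) hk2)
  have hp : Primrec fun x : α × ℕ => cget (l x.1) 1 x.2 := cget_pr hl1 (Primrec.const 1) hv1
  have hV : Primrec fun y : (α × ℕ) × ℕ => siteN (k y.1.1) (cget (l y.1.1) 0 0) (J y.1.1) y.2 :=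
    siteN_pr (f2 (f1 hk)) (f2 (f1 (h0 0))) (f2 (f1 hJ)) hv2
  have hnum : Primrec fun x : α × ℕ => mixN (cget (l x.1) 0 2) (cget (l x.1) 0 1) (k x.1 * 2)
      (cget (l x.1) 0 4) (fun c => cget (l x.1) 2 c) (siteN (k x.1) (cget (l x.1) 0 0) (J x.1))
      x.2 :=
    mixN_pr (V := fun x : α × ℕ => siteN (k x.1) (cget (l x.1) 0 0) (J x.1))
      (f1 (h0 2)) (f1 (h0 1)) (f1 hk2) (f1 (h0 4)) hl1 hV hv1
  have hW : Primrec fun y : (α × ℕ) × ℕ =>
      cget (l y.1.1) 4 (Nat.pair (k y.1.1) (Nat.pair (J y.1.1) (Nat.pair y.1.2 y.2))) :=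
    cget_pr hl2 (Primrec.const 4) (PR.npair (f2 (f1 hk)) (PR.npair (f2 (f1 hJ))
      (PR.npair (f2 hv1) hv2)))
  exact upTab_pr (p := fun x d => cget (l x) 1 d)
    (num := fun x C => mixN (cget (l x) 0 2) (cget (l x) 0 1) (k x * 2) (cget (l x) 0 4)
        (fun c => cget (l x) 2 c) (siteN (k x) (cget (l x) 0 0) (J x)) C)
    (W := fun x d C => cget (l x) 4 (Nat.pair (k x) (Nat.pair (J x) (Nat.pair d C))))
    hS (h0 3) (h0 1) (h0 5) hden hp hnum hW

/-- One lower table. -/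
theorem ok_low1 {l : α → List ℕ} {J : α → ℕ} (hl : Primrec l) (hJ : Primrec J) :
    PrimrecPred fun x => LowTab ((cget (l x) 0 2 + 1) ^ 3) (cget (l x) 0 3)
      (cget (l x) 0 1) (cget (l x) 0 5) (fun d => cget (l x) 1 d)
      (fun C => mixN (cget (l x) 0 2) (cget (l x) 0 1) 3 (cget (l x) 0 4)
        (fun c => cget (l x) 2 c) (edgeN (cget (l x) 0 0) (J x)) C)
      (cget (l x) 0 0 * cget (l x) 0 4 ^ 3)
      (fun d C => cget (l x) 5 (Nat.pair (J x) (Nat.pair d C))) := by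
  have h0 : ∀ i : ℕ, Primrec fun x : α => cget (l x) 0 i := fun i =>
    cget_pr hl (Primrec.const 0) (Primrec.const i)
  have f1 : ∀ {f : α → ℕ}, Primrec f → Primrec fun y : α × ℕ => f y.1 :=
    fun hf => hf.comp Primrec.fst
  have hl1 : Primrec fun y : α × ℕ => l y.1 := hl.comp Primrec.fst
  have hl2 : Primrec fun y : (α × ℕ) × ℕ => l y.1.1 := hl1.comp Primrec.fst
  have f2 : ∀ {f : α × ℕ → ℕ}, Primrec f → Primrec fun y : (α × ℕ) × ℕ => f y.1 :=
    fun hf => hf.comp Primrec.fst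
  have hv1 : Primrec fun y : α × ℕ => y.2 := Primrec.snd
  have hv2 : Primrec fun y : (α × ℕ) × ℕ => y.2 := Primrec.snd
  have hS : Primrec fun x : α => (cget (l x) 0 2 + 1) ^ 3 :=
    PR.pow (PR.add (h0 2) (Primrec.const 1)) (Primrec.const 3)
  have hden : Primrec fun x : α => cget (l x) 0 0 * cget (l x) 0 4 ^ 3 :=
    PR.mul (h0 0) (PR.pow (h0 4) (Primrec.const 3))
  have hp : Primrec fun x : α × ℕ => cget (l x.1) 1 x.2 := cget_pr hl1 (Primrec.const 1) hv1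
  have hV : Primrec fun y : (α × ℕ) × ℕ => edgeN (cget (l y.1.1) 0 0) (J y.1.1) y.2 :=
    edgeN_pr (f2 (f1 (h0 0))) (f2 (f1 hJ)) hv2
  have hnum : Primrec fun x : α × ℕ => mixN (cget (l x.1) 0 2) (cget (l x.1) 0 1) 3
      (cget (l x.1) 0 4) (fun c => cget (l x.1) 2 c) (edgeN (cget (l x.1) 0 0) (J x.1)) x.2 :=
    mixN_pr (V := fun x : α × ℕ => edgeN (cget (l x.1) 0 0) (J x.1))
      (f1 (h0 2)) (f1 (h0 1)) (Primrec.const 3) (f1 (h0 4)) hl1 hV hv1
  have hW : Primrec fun y : (α × ℕ) × ℕ =>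
      cget (l y.1.1) 5 (Nat.pair (J y.1.1) (Nat.pair y.1.2 y.2)) :=
    cget_pr hl2 (Primrec.const 5) (PR.npair (f2 (f1 hJ)) (PR.npair (f2 hv1) hv2))
  exact lowTab_pr (p := fun x d => cget (l x) 1 d)
    (num := fun x C => mixN (cget (l x) 0 2) (cget (l x) 0 1) 3 (cget (l x) 0 4)
        (fun c => cget (l x) 2 c) (edgeN (cget (l x) 0 0) (J x)) C)
    (W := fun x d C => cget (l x) 5 (Nat.pair (J x) (Nat.pair d C)))
    hS (h0 3) (h0 1) (h0 5) hden hp hnum hW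

theorem ok_up {l : α → List ℕ} (hl : Primrec l) :
    PrimrecPred fun x => ∀ k < cget (l x) 0 6, ∀ J < 8 ^ k,
      UpTab ((cget (l x) 0 2 + 1) ^ (k * 2)) (cget (l x) 0 3)
      (cget (l x) 0 1) (cget (l x) 0 5) (fun d => cget (l x) 1 d)
      (fun C => mixN (cget (l x) 0 2) (cget (l x) 0 1) (k * 2) (cget (l x) 0 4)
        (fun c => cget (l x) 2 c) (siteN k (cget (l x) 0 0) J) C)
      (2 * cget (l x) 0 0 ^ k * cget (l x) 0 4 ^ (k * 2))
      (fun d C => cget (l x) 4 (Nat.pair k (Nat.pair J (Nat.pair d C)))) := by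
  have h0 : ∀ i : ℕ, Primrec fun x : α => cget (l x) 0 i := fun i =>
    cget_pr hl (Primrec.const 0) (Primrec.const i)
  have hl2 : Primrec fun y : (α × ℕ) × ℕ => l y.1.1 :=
    hl.comp (Primrec.fst.comp Primrec.fst)
  have hk2 : Primrec fun y : (α × ℕ) × ℕ => y.1.2 := Primrec.snd.comp Primrec.fst
  have hJ2 : Primrec fun y : (α × ℕ) × ℕ => y.2 := Primrec.snd
  have h8 : Primrec fun y : α × ℕ => 8 ^ y.2 := PR.pow (Primrec.const 8) Primrec.snd
  exact PR.ball (h0 6) (PR.ball h8 (ok_up1 hl2 hk2 hJ2))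

theorem ok_low {l : α → List ℕ} (hl : Primrec l) :
    PrimrecPred fun x => ∀ J < 8,
      LowTab ((cget (l x) 0 2 + 1) ^ 3) (cget (l x) 0 3)
      (cget (l x) 0 1) (cget (l x) 0 5) (fun d => cget (l x) 1 d)
      (fun C => mixN (cget (l x) 0 2) (cget (l x) 0 1) 3 (cget (l x) 0 4)
        (fun c => cget (l x) 2 c) (edgeN (cget (l x) 0 0) J) C)
      (cget (l x) 0 0 * cget (l x) 0 4 ^ 3)
      (fun d C => cget (l x) 5 (Nat.pair J (Nat.pair d C))) := by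
  have hl1 : Primrec fun y : α × ℕ => l y.1 := hl.comp Primrec.fst
  have hJ1 : Primrec fun y : α × ℕ => y.2 := Primrec.snd
  exact PR.ball (Primrec.const 8) (ok_low1 hl1 hJ1)

theorem ok_he {l : α → List ℕ} {a b : α → ℕ} (hl : Primrec l) (ha : Primrec a)
    (hb : Primrec b) :
    PrimrecPred fun x => ∀ k < cget (l x) 0 6,
      cget (l x) 3 k * (8 ^ k * (cget (l x) 0 2 + 1) ^ (k * 2)) * Nat.factorial k *
        (cget (l x) 0 7 * b x) ^ cget (l x) 0 7 * b x ^ k ≤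
      cget (l x) 0 8 * (cget (l x) 0 7 * b x - 3 * a x) ^ cget (l x) 0 7 * (3 * a x) ^ k := by
  have hl1 : Primrec fun y : α × ℕ => l y.1 := hl.comp Primrec.fst
  have h0 : ∀ i : ℕ, Primrec fun x : α × ℕ => cget (l x.1) 0 i := fun i =>
    cget_pr hl1 (Primrec.const 0) (Primrec.const i)
  have ha1 : Primrec fun y : α × ℕ => a y.1 := ha.comp Primrec.fst
  have hb1 : Primrec fun y : α × ℕ => b y.1 := hb.comp Primrec.fst
  have hv : Primrec fun y : α × ℕ => y.2 := Primrec.snd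
  have h1 : Primrec fun y : α × ℕ => cget (l y.1) 3 y.2 := cget_pr hl1 (Primrec.const 3) hv
  have h2 : Primrec fun y : α × ℕ => 8 ^ y.2 * (cget (l y.1) 0 2 + 1) ^ (y.2 * 2) :=
    PR.mul (PR.pow (Primrec.const 8) hv) (PR.pow (PR.add (h0 2) (Primrec.const 1))
      (PR.mul hv (Primrec.const 2)))
  have h3 : Primrec fun y : α × ℕ => cget (l y.1) 0 7 * b y.1 := PR.mul (h0 7) hb1
  have h4 : Primrec fun y : α × ℕ => 3 * a y.1 := PR.mul (Primrec.const 3) ha1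
  refine PR.ball (cget_pr hl (Primrec.const 0) (Primrec.const 6)) (PR.le ?_ ?_)
  · exact PR.mul (PR.mul (PR.mul (PR.mul h1 h2) (PR.fact hv)) (PR.pow h3 (h0 7)))
      (PR.pow hb1 hv)
  · exact PR.mul (PR.mul (h0 8) (PR.pow (PR.sub h3 h4) (h0 7))) (PR.pow h4 hv)

theorem ok_prod1 {l : α → List ℕ} (hl : Primrec l) :
    Primrec fun x => ∏ k ∈ range (cget (l x) 0 6), ∏ J ∈ range (8 ^ k),
        ∏ C ∈ range ((cget (l x) 0 2 + 1) ^ (k * 2)),
          cget (l x) 4 (Nat.pair k (Nat.pair J (Nat.pair 0 C))) ^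
            (cget (l x) 0 3 * cget (l x) 3 k) := by
  have hl2 : Primrec fun y : (α × ℕ) × ℕ => l y.1.1 :=
    hl.comp (Primrec.fst.comp Primrec.fst)
  have hl3 : Primrec fun y : ((α × ℕ) × ℕ) × ℕ => l y.1.1.1 := hl2.comp Primrec.fst
  have hk2 : Primrec fun y : (α × ℕ) × ℕ => y.1.2 := Primrec.snd.comp Primrec.fst
  have hk3 : Primrec fun y : ((α × ℕ) × ℕ) × ℕ => y.1.1.2 := hk2.comp Primrec.fst
  have hJ3 : Primrec fun y : ((α × ℕ) × ℕ) × ℕ => y.1.2 := Primrec.snd.comp Primrec.fst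
  have hC3 : Primrec fun y : ((α × ℕ) × ℕ) × ℕ => y.2 := Primrec.snd
  have hr : Primrec fun y : (α × ℕ) × ℕ => (cget (l y.1.1) 0 2 + 1) ^ (y.1.2 * 2) :=
    PR.pow (PR.add (cget_pr hl2 (Primrec.const 0) (Primrec.const 2)) (Primrec.const 1))
      (PR.mul hk2 (Primrec.const 2))
  have h8 : Primrec fun y : α × ℕ => 8 ^ y.2 := PR.pow (Primrec.const 8) Primrec.snd
  have hin : Primrec fun y : ((α × ℕ) × ℕ) × ℕ =>
      cget (l y.1.1.1) 4 (Nat.pair y.1.1.2 (Nat.pair y.1.2 (Nat.pair 0 y.2))) ^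
        (cget (l y.1.1.1) 0 3 * cget (l y.1.1.1) 3 y.1.1.2) :=
    PR.pow (cget_pr hl3 (Primrec.const 4) (PR.npair hk3 (PR.npair hJ3
      (PR.npair (Primrec.const 0) hC3))))
      (PR.mul (cget_pr hl3 (Primrec.const 0) (Primrec.const 3))
        (cget_pr hl3 (Primrec.const 3) hk3))
  exact PR.prod (cget_pr hl (Primrec.const 0) (Primrec.const 6)) (PR.prod h8 (PR.prod hr hin))

theorem ok_prod2 {l : α → List ℕ} (hl : Primrec l) :
    Primrec fun x => ∏ J ∈ range 8, ∏ C ∈ range ((cget (l x) 0 2 + 1) ^ 3),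
        cget (l x) 5 (Nat.pair J (Nat.pair 0 C)) ^ (cget (l x) 0 3 * cget (l x) 0 9) := by
  have hl1 : Primrec fun y : α × ℕ => l y.1 := hl.comp Primrec.fst
  have hl2 : Primrec fun y : (α × ℕ) × ℕ => l y.1.1 :=
    hl.comp (Primrec.fst.comp Primrec.fst)
  have hJ2 : Primrec fun y : (α × ℕ) × ℕ => y.1.2 := Primrec.snd.comp Primrec.fst
  have hC2 : Primrec fun y : (α × ℕ) × ℕ => y.2 := Primrec.snd
  have hr : Primrec fun y : α × ℕ => (cget (l y.1) 0 2 + 1) ^ 3 :=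
    PR.pow (PR.add (cget_pr hl1 (Primrec.const 0) (Primrec.const 2)) (Primrec.const 1))
      (Primrec.const 3)
  have hin : Primrec fun y : (α × ℕ) × ℕ =>
      cget (l y.1.1) 5 (Nat.pair y.1.2 (Nat.pair 0 y.2)) ^
        (cget (l y.1.1) 0 3 * cget (l y.1.1) 0 9) :=
    PR.pow (cget_pr hl2 (Primrec.const 5) (PR.npair hJ2 (PR.npair (Primrec.const 0) hC2)))
      (PR.mul (cget_pr hl2 (Primrec.const 0) (Primrec.const 3))
        (cget_pr hl2 (Primrec.const 0) (Primrec.const 9)))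
  exact PR.prod (Primrec.const 8) (PR.prod hr hin)

theorem ok_sum {l : α → List ℕ} (hl : Primrec l) :
    Primrec fun x => ∑ k ∈ range (cget (l x) 0 6),
      cget (l x) 3 k * (8 ^ k * (cget (l x) 0 2 + 1) ^ (k * 2)) := by
  have hl1 : Primrec fun y : α × ℕ => l y.1 := hl.comp Primrec.fst
  have hv : Primrec fun y : α × ℕ => y.2 := Primrec.snd
  have hin : Primrec fun y : α × ℕ =>
      cget (l y.1) 3 y.2 * (8 ^ y.2 * (cget (l y.1) 0 2 + 1) ^ (y.2 * 2)) :=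
    PR.mul (cget_pr hl1 (Primrec.const 3) hv) (PR.mul (PR.pow (Primrec.const 8) hv)
      (PR.pow (PR.add (cget_pr hl1 (Primrec.const 0) (Primrec.const 2)) (Primrec.const 1))
        (PR.mul hv (Primrec.const 2))))
  exact PR.sum (cget_pr hl (Primrec.const 0) (Primrec.const 6)) hin

theorem ok_fin {l : α → List ℕ} (hl : Primrec l) :
    PrimrecPred fun x =>
      2 ^ cget (l x) 0 8 * (∏ k ∈ range (cget (l x) 0 6), ∏ J ∈ range (8 ^ k),
        ∏ C ∈ range ((cget (l x) 0 2 + 1) ^ (k * 2)),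
          cget (l x) 4 (Nat.pair k (Nat.pair J (Nat.pair 0 C))) ^
            (cget (l x) 0 3 * cget (l x) 3 k)) *
        cget (l x) 0 5 ^ (cget (l x) 0 3 * cget (l x) 0 9 * (8 * (cget (l x) 0 2 + 1) ^ 3)) <
      cget (l x) 0 5 ^ (cget (l x) 0 3 * ∑ k ∈ range (cget (l x) 0 6),
        cget (l x) 3 k * (8 ^ k * (cget (l x) 0 2 + 1) ^ (k * 2))) *
      ∏ J ∈ range 8, ∏ C ∈ range ((cget (l x) 0 2 + 1) ^ 3),
        cget (l x) 5 (Nat.pair J (Nat.pair 0 C)) ^ (cget (l x) 0 3 * cget (l x) 0 9) := by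
  have h0 : ∀ i : ℕ, Primrec fun x : α => cget (l x) 0 i := fun i =>
    cget_pr hl (Primrec.const 0) (Primrec.const i)
  refine PR.lt (PR.mul (PR.mul (PR.pow (Primrec.const 2) (h0 8)) (ok_prod1 hl)) ?_)
    (PR.mul (PR.pow (h0 5) (PR.mul (h0 3) (ok_sum hl))) (ok_prod2 hl))
  exact PR.pow (h0 5) (PR.mul (PR.mul (h0 3) (h0 9)) (PR.mul (Primrec.const 8)
    (PR.pow (PR.add (h0 2) (Primrec.const 1)) (Primrec.const 3))))

end

/-- The test is primitive recursive. -/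
theorem ok_primrec :
    PrimrecPred fun x : (ℕ × ℕ) × List ℕ => (Cert.ofList x.2).Ok x.1.1 x.1.2 := by
  have hl : Primrec fun x : (ℕ × ℕ) × List ℕ => x.2 := Primrec.snd
  have ha : Primrec fun x : (ℕ × ℕ) × List ℕ => x.1.1 := Primrec.fst.comp Primrec.fst
  have hb : Primrec fun x : (ℕ × ℕ) × List ℕ => x.1.2 := Primrec.snd.comp Primrec.fst
  have h0 : ∀ i : ℕ, Primrec fun x : (ℕ × ℕ) × List ℕ => cget x.2 0 i := fun i =>
    cget_pr hl (Primrec.const 0) (Primrec.const i)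
  have hhf : PrimrecPred fun x : (ℕ × ℕ) × List ℕ =>
      cget x.2 0 8 * (2 * x.1.1) ≤ cget x.2 0 9 * (8 * (cget x.2 0 2 + 1) ^ 3) * x.1.2 :=
    PR.le (PR.mul (h0 8) (PR.mul (Primrec.const 2) ha))
      (PR.mul (PR.mul (h0 9) (PR.mul (Primrec.const 8)
        (PR.pow (PR.add (h0 2) (Primrec.const 1)) (Primrec.const 3)))) hb)
  have hhn : PrimrecPred fun x : (ℕ × ℕ) × List ℕ => 3 * x.1.1 < cget x.2 0 7 * x.1.2 :=
    PR.lt (PR.mul (Primrec.const 3) ha) (PR.mul (h0 7) hb)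
  have h2 : PrimrecPred fun x : (ℕ × ℕ) × List ℕ => 2 ≤ cget x.2 0 0 :=
    PR.le (Primrec.const 2) (h0 0)
  have h5 : PrimrecPred fun x : (ℕ × ℕ) × List ℕ => 0 < cget x.2 0 5 :=
    PR.lt (Primrec.const 0) (h0 5)
  have h8 : PrimrecPred fun x : (ℕ × ℕ) × List ℕ => 0 < cget x.2 0 8 :=
    PR.lt (Primrec.const 0) (h0 8)
  refine (PR.and h2 (PR.and h5 (PR.and h8 (PR.and (trialOk_pr hl) (PR.and (ok_up hl)
    (PR.and (ok_low hl) (PR.and hhn (PR.and (ok_he hl ha hb) (PR.and hhf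
      (ok_fin hl)))))))))).of_eq fun x => ?_
  constructor
  · rintro ⟨h1, h2, h3, h4, h5, h6, h7, h8, h9, h10⟩
    exact ⟨h1, h2, h3, h4, h5, h6, h7, h8, h9, h10⟩
  · rintro ⟨h1, h2, h3, h4, h5, h6, h7, h8, h9, h10⟩
    exact ⟨h1, h2, h3, h4, h5, h6, h7, h8, h9, h10⟩

theorem testU_primrec : Primrec fun x : (ℕ × ℕ) × ℕ => testU x.1.1 x.1.2 x.2 := by
  classical
  have ha : Primrec fun x : (ℕ × ℕ) × ℕ => x.1.1 := Primrec.fst.comp Primrec.fst
  have hb : Primrec fun x : (ℕ × ℕ) × ℕ => x.1.2 := Primrec.snd.comp Primrec.fst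
  have hof : Primrec fun x : (ℕ × ℕ) × ℕ => Denumerable.ofNat (List ℕ) x.2 :=
    (Primrec.ofNat (List ℕ)).comp Primrec.snd
  have hok : PrimrecPred fun x : (ℕ × ℕ) × ℕ =>
      (Cert.ofList (Denumerable.ofNat (List ℕ) x.2)).Ok x.1.1 x.1.2 :=
    ok_primrec.comp (Primrec.pair Primrec.fst hof)
  have h : PrimrecPred fun x : (ℕ × ℕ) × ℕ => 0 < x.1.1 ∧ 0 < x.1.2 ∧
      (Cert.ofList (Denumerable.ofNat (List ℕ) x.2)).Ok x.1.1 x.1.2 :=
    PR.and (PR.lt (Primrec.const 0) ha) (PR.and (PR.lt (Primrec.const 0) hb) hok)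
  exact h.decide

end Crest.Agent.R153
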