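import Crest.Agent.R153.DTest1
import Crest.Agent.R153.DTest4
import Crest.Agent.R153.DCert2
import Crest.Agent.R153.DComp3
import Crest.Agent.R153.DDens6

/-!
Row 153 (S0218), piece DTest5.
Final: soundness and completeness of the test.
-/

set_option autoImplicit false

open Finset MeasureTheory Filter
open Crest.ProbabilityR.Diluted
open Crest.Agent.R141

namespace Crest.Agent.R153

/-- Soundness. -/
theorem testU_sound {a b c : ℕ} (h : testU a b c = true) :
    ∃ R : ℕ, 2 ≤ R ∧ ∃ (r : ℕ) (m : Fin r → ℝ) (X : (Fin (r + 1) → unitInterval) → ℝ),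
      AdmissibleExponents m ∧ Measurable X ∧
      trialFunctional 3 ((a : ℝ) / b) (satLaw 3 (1 / (R : ℝ))) (Measure.dirac 0) r m X < 0 := by
  classical
  have h' : 0 < a ∧ 0 < b ∧ (Cert.ofList (Denumerable.ofNat (List ℕ) c)).Ok a b := by
    simpa [testU] using h
  obtain ⟨ha, hb, hok⟩ := h'
  exact ⟨_, hok.hR, _, _, _, exQ_adm hok.tr, measurable_Xtab _ _ _, cert_sound _ ha hb hok⟩

/-- Completeness. -/
theorem testU_complete {a b : ℕ} (ha : 0 < a) (hb : 0 < b) {R : ℕ} (hR : 2 ≤ R) {r : ℕ}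
    {m : Fin r → ℝ} {X : (Fin (r + 1) → unitInterval) → ℝ} (hm : AdmissibleExponents m)
    (hX : Measurable X)
    (hneg : trialFunctional 3 ((a : ℝ) / b) (satLaw 3 (1 / (R : ℝ))) (Measure.dirac 0) r m X < 0) :
    ∃ c : ℕ, testU a b c = true := by
  classical
  have hR1 : (1 : ℝ) < R := by
    have : 1 < R := hR
    exact_mod_cast this
  have hR0 : (0 : ℝ) < R := by linarith
  have hq : 0 < (a : ℝ) / b := by
    have h1 : (0 : ℝ) < a := by exact_mod_cast ha
    have h2 : (0 : ℝ) < b := by exact_mod_cast hb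
    positivity
  have hρ1 : 1 / (R : ℝ) < 1 := by
    rw [div_lt_one hR0]
    exact hR1
  obtain ⟨D, P, Q, p, τ, htr, hn⟩ := dens hq (by positivity) hρ1 hm hX hneg
  obtain ⟨c, hc⟩ := cert_complete htr hR ha hb hn
  obtain ⟨l, hl⟩ := exists_list c hc
  refine ⟨Encodable.encode l, ?_⟩
  have e : Denumerable.ofNat (List ℕ) (Encodable.encode l) = l := Denumerable.ofNat_encode l
  simp only [testU, e, decide_eq_true_eq]
  exact ⟨ha, hb, hl⟩

end Crest.Agent.R153
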