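/-
Row 153 (S0218), part D1: the interpolation upper bound for nonnegative factors (any `p`).
The chain of row 141 part U, with `Even p` replaced by `0 ≤ f`.
-/
import Crest.Agent.R141.UFinal

set_option autoImplicit false

namespace Crest.Agent.R153.V

open MeasureTheory Crest.ProbabilityR.Diluted Crest.Agent.R141.U

noncomputable section

variable {L : Type} [Fintype L] {r N p : ℕ}

/-- Tangent line inequality on the half line. -/
theorem tangent_nn (p : ℕ) (hp1 : 1 ≤ p) (x y : ℝ) (hx : 0 ≤ x) (hy0 : 0 ≤ y) :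
    0 ≤ x ^ p - p * (x * y ^ (p - 1)) + ((p : ℝ) - 1) * y ^ p := by
  rcases eq_or_ne y 0 with rfl | hy
  · rcases Nat.eq_or_lt_of_le hp1 with h | h
    · subst h
      simp
    · rw [zero_pow (by omega), zero_pow (by omega)]
      have := pow_nonneg hx p
      simpa using this
  · have key : ∀ t : ℝ, 0 ≤ t → 0 ≤ t ^ p - p * t + ((p : ℝ) - 1) := by
      intro t ht
      have h1 := one_add_mul_le_pow (a := t - 1) (by linarith) p
      rw [show 1 + (t - 1) = t by ring] at h1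
      linarith
    have h1 : x ^ p - p * (x * y ^ (p - 1)) + ((p : ℝ) - 1) * y ^ p =
        y ^ p * ((x / y) ^ p - p * (x / y) + ((p : ℝ) - 1)) := by
      have h2 : y ^ p = y ^ (p - 1) * y := by
        rw [← pow_succ]; congr 1; omega
      rw [div_pow]
      field_simp
      rw [h2]
      field_simp
    rw [h1]
    exact mul_nonneg (pow_nonneg hy0 p) (key _ (div_nonneg hx hy0))

theorem Mom_nonneg (κ : Measure (Bool → ℝ)) (hκ : ∀ᵐ f ∂κ, ∀ s, 0 ≤ f s) {C : Type} [Fintype C]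
    (t : C → Bool) : 0 ≤ Mom κ t := by
  unfold Mom
  refine integral_nonneg_of_ae ?_
  filter_upwards [hκ] with f hf
  exact Finset.prod_nonneg fun c _ => hf _

theorem fav_nonneg {ι : Type*} [Fintype ι] (f : ι → ℝ) (h : ∀ i, 0 ≤ f i) : 0 ≤ fav f := by
  unfold fav
  exact mul_nonneg (inv_nonneg.2 (Nat.cast_nonneg _)) (Finset.sum_nonneg fun i _ => h i)

/-- UL6: `Λ ≥ 0` on monomials. -/
theorem Lam_mono_nonneg_nn (hp1 : 1 ≤ p) (hN : 0 < N) (M : Mono L r N) (β : Measure ℝ)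
    [IsProbabilityMeasure β] (κ : Measure (Bool → ℝ)) [IsProbabilityMeasure κ]
    (hκ : ∀ᵐ f ∂κ, ∀ s, 0 ≤ f s) {ρ : ℝ} (hρ0 : 0 ≤ ρ) (hρ1 : ρ ≤ 1)
    (hdom : ∀ᵐ ξ ∂(β.prod (Measure.pi fun _ : Fin p => κ)), ξ ∈ Dom p ρ)
    (hβ : ∀ n : ℕ, 1 ≤ n → 0 ≤ ∫ b, (-b) ^ n ∂β) :
    0 ≤ Lam (β.prod (Measure.pi fun _ : Fin p => κ)) (M.fam p) := by
  obtain ⟨B, hB⟩ := M.bdd (p := p) hρ0 hρ1
  rw [Lam_eq (M.fam p) M.meas _ hdom hB, M.value hN β κ hρ0 hρ1 hdom, M.value hN β κ hρ0 hρ1 hdom,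
    M.value hN β κ hρ0 hρ1 hdom]
  simp only [UL4aux_SA, UL4aux_SB hp1, UL4aux_SC]
  set b : ℝ := ∑ s : M.C → Bool,
    (∫ x, M.w' x s ∂(Measure.pi fun _ : Fin (r + 1) => (volume : Measure unitInterval))) * Mom κ s
    with hb
  have hb0 : 0 ≤ b := Finset.sum_nonneg fun s _ =>
    mul_nonneg (integral_nonneg fun x => M.w'_nonneg x s) (Mom_nonneg κ hκ s)
  have hcard : 1 ≤ Fintype.card M.C := Fintype.card_pos
  have hm := hβ _ hcard
  set m : ℝ := ∫ b, (-b) ^ Fintype.card M.C ∂β with hmdef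
  have key : m * ∑ σ : M.C → Fin N → Bool, (∫ u, M.w u σ ∂(uniformArrays L r)) *
        (fav (fun i : Fin N => Mom κ (fun c => σ c i))) ^ p
      - (p : ℝ) * (m * ∑ σ : M.C → Fin N → Bool, (∫ u, M.w u σ ∂(uniformArrays L r)) *
        ((fav (fun i : Fin N => Mom κ (fun c => σ c i))) * b ^ (p - 1)))
      + ((p : ℝ) - 1) * (m * ∑ σ : M.C → Fin N → Bool, (∫ u, M.w u σ ∂(uniformArrays L r)) *
        b ^ p)
      = m * ∑ σ : M.C → Fin N → Bool, (∫ u, M.w u σ ∂(uniformArrays L r)) *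
        ((fav (fun i : Fin N => Mom κ (fun c => σ c i))) ^ p
          - p * ((fav (fun i : Fin N => Mom κ (fun c => σ c i))) * b ^ (p - 1))
          + ((p : ℝ) - 1) * b ^ p) := by
    have e : ∀ σ : M.C → Fin N → Bool, (∫ u, M.w u σ ∂(uniformArrays L r)) *
        ((fav (fun i : Fin N => Mom κ (fun c => σ c i))) ^ p
          - p * ((fav (fun i : Fin N => Mom κ (fun c => σ c i))) * b ^ (p - 1))
          + ((p : ℝ) - 1) * b ^ p)
        = (∫ u, M.w u σ ∂(uniformArrays L r)) * (fav (fun i : Fin N => Mom κ (fun c => σ c i))) ^ p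
        - p * ((∫ u, M.w u σ ∂(uniformArrays L r)) *
          ((fav (fun i : Fin N => Mom κ (fun c => σ c i))) * b ^ (p - 1)))
        + ((p : ℝ) - 1) * ((∫ u, M.w u σ ∂(uniformArrays L r)) * b ^ p) := fun σ => by ring
    simp only [e, Finset.sum_add_distrib, Finset.sum_sub_distrib, ← Finset.mul_sum]
    ring
  rw [key]
  refine mul_nonneg hm (Finset.sum_nonneg fun σ _ => mul_nonneg ?_
    (tangent_nn p hp1 _ _ (fav_nonneg _ fun i => Mom_nonneg κ hκ _) hb0))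
  exact integral_nonneg fun u => M.w_nonneg u σ

/-- UL7: `Λ ≥ 0` on the cone. -/
theorem Lam_cone_nonneg_nn (hp2 : 2 ≤ p) (hN : 0 < N) (β : Measure ℝ)
    [IsProbabilityMeasure β] (κ : Measure (Bool → ℝ)) [IsProbabilityMeasure κ]
    (hκ : ∀ᵐ f ∂κ, ∀ s, 0 ≤ f s) {ρ : ℝ} (hρ0 : 0 ≤ ρ) (hρ1 : ρ ≤ 1)
    (hdom : ∀ᵐ ξ ∂(β.prod (Measure.pi fun _ : Fin p => κ)), ξ ∈ Dom p ρ)
    (hβ : ∀ n : ℕ, 1 ≤ n → 0 ≤ ∫ b, (-b) ^ n ∂β) {y : Fam L r N p} (hy : Cone ρ y) :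
    0 ≤ Lam (β.prod (Measure.pi fun _ : Fin p => κ)) y := by
  induction hy with
  | mono M => exact Lam_mono_nonneg_nn (by omega) hN M β κ hκ hρ0 hρ1 hdom hβ
  | add hy hz ihy ihz =>
    obtain ⟨B, hB⟩ := hy.bdd hρ0 hρ1
    obtain ⟨B', hB'⟩ := hz.bdd hρ0 hρ1
    rw [UL5aux_Lam_add _ _ hy.meas hz.meas _ hdom hB hB']
    exact add_nonneg ihy ihz
  | @lim y z hyn hz hlim ih =>
    refine le_of_forall_pos_le_add fun ε hε => ?_
    have hp0 : (0 : ℝ) < 2 * p := by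
      have : (2 : ℝ) ≤ p := by exact_mod_cast hp2
      linarith
    obtain ⟨n, hn⟩ := hlim (ε / (2 * p)) (div_pos hε hp0)
    obtain ⟨B, hB⟩ := (hyn n).bdd hρ0 hρ1
    have hwm : FMeas (fun S idx ξ ω => z S idx ξ ω - y n S idx ξ ω) := fun S idx =>
      (hz S idx).sub ((hyn n).meas S idx)
    have hwb : ∀ S idx ω, ∀ ξ ∈ Dom p ρ, |z S idx ξ ω - y n S idx ξ ω| ≤ ε / (2 * p) := by
      intro S idx ω ξ hξ
      rw [abs_sub_comm]
      exact hn S idx ω ξ hξ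
    have h1 := UL5aux_Lam_add (y n) (fun S idx ξ ω => z S idx ξ ω - y n S idx ξ ω)
      (hyn n).meas hwm _ hdom hB hwb
    have h2 : (fun S idx ξ ω => y n S idx ξ ω + (z S idx ξ ω - y n S idx ξ ω)) = z := by
      funext S idx ξ ω; ring
    rw [h2] at h1
    have h3 := UL5aux_Lam_abs _ hwm (β.prod (Measure.pi fun _ : Fin p => κ)) (by omega)
      (div_pos hε hp0).le hdom hwb
    have h4 : 2 * (p : ℝ) * (ε / (2 * p)) = ε := by field_simp
    rw [h4] at h3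
    have h5 := (abs_le.mp h3).1
    have h6 := ih n
    rw [h1]
    linarith

/-- UR7: the local inequality, damped form. -/
theorem local_damped_nn (hp2 : 2 ≤ p) (hN : 0 < N)
    (X : (Fin (r + 1) → unitInterval) → ℝ) (hX : Measurable X)
    (Z : Paths L r → (Fin N → Bool) → ℝ) (hZm : ∀ σ, Measurable fun u => Z u σ)
    {c C : ℝ} (hc : 0 < c) (hZ : ∀ u σ, c ≤ Z u σ ∧ Z u σ ≤ C)
    (l : List (ℝ × Fin (r + 1))) (hl : Adm l)
    {ρ : ℝ} (hρ0 : 0 ≤ ρ) (hρ1 : ρ < 1) (β : Measure ℝ)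
    [IsProbabilityMeasure β] (κ : Measure (Bool → ℝ)) [IsProbabilityMeasure κ]
    (hκ : ∀ᵐ f ∂κ, ∀ s, 0 ≤ f s)
    (hdom : ∀ᵐ ξ ∂(β.prod (Measure.pi fun _ : Fin p => κ)), ξ ∈ Dom p ρ)
    (hβ : ∀ n : ℕ, 1 ≤ n → 0 ≤ ∫ b, (-b) ^ n ∂β) :
    ∫ ξ, fav (fun idx : Fin p → Fin N => Dloc l X Z idx (thX ξ))
        ∂(β.prod (Measure.pi fun _ : Fin p => κ)) ≤ 0 := by
  obtain ⟨y, hy, heq⟩ := log_main (p := p) hρ0 hρ1 X hX Z hZm hc hZ l hl
  have hLam := Lam_cone_nonneg_nn (L := L) (r := r) hp2 hN β κ hκ hρ0 hρ1.le hdom hβ hy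
  have hkey : ∀ᵐ ξ ∂(β.prod (Measure.pi fun _ : Fin p => κ)),
      fav (fun idx : Fin p → Fin N => Dloc l X Z idx (thX ξ))
        = -fav (fun idx : Fin p → Fin N => ∫ ω, (y (SA p) idx ξ ω - (p : ℝ) * y (SB p) idx ξ ω
            + ((p : ℝ) - 1) * y (SC p) idx ξ ω) ∂(uniformArrays (L ⊕ Fin p) r)) := by
    filter_upwards [hdom] with ξ hξ
    have hD : ∀ idx : Fin p → Fin N, Dloc l X Z idx (thX ξ)
        = -∫ ω, (y (SA p) idx ξ ω - (p : ℝ) * y (SB p) idx ξ ω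
            + ((p : ℝ) - 1) * y (SC p) idx ξ ω) ∂(uniformArrays (L ⊕ Fin p) r) := by
      intro idx
      unfold Dloc
      rw [← integral_neg]
      congr 1
      funext ω
      rw [heq (SA p) idx ω ξ hξ, heq (SB p) idx ω ξ hξ, heq (SC p) idx ω ξ hξ]
      ring
    simp only [hD, fav, Finset.sum_neg_distrib, mul_neg]
  rw [integral_congr_ae hkey, integral_neg]
  have : 0 ≤ ∫ ξ, fav (fun idx : Fin p → Fin N => ∫ ω, (y (SA p) idx ξ ω - (p : ℝ) * y (SB p) idx ξ ω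
            + ((p : ℝ) - 1) * y (SC p) idx ξ ω) ∂(uniformArrays (L ⊕ Fin p) r))
            ∂(β.prod (Measure.pi fun _ : Fin p => κ)) := hLam
  linarith

end

end Crest.Agent.R153.V
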