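/-
Row 153 (S0218), part D1: the local inequality from factorization data with nonnegative factors.
-/
import Crest.Agent.R153.VT1

set_option autoImplicit false

namespace Crest.Agent.R153.V

open MeasureTheory Crest.ProbabilityR.Diluted Crest.Agent.R141.U

noncomputable section

variable {L : Type} [Fintype L] {r N p : ℕ}

/-- Factorization data with nonnegative factors. -/
structure FacNN (p : ℕ) (μ : Measure (Inter p)) (β : Measure ℝ) (κ : Measure (Bool → ℝ)) : Prop where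
  pβ : IsProbabilityMeasure β
  pκ : IsProbabilityMeasure κ
  nn : ∀ᵐ f ∂κ, ∀ s, 0 ≤ f s
  mom : ∀ n : ℕ, 1 ≤ n → 0 ≤ ∫ b, (-b) ^ n ∂β
  dom : ∀ᵐ ξ ∂(β.prod (Measure.pi fun _ : Fin p => κ)), ∀ s : Fin p → Bool,
        |ξ.1 * ∏ ℓ, ξ.2 ℓ (s ℓ)| < 1
  tr : ∀ F : Inter p → ℝ, Measurable F → (∀ θ a, F (fun s => θ s + a) = F θ) →
        ∫ θ, F θ ∂μ = ∫ ξ, F (thX ξ) ∂(β.prod (Measure.pi fun _ : Fin p => κ))
  osc : Integrable (fun ξ => osc (thX ξ)) (β.prod (Measure.pi fun _ : Fin p => κ))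

/-- The local inequality as a hypothesis on the law of the interaction. -/
def LocalIneq (p : ℕ) (μ : Measure (Inter p)) : Prop :=
  ∀ (L : Type) [Fintype L] (r N : ℕ), 0 < N →
    ∀ (X : (Fin (r + 1) → unitInterval) → ℝ), Measurable X →
    ∀ (Z : Paths L r → (Fin N → Bool) → ℝ), (∀ σ, Measurable fun u => Z u σ) →
    ∀ (c C : ℝ), 0 < c → (∀ u σ, c ≤ Z u σ ∧ Z u σ ≤ C) →
    ∀ (l : List (ℝ × Fin (r + 1))), Adm l →
    ∫ θ, fav (fun idx : Fin p → Fin N => Dloc l X Z idx θ) ∂μ ≤ 0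

/-- UO9: the local inequality. -/
theorem local_ineq_nn (hp2 : 2 ≤ p) (μ : Measure (Inter p)) {β : Measure ℝ}
    {κ : Measure (Bool → ℝ)} (hfac : FacNN p μ β κ) : LocalIneq p μ := by
  intro L _ r N hN X hX Z hZm c C hc hZ l hl
  have hp1 : 1 ≤ p := le_trans (by norm_num) hp2
  have hβp := hfac.pβ
  have hκp := hfac.pκ
  have hκ := hfac.nn
  have hβ := hfac.mom
  have hdom := hfac.dom
  have htr := hfac.tr
  have hosc := hfac.osc
  set F : Inter p → ℝ := fun θ => fav (fun idx : Fin p → Fin N => Dloc l X Z idx θ) with hF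
  have hFm : Measurable F := by
    have h1 : Measurable fun θ : Inter p => ∑ idx : Fin p → Fin N, Dloc l X Z idx θ :=
      Finset.measurable_sum _ fun idx _ => Dloc_meas X hX Z hZm l idx
    exact measurable_const.mul h1
  have hFs : ∀ θ a, F (fun s => θ s + a) = F θ := by
    intro θ a
    simp only [hF]
    congr 1
    funext idx
    exact Dloc_shift X hX Z hZm hc hZ l hl idx θ a
  have hFb : ∀ θ, |F θ| ≤ 2 * p * Crest.Agent.R141.U.osc θ := by
    intro θ
    have h0 : 0 ≤ Crest.Agent.R141.U.osc θ := by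
      unfold Crest.Agent.R141.U.osc
      exact (abs_nonneg _).trans (abs_le_supNorm _ (fun _ => true))
    exact fav_abs_le _ _ (by positivity) fun idx => Dloc_abs_le X hX Z hZm hc hZ l hl hp1 idx θ
  have hFl : ∀ θ θ' : Inter p, ∀ δ : ℝ, 0 ≤ δ → (∀ s, |θ s - θ' s| ≤ δ) →
      |F θ - F θ'| ≤ 2 * p * δ := by
    intro θ θ' δ hδ h
    have h1 : F θ - F θ' = fav (fun idx : Fin p → Fin N =>
        Dloc l X Z idx θ - Dloc l X Z idx θ') := by
      simp only [hF, fav, Finset.sum_sub_distrib, mul_sub]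
    rw [h1]
    exact fav_abs_le _ _ (by positivity) fun idx =>
      Dloc_lip X hX Z hZm hc hZ l hl hp1 idx θ θ' δ h
  rw [htr F hFm hFs]
  -- the damping parameters
  set P := β.prod (Measure.pi fun _ : Fin p => κ) with hP
  have hρ : ∀ n : ℕ, 0 ≤ 1 - 1 / ((n : ℝ) + 1) ∧ 1 - 1 / ((n : ℝ) + 1) < 1 := by
    intro n
    have h1 : (0 : ℝ) < (n : ℝ) + 1 := by positivity
    have h2 : 1 / ((n : ℝ) + 1) ≤ 1 := by
      rw [div_le_one h1]; linarith [(Nat.cast_nonneg n : (0 : ℝ) ≤ n)]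
    have h3 : 0 < 1 / ((n : ℝ) + 1) := by positivity
    constructor <;> linarith
  have hGm : Measurable fun ξ : Xi p => F (thX ξ) := hFm.comp measurable_thX
  have hscale : ∀ a : ℝ, Measurable fun ξ : Xi p => ((a * ξ.1, ξ.2) : Xi p) := fun a =>
    (measurable_const.mul measurable_fst).prodMk measurable_snd
  have hneg : ∀ n : ℕ, ∫ ξ, F (thX ((1 - 1 / ((n : ℝ) + 1)) * ξ.1, ξ.2)) ∂P ≤ 0 := by
    intro n
    set ρ : ℝ := 1 - 1 / ((n : ℝ) + 1) with hρn
    have hρ0 : 0 ≤ ρ := (hρ n).1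
    have hρ1 : ρ < 1 := (hρ n).2
    have hmm : Measurable fun b : ℝ => ρ * b := measurable_const.mul measurable_id
    have : IsProbabilityMeasure (β.map fun b => ρ * b) :=
      Measure.isProbabilityMeasure_map hmm.aemeasurable
    have hprod : (β.map fun b => ρ * b).prod (Measure.pi fun _ : Fin p => κ)
        = P.map (fun ξ : Xi p => ((ρ * ξ.1, ξ.2) : Xi p)) := by
      have h1 := Measure.map_prod_map β (Measure.pi fun _ : Fin p => κ) hmm
        (measurable_id : Measurable (id : (Fin p → Bool → ℝ) → _))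
      rw [Measure.map_id] at h1
      rw [h1]
      rfl
    have hdom' : ∀ᵐ ξ ∂((β.map fun b => ρ * b).prod (Measure.pi fun _ : Fin p => κ)),
        ξ ∈ Dom p ρ := by
      rw [hprod]
      refine (ae_map_iff (p := fun ξ : Xi p => ξ ∈ Dom p ρ) (hscale ρ).aemeasurable
        (measurableSet_Dom p ρ)).2 ?_
      filter_upwards [hdom] with ξ hξ
      intro s
      have h1 := (hξ s).le
      show |ρ * ξ.1 * ∏ ℓ, ξ.2 ℓ (s ℓ)| ≤ ρ
      rw [mul_assoc, abs_mul, abs_of_nonneg hρ0]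
      calc ρ * |ξ.1 * ∏ ℓ, ξ.2 ℓ (s ℓ)| ≤ ρ * 1 := mul_le_mul_of_nonneg_left h1 hρ0
        _ = ρ := mul_one ρ
    have hβ' : ∀ k : ℕ, 1 ≤ k → 0 ≤ ∫ b, (-b) ^ k ∂(β.map fun b => ρ * b) := by
      intro k hk
      rw [integral_map hmm.aemeasurable]
      · have : (fun b : ℝ => (-(ρ * b)) ^ k) = fun b => ρ ^ k * (-b) ^ k := by
          funext b
          rw [← mul_pow]
          congr 1
          ring
        rw [this, integral_const_mul]
        exact mul_nonneg (pow_nonneg hρ0 k) (hβ k hk)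
      · exact (measurable_neg.pow_const k).aestronglyMeasurable
    have h := local_damped_nn hp2 hN X hX Z hZm hc hZ l hl hρ0 hρ1
      (β.map fun b => ρ * b) κ hκ hdom' hβ'
    rw [hprod, integral_map (hscale ρ).aemeasurable hGm.aestronglyMeasurable] at h
    exact h
  -- the limit
  have hlim : Filter.Tendsto (fun n : ℕ =>
      ∫ ξ, F (thX ((1 - 1 / ((n : ℝ) + 1)) * ξ.1, ξ.2)) ∂P) Filter.atTop
      (nhds (∫ ξ, F (thX ξ) ∂P)) := by
    refine tendsto_integral_of_dominated_convergence (fun ξ => 2 * p * osc (thX ξ)) ?_ ?_ ?_ ?_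
    · intro n
      exact (hGm.comp (hscale _)).aestronglyMeasurable
    · exact hosc.const_mul _
    · intro n
      filter_upwards [hdom] with ξ hξ
      rw [Real.norm_eq_abs]
      refine (hFb _).trans ?_
      exact mul_le_mul_of_nonneg_left (osc_damp ξ hξ _ (hρ n).1 (hρ n).2.le) (by positivity)
    · filter_upwards [hdom] with ξ hξ
      have hρlim : Filter.Tendsto (fun n : ℕ => 1 - 1 / ((n : ℝ) + 1)) Filter.atTop
          (nhds 1) := by
        have := tendsto_one_div_add_atTop_nhds_zero_nat (𝕜 := ℝ)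
        simpa using this.const_sub 1
      have hpt : ∀ s : Fin p → Bool, Filter.Tendsto (fun n : ℕ =>
          thX ((1 - 1 / ((n : ℝ) + 1)) * ξ.1, ξ.2) s) Filter.atTop (nhds (thX ξ s)) := by
        intro s
        have hy := hξ s
        have hpos : 0 < 1 + ξ.1 * ∏ ℓ, ξ.2 ℓ (s ℓ) := by
          have := (abs_lt.1 hy).1; linarith
        have h1 : Filter.Tendsto (fun n : ℕ => 1 + (1 - 1 / ((n : ℝ) + 1)) * ξ.1 *
            ∏ ℓ, ξ.2 ℓ (s ℓ)) Filter.atTop (nhds (1 + ξ.1 * ∏ ℓ, ξ.2 ℓ (s ℓ))) := by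
          have := ((hρlim.mul_const ξ.1).mul_const (∏ ℓ, ξ.2 ℓ (s ℓ))).const_add 1
          simpa using this
        exact (Real.continuousAt_log hpos.ne').tendsto.comp h1
      have hδ : Filter.Tendsto (fun n : ℕ => ∑ s : Fin p → Bool,
          |thX ((1 - 1 / ((n : ℝ) + 1)) * ξ.1, ξ.2) s - thX ξ s|) Filter.atTop (nhds 0) := by
        have h0 : (0 : ℝ) = ∑ _s : Fin p → Bool, (0 : ℝ) := by simp
        rw [h0]
        refine tendsto_finsetSum _ fun s _ => ?_
        have h2 := ((hpt s).sub_const (thX ξ s)).abs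
        simpa using h2
      rw [tendsto_iff_norm_sub_tendsto_zero]
      have h3 := hδ.const_mul (2 * (p : ℝ))
      rw [mul_zero] at h3
      refine squeeze_zero (fun n => norm_nonneg _) (fun n => ?_) h3
      rw [Real.norm_eq_abs]
      refine hFl _ _ _ (Finset.sum_nonneg fun _ _ => abs_nonneg _) fun s => ?_
      exact Finset.single_le_sum (f := fun s : Fin p → Bool =>
        |thX ((1 - 1 / ((n : ℝ) + 1)) * ξ.1, ξ.2) s - thX ξ s|)
        (fun _ _ => abs_nonneg _) (Finset.mem_univ s)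
  exact le_of_tendsto' hlim hneg

end

end Crest.Agent.R153.V
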