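/-
Row 153 (S0218), part D1: the upper bound from the local inequality.
-/
import Crest.Agent.R153.VT2

set_option autoImplicit false

namespace Crest.Agent.R153.V

open MeasureTheory Crest.ProbabilityR.Diluted Crest.Agent.R141.U

noncomputable section

variable {r N p : ℕ}

/-- UH12: the local inequality in terms of `Gf`. -/
theorem Gf_exchange_L (hp2 : 2 ≤ p) (hN : 0 < N) {n k : ℕ}
    (l : List (ℝ × Fin (r + 1))) (hl : Adm l)
    (X : (Fin (r + 1) → unitInterval) → ℝ) (hX : Measurable X)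
    (μ : Measure (Inter p)) [IsProbabilityMeasure μ]
    (hμ : Integrable (fun θ => supNorm θ) μ) (hloc : LocalIneq p μ)
    (θ : Fin n → Inter p) (idx : Fin n → Fin p → Fin N) (θ' : Fin k → Inter p)
    (j : Fin k → Fin N) (h : Fin N → ℝ) :
    (∫ θ0, fav (fun idx0 : Fin p → Fin N =>
        Gf l X (Fin.cons θ0 θ : Fin (n + 1) → Inter p)
          (Fin.cons idx0 idx : Fin (n + 1) → Fin p → Fin N) θ' j h) ∂μ)
      - p * (∫ θ0, fav (fun j0 : Fin N =>
        Gf l X θ idx (Fin.cons θ0 θ' : Fin (k + 1) → Inter p)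
          (Fin.cons j0 j : Fin (k + 1) → Fin N) h) ∂μ)
      + ((p : ℝ) - 1) * (Gf l X θ idx θ' j h + ∫ θ0, Eedge l X θ0 ∂μ) ≤ 0 := by
  have hp1 : 1 ≤ p := le_trans (by norm_num) hp2
  have hZm : ∀ σ, Measurable fun u => Zf X θ idx θ' j h u σ := fun σ =>
    (Zf_meas X hX idx j σ).comp (measurable_prodMk_left (x := ((θ, θ', h) :
      (Fin n → Inter p) × (Fin k → Inter p) × (Fin N → ℝ))))
  have hLI := hloc _ r N hN X hX (Zf X θ idx θ' j h) hZm _ _
    (Real.exp_pos (-((∑ a, supNorm (θ a)) + (∑ c, supNorm (θ' c)) + ∑ i, |h i|)))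
    (fun u σ => Zf_btw X θ idx θ' j h u σ) l hl
  -- integrability of the three parts
  set K : ℝ := N * Real.log 2 + ((∑ a, supNorm (θ a)) + (∑ c, supNorm (θ' c)) + ∑ i, |h i|)
    with hK
  have hIA : ∀ idx0 : Fin p → Fin N, Integrable (fun θ0 : Inter p =>
      Gf l X (Fin.cons θ0 θ : Fin (n + 1) → Inter p)
          (Fin.cons idx0 idx : Fin (n + 1) → Fin p → Fin N) θ' j h) μ := by
    intro idx0
    refine ((integrable_const K).add hμ).mono' (Gf_meas_A l X hX θ _ θ' j h).aestronglyMeasurable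
      (Filter.Eventually.of_forall fun θ0 => ?_)
    rw [Real.norm_eq_abs]
    exact Gf_bd_A l hl X hX θ0 θ _ θ' j h
  have hIB : ∀ j0 : Fin N, Integrable (fun θ0 : Inter p =>
      Gf l X θ idx (Fin.cons θ0 θ' : Fin (k + 1) → Inter p)
          (Fin.cons j0 j : Fin (k + 1) → Fin N) h) μ := by
    intro j0
    refine ((integrable_const K).add hμ).mono' (Gf_meas_B l X hX θ idx θ' _ h).aestronglyMeasurable
      (Filter.Eventually.of_forall fun θ0 => ?_)
    rw [Real.norm_eq_abs]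
    exact Gf_bd_B l hl X hX θ0 θ idx θ' _ h
  have hIC : Integrable (fun θ0 : Inter p => Eedge l X θ0) μ := by
    refine hμ.mono' (Eedge_meas l X hX).aestronglyMeasurable
      (Filter.Eventually.of_forall fun θ0 => ?_)
    rw [Real.norm_eq_abs]
    exact Eedge_abs_le l hl X hX θ0
  -- rewrite `Dloc`
  have hD : ∀ (θ0 : Inter p) (idx0 : Fin p → Fin N), Dloc l X (Zf X θ idx θ' j h) idx0 θ0
      = Gf l X (Fin.cons θ0 θ : Fin (n + 1) → Inter p)
          (Fin.cons idx0 idx : Fin (n + 1) → Fin p → Fin N) θ' j h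
        - p * Gf l X θ idx (Fin.cons θ0 θ' : Fin (k + 1) → Inter p)
          (Fin.cons (idx0 ⟨p - 1, Nat.sub_lt hp1 Nat.one_pos⟩) j : Fin (k + 1) → Fin N) h
        + ((p : ℝ) - 1) * (Gf l X θ idx θ' j h + Eedge l X θ0) := by
    intro θ0 idx0
    have hi := fun S => logT_int X hX (Zf X θ idx θ' j h) hZm
      (Real.exp_pos (-((∑ a, supNorm (θ a)) + (∑ c, supNorm (θ' c)) + ∑ i, |h i|)))
      (fun u σ => Zf_btw X θ idx θ' j h u σ) l hl idx0 θ0 S
    unfold Dloc
    rw [int_comb (hi (SA p)) (hi (SB p)) (hi (SC p)),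
      ident_A l X hX, ident_B hp1 l X hX, ident_C l hl X hX]
  have hfav : ∀ θ0 : Inter p, fav (fun idx0 : Fin p → Fin N =>
      Dloc l X (Zf X θ idx θ' j h) idx0 θ0)
      = fav (fun idx0 : Fin p → Fin N => Gf l X (Fin.cons θ0 θ : Fin (n + 1) → Inter p)
          (Fin.cons idx0 idx : Fin (n + 1) → Fin p → Fin N) θ' j h)
        - p * fav (fun j0 : Fin N => Gf l X θ idx (Fin.cons θ0 θ' : Fin (k + 1) → Inter p)
          (Fin.cons j0 j : Fin (k + 1) → Fin N) h)
        + ((p : ℝ) - 1) * (Gf l X θ idx θ' j h + Eedge l X θ0) := by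
    intro θ0
    have : Nonempty (Fin N) := ⟨⟨0, hN⟩⟩
    have : Nonempty (Fin p → Fin N) := inferInstance
    have h1 : (fun idx0 : Fin p → Fin N => Dloc l X (Zf X θ idx θ' j h) idx0 θ0)
        = fun idx0 => (Gf l X (Fin.cons θ0 θ : Fin (n + 1) → Inter p)
          (Fin.cons idx0 idx : Fin (n + 1) → Fin p → Fin N) θ' j h
        + (-(p : ℝ)) * Gf l X θ idx (Fin.cons θ0 θ' : Fin (k + 1) → Inter p)
          (Fin.cons (idx0 ⟨p - 1, Nat.sub_lt hp1 Nat.one_pos⟩) j : Fin (k + 1) → Fin N) h)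
        + ((p : ℝ) - 1) * (Gf l X θ idx θ' j h + Eedge l X θ0) := by
      funext idx0
      rw [hD]; ring
    rw [h1, fav_add, fav_add, fav_mul_left, fav_const,
      fav_eval hN ⟨p - 1, Nat.sub_lt hp1 Nat.one_pos⟩ (fun j0 : Fin N =>
        Gf l X θ idx (Fin.cons θ0 θ' : Fin (k + 1) → Inter p)
          (Fin.cons j0 j : Fin (k + 1) → Fin N) h)]
    ring
  have hIAf : Integrable (fun θ0 : Inter p => fav (fun idx0 : Fin p → Fin N =>
      Gf l X (Fin.cons θ0 θ : Fin (n + 1) → Inter p)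
          (Fin.cons idx0 idx : Fin (n + 1) → Fin p → Fin N) θ' j h)) μ := by
    unfold fav
    exact (integrable_finsetSum _ fun idx0 _ => hIA idx0).const_mul _
  have hIBf : Integrable (fun θ0 : Inter p => fav (fun j0 : Fin N =>
      Gf l X θ idx (Fin.cons θ0 θ' : Fin (k + 1) → Inter p)
          (Fin.cons j0 j : Fin (k + 1) → Fin N) h)) μ := by
    unfold fav
    exact (integrable_finsetSum _ fun j0 _ => hIB j0).const_mul _
  simp only [hfav] at hLI
  have hICc : Integrable (fun θ0 : Inter p => Gf l X θ idx θ' j h + Eedge l X θ0) μ :=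
    (integrable_const _).add hIC
  rw [int_comb hIAf hIBf hICc, integral_add (integrable_const _) hIC, integral_const] at hLI
  simpa using hLI

/-- UH15: clause exchange. -/
theorem Hf_exchange_L (hp2 : 2 ≤ p) (l : List (ℝ × Fin (r + 1))) (hl : Adm l)
    (X : (Fin (r + 1) → unitInterval) → ℝ) (hX : Measurable X)
    (μ : Measure (Inter p)) [IsProbabilityMeasure μ] (ν : Measure ℝ)
    [IsProbabilityMeasure ν] (hμ : Integrable (fun θ => supNorm θ) μ)
    (hν : Integrable (fun x : ℝ => x) ν) (hloc : LocalIneq p μ) (N : ℕ) (hN : 0 < N)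
    (n k : ℕ) :
    Hf l X μ ν N (n + 1) k + ((p : ℝ) - 1) * (Hf l X μ ν N n k + ∫ θ0, Eedge l X θ0 ∂μ)
      ≤ p * Hf l X μ ν N n (k + 1) := by
  obtain ⟨hIL, hL⟩ := Hf_succ_left_int l hl X hX μ ν hμ hν N n k
  obtain ⟨hIR, hR⟩ := Hf_succ_right_int l hl X hX μ ν hμ hν N n k
  have hI0 := Hf_int l hl X hX μ ν hμ hν N n k
  set E : ℝ := ∫ θ0, Eedge l X θ0 ∂μ with hE
  have hI0E : Integrable (fun e : Dis N p n k => fav (fun idx : Fin n → Fin p → Fin N =>
      fav (fun j : Fin k → Fin N => Gf l X e.1 idx e.2.1 j e.2.2)) + E) (DisP μ ν N n k) :=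
    hI0.add (integrable_const E)
  have hval := int_comb hIL hIR hI0E (p : ℝ) ((p : ℝ) - 1)
  have hle : ∫ e, (fav (fun idx : Fin n → Fin p → Fin N => fav (fun j : Fin k → Fin N =>
      ∫ θ0, fav (fun idx0 : Fin p → Fin N => Gf l X (Fin.cons θ0 e.1 : Fin (n + 1) → Inter p)
          (Fin.cons idx0 idx : Fin (n + 1) → Fin p → Fin N) e.2.1 j e.2.2) ∂μ))
      - (p : ℝ) * fav (fun idx : Fin n → Fin p → Fin N => fav (fun j : Fin k → Fin N =>
      ∫ θ0, fav (fun j0 : Fin N => Gf l X e.1 idx (Fin.cons θ0 e.2.1 : Fin (k + 1) → Inter p)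
          (Fin.cons j0 j : Fin (k + 1) → Fin N) e.2.2) ∂μ))
      + ((p : ℝ) - 1) * (fav (fun idx : Fin n → Fin p → Fin N =>
      fav (fun j : Fin k → Fin N => Gf l X e.1 idx e.2.1 j e.2.2)) + E)) ∂(DisP μ ν N n k) ≤ 0 := by
    refine integral_nonpos fun e => ?_
    have : Nonempty (Fin N) := ⟨⟨0, hN⟩⟩
    have hpt : ∀ (idx : Fin n → Fin p → Fin N) (j : Fin k → Fin N),
        (∫ θ0, fav (fun idx0 : Fin p → Fin N => Gf l X (Fin.cons θ0 e.1 : Fin (n + 1) → Inter p)
          (Fin.cons idx0 idx : Fin (n + 1) → Fin p → Fin N) e.2.1 j e.2.2) ∂μ)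
        + ((-(p : ℝ)) * (∫ θ0, fav (fun j0 : Fin N =>
          Gf l X e.1 idx (Fin.cons θ0 e.2.1 : Fin (k + 1) → Inter p)
          (Fin.cons j0 j : Fin (k + 1) → Fin N) e.2.2) ∂μ)
        + ((p : ℝ) - 1) * (Gf l X e.1 idx e.2.1 j e.2.2 + E)) ≤ 0 := by
      intro idx j
      have h := Gf_exchange_L hp2 hN l hl X hX μ hμ hloc e.1 idx e.2.1 j e.2.2
      have h' : (∫ θ0, fav (fun idx0 : Fin p → Fin N => Gf l X (Fin.cons θ0 e.1 : Fin (n + 1) → Inter p)
          (Fin.cons idx0 idx : Fin (n + 1) → Fin p → Fin N) e.2.1 j e.2.2) ∂μ)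
        + ((-(p : ℝ)) * (∫ θ0, fav (fun j0 : Fin N =>
          Gf l X e.1 idx (Fin.cons θ0 e.2.1 : Fin (k + 1) → Inter p)
          (Fin.cons j0 j : Fin (k + 1) → Fin N) e.2.2) ∂μ)
        + ((p : ℝ) - 1) * (Gf l X e.1 idx e.2.1 j e.2.2 + E))
        = (∫ θ0, fav (fun idx0 : Fin p → Fin N =>
        Gf l X (Fin.cons θ0 e.1 : Fin (n + 1) → Inter p)
          (Fin.cons idx0 idx : Fin (n + 1) → Fin p → Fin N) e.2.1 j e.2.2) ∂μ)
      - p * (∫ θ0, fav (fun j0 : Fin N =>
        Gf l X e.1 idx (Fin.cons θ0 e.2.1 : Fin (k + 1) → Inter p)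
          (Fin.cons j0 j : Fin (k + 1) → Fin N) e.2.2) ∂μ)
      + ((p : ℝ) - 1) * (Gf l X e.1 idx e.2.1 j e.2.2 + E) := by ring
      rw [h']
      exact h
    have hsum : fav (fun idx : Fin n → Fin p → Fin N => fav (fun j : Fin k → Fin N =>
        (∫ θ0, fav (fun idx0 : Fin p → Fin N => Gf l X (Fin.cons θ0 e.1 : Fin (n + 1) → Inter p)
          (Fin.cons idx0 idx : Fin (n + 1) → Fin p → Fin N) e.2.1 j e.2.2) ∂μ)
        + ((-(p : ℝ)) * (∫ θ0, fav (fun j0 : Fin N =>
          Gf l X e.1 idx (Fin.cons θ0 e.2.1 : Fin (k + 1) → Inter p)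
          (Fin.cons j0 j : Fin (k + 1) → Fin N) e.2.2) ∂μ)
        + ((p : ℝ) - 1) * (Gf l X e.1 idx e.2.1 j e.2.2 + E)))) ≤ 0 := by
      have h1 : ∀ idx : Fin n → Fin p → Fin N, fav (fun j : Fin k → Fin N =>
        (∫ θ0, fav (fun idx0 : Fin p → Fin N => Gf l X (Fin.cons θ0 e.1 : Fin (n + 1) → Inter p)
          (Fin.cons idx0 idx : Fin (n + 1) → Fin p → Fin N) e.2.1 j e.2.2) ∂μ)
        + ((-(p : ℝ)) * (∫ θ0, fav (fun j0 : Fin N =>
          Gf l X e.1 idx (Fin.cons θ0 e.2.1 : Fin (k + 1) → Inter p)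
          (Fin.cons j0 j : Fin (k + 1) → Fin N) e.2.2) ∂μ)
        + ((p : ℝ) - 1) * (Gf l X e.1 idx e.2.1 j e.2.2 + E))) ≤ 0 := fun idx =>
        (fav_mono _ (fun _ => (0 : ℝ)) fun j => hpt idx j).trans (fav_const (0 : ℝ)).le
      exact (fav_mono _ (fun _ => (0 : ℝ)) h1).trans (fav_const (0 : ℝ)).le
    simp only [fav_add, fav_mul_left, fav_const] at hsum
    show (fav (fun idx : Fin n → Fin p → Fin N => fav (fun j : Fin k → Fin N =>
      ∫ θ0, fav (fun idx0 : Fin p → Fin N => Gf l X (Fin.cons θ0 e.1 : Fin (n + 1) → Inter p)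
          (Fin.cons idx0 idx : Fin (n + 1) → Fin p → Fin N) e.2.1 j e.2.2) ∂μ))
      - (p : ℝ) * fav (fun idx : Fin n → Fin p → Fin N => fav (fun j : Fin k → Fin N =>
      ∫ θ0, fav (fun j0 : Fin N => Gf l X e.1 idx (Fin.cons θ0 e.2.1 : Fin (k + 1) → Inter p)
          (Fin.cons j0 j : Fin (k + 1) → Fin N) e.2.2) ∂μ))
      + ((p : ℝ) - 1) * (fav (fun idx : Fin n → Fin p → Fin N =>
      fav (fun j : Fin k → Fin N => Gf l X e.1 idx e.2.1 j e.2.2)) + E)) ≤ 0
    linarith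
  rw [hval, ← hL, ← hR, integral_add hI0 (integrable_const E), integral_const] at hle
  have hH : ∫ e : Dis N p n k, fav (fun idx : Fin n → Fin p → Fin N =>
      fav (fun j : Fin k → Fin N => Gf l X e.1 idx e.2.1 j e.2.2)) ∂(DisP μ ν N n k)
      = Hf l X μ ν N n k := rfl
  rw [hH] at hle
  simp only [probReal_univ, one_smul] at hle
  linarith

/-- UE9: THE UPPER BOUND. -/
theorem upper_L (p : ℕ) (hp2 : 2 ≤ p) (α : ℝ) (hα : 0 < α) (μ : Measure (Inter p))
    [IsProbabilityMeasure μ] (ν : Measure ℝ) [IsProbabilityMeasure ν]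
    (hμ : Integrable (fun θ => supNorm θ) μ) (hν : Integrable (fun x : ℝ => x) ν)
    (hloc : LocalIneq p μ) (N : ℕ) (hN : 0 < N) (r : ℕ) (m : Fin r → ℝ)
    (X : (Fin (r + 1) → unitInterval) → ℝ) (hm : AdmissibleExponents m) (hX : Measurable X) :
    pressure p α μ ν N ≤ trialFunctional p α μ ν r m X := by
  have hl : Adm (stepsOf m) := adm_stepsOf m hm
  set l := stepsOf m with hldef
  set E : ℝ := ∫ θ, Eedge l X θ ∂μ with hE
  have hN0 : (0 : ℝ) < N := by exact_mod_cast hN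
  have hp0 : (0 : ℝ) < p := by exact_mod_cast (by omega : 0 < p)
  have hN1 : (1 : ℝ) ≤ N := by exact_mod_cast hN
  have hp1 : (1 : ℝ) ≤ p := by exact_mod_cast (by omega : 1 ≤ p)
  set Mθ : ℝ := ∫ θ, supNorm θ ∂μ with hMθ
  set Mh : ℝ := ∫ x, |x| ∂ν with hMh
  have hMθ0 : 0 ≤ Mθ := ue6_mean_nonneg μ
  have hMh0 : 0 ≤ Mh := integral_nonneg fun _ => abs_nonneg _
  have hlog2 : 0 ≤ Real.log 2 := Real.log_nonneg (by norm_num)
  -- growth
  set C1 : ℝ := N * Real.log 2 + Mθ + N * Mh with hC1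
  have hC10 : 0 ≤ C1 := by positivity
  have hgr : ∀ n k : ℕ, |Hf l X μ ν N n k| ≤ C1 * (1 + ((n + k : ℕ) : ℝ)) := by
    intro n k
    have h := Hf_abs_le l hl X hX μ ν hμ hν N n k
    refine h.trans ?_
    push_cast
    have hn : (0 : ℝ) ≤ n := Nat.cast_nonneg n
    have hk : (0 : ℝ) ≤ k := Nat.cast_nonneg k
    have e1 : 0 ≤ (N : ℝ) * Real.log 2 * (n + k) := by positivity
    have e2 : 0 ≤ (N : ℝ) * Mh * (n + k) := by positivity
    rw [hC1]
    nlinarith
  set C2 : ℝ := Mθ + Mh with hC2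
  have hC20 : 0 ≤ C2 := by positivity
  have hgs : ∀ n : ℕ, |sG (Fin n) l X μ ν| ≤ C2 * (1 + (n : ℝ)) := by
    intro n
    refine (sG_abs_le n l hl X hX μ ν hμ hν).trans ?_
    have hn : (0 : ℝ) ≤ n := Nat.cast_nonneg n
    have e1 : 0 ≤ Mh * n := by positivity
    rw [hC2]
    nlinarith
  -- the pressure
  have hpress : pressure p α μ ν N =
      (1 / (N : ℝ)) * ∑' n : ℕ, poissonWeight (α * N) n * Hf l X μ ν N n 0 := by
    unfold pressure
    congr 1
    refine tsum_congr fun n => ?_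
    rw [Hf_zero_right n l hl X hX μ ν hμ hν hN]
  have hlamnn : 0 ≤ α * N * p := by positivity
  -- thinning on the left
  have h1 := pois_thin (α * N * p) hlamnn (1 / (p : ℝ)) (by positivity)
    ((div_le_one hp0).2 hp1) (fun n => Hf l X μ ν N n 0) C1 (fun n => by simpa using hgr n 0)
  have h1' : 1 / (p : ℝ) * (α * N * p) = α * N := by field_simp
  rw [h1'] at h1
  -- thinning on the right
  have h2 := pois_thin (α * N * p) hlamnn (1 / (N : ℝ)) (by positivity)
    ((div_le_one hN0).2 hN1) (fun n => sG (Fin n) l X μ ν) C2 hgs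
  have h2' : 1 / (N : ℝ) * (α * N * p) = α * p := by field_simp
  rw [h2'] at h2
  -- telescoping
  have htel : ∀ K : ℕ, binAv K (1 / (p : ℝ)) (fun n => Hf l X μ ν N n 0) ≤
      Hf l X μ ν N 0 K - K * (((p : ℝ) - 1) / p) * E := fun K =>
    telescope p (by omega) E (fun n k => Hf l X μ ν N n k)
      (fun n k => Hf_exchange_L hp2 l hl X hX μ ν hμ hν hloc N hN n k) K
  have hpw : ∀ K : ℕ, 0 ≤ poissonWeight (α * N * p) K := by
    intro K
    unfold poissonWeight
    positivity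
  -- summabilities
  have hs1 : Summable fun K => poissonWeight (α * N * p) K *
      binAv K (1 / (p : ℝ)) (fun n => Hf l X μ ν N n 0) :=
    pois_summable _ hlamnn _ C1 fun K => binAv_abs_le K _ (by positivity)
      ((div_le_one hp0).2 hp1) _ C1 hC10 (fun n => by simpa using hgr n 0)
  have hs2 : Summable fun K => poissonWeight (α * N * p) K *
      binAv K (1 / (N : ℝ)) (fun n => sG (Fin n) l X μ ν) :=
    pois_summable _ hlamnn _ C2 fun K => binAv_abs_le K _ (by positivity)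
      ((div_le_one hN0).2 hN1) _ C2 hC20 hgs
  have hs3 : Summable fun K : ℕ => poissonWeight (α * N * p) K * (K : ℝ) :=
    pois_summable _ hlamnn _ 1 fun K => by
      rw [abs_of_nonneg (Nat.cast_nonneg K)]
      linarith
  have hs4 : Summable fun K : ℕ => poissonWeight (α * N * p) K := by
    have := pois_summable (α * N * p) hlamnn (fun _ => 1) 1 fun K => by
      rw [abs_one]
      have : (0 : ℝ) ≤ K := Nat.cast_nonneg K
      linarith
    simpa using this
  have h3 : ∑' K : ℕ, poissonWeight (α * N * p) K *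
        binAv K (1 / (p : ℝ)) (fun n => Hf l X μ ν N n 0) ≤
      ∑' K : ℕ, (poissonWeight (α * N * p) K * (N * Real.log 2) +
        N * (poissonWeight (α * N * p) K *
          binAv K (1 / (N : ℝ)) (fun n => sG (Fin n) l X μ ν)) +
        (- ((((p : ℝ) - 1) / p) * E)) * (poissonWeight (α * N * p) K * (K : ℝ))) := by
    refine hs1.tsum_le_tsum (fun K => ?_)
      (((hs4.mul_right _).add (hs2.mul_left _)).add (hs3.mul_left _))
    have := htel K
    rw [Hf_zero_left hN K l hl X hX μ ν hμ hν] at this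
    calc _ ≤ poissonWeight (α * N * p) K * (N * Real.log 2 +
          N * binAv K (1 / (N : ℝ)) (fun n => sG (Fin n) l X μ ν) -
          K * (((p : ℝ) - 1) / p) * E) := mul_le_mul_of_nonneg_left this (hpw K)
      _ = _ := by ring
  rw [Summable.tsum_add ((hs4.mul_right _).add (hs2.mul_left _)) (hs3.mul_left _),
    Summable.tsum_add (hs4.mul_right _) (hs2.mul_left _), tsum_mul_right, tsum_mul_left,
    tsum_mul_left, pois_mass, pois_mean _ hlamnn, h1, h2] at h3
  rw [hpress, Crest.Agent.R141.U.trial_eq, ← hldef, ← hE]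
  calc _ ≤ (1 / (N : ℝ)) * (1 * (N * Real.log 2) +
        N * ∑' n : ℕ, poissonWeight (α * p) n * sG (Fin n) l X μ ν +
        - ((((p : ℝ) - 1) / p) * E) * (α * N * p)) :=
        mul_le_mul_of_nonneg_left h3 (by positivity)
    _ = _ := by
        field_simp
        ring

end

end Crest.Agent.R153.V
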