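/-
Row 153 (S0218), part D1: the soft k-SAT interaction law and the upper bound of its pressure.
-/
import Crest.Agent.R153.VT3

set_option autoImplicit false

namespace Crest.Agent.R153

open MeasureTheory Crest.ProbabilityR.Diluted Crest.Agent.R141.U Crest.Agent.R153.V

noncomputable section

/-- uniform law on a finite type. -/
def unif (A : Type) [Fintype A] [MeasurableSpace A] : Measure A :=
  (Fintype.card A : ENNReal)⁻¹ • Measure.count

section
variable {A : Type} [Fintype A] [MeasurableSpace A] [MeasurableSingletonClass A]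

theorem unif_singleton (a : A) : unif A {a} = (Fintype.card A : ENNReal)⁻¹ := by
  simp [unif, Measure.smul_apply]

instance unif_prob [Nonempty A] : IsProbabilityMeasure (unif A) := by
  constructor
  have h1 : (Fintype.card A : ENNReal) ≠ 0 := by
    simp [Fintype.card_ne_zero]
  have h2 : (Fintype.card A : ENNReal) ≠ ⊤ := ENNReal.natCast_ne_top _
  have h3 : Measure.count (Set.univ : Set A) = Fintype.card A := by
    rw [Measure.count_apply_finite _ Set.finite_univ]
    simp
  rw [unif, Measure.smul_apply, smul_eq_mul, h3, ENNReal.inv_mul_cancel h1 h2]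

theorem integral_unif (F : A → ℝ) : ∫ a, F a ∂(unif A) = (Fintype.card A : ℝ)⁻¹ * ∑ a, F a := by
  unfold unif
  rw [integral_smul_measure, integral_count]
  simp

theorem pi_unif {ι : Type} [Fintype ι] [DecidableEq ι] [Nonempty A] :
    (Measure.pi fun _ : ι => unif A) = unif (ι → A) := by
  refine Measure.ext_of_singleton fun a => ?_
  rw [Measure.pi_singleton, unif_singleton]
  simp only [unif_singleton, Finset.prod_const, Finset.card_univ]
  rw [Fintype.card_fun, Nat.cast_pow, ENNReal.inv_pow]

end

/-- The soft clause with violating pattern `J`: `log ρ` if violated, `0` otherwise. -/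
def satInter (k : ℕ) (ρ : ℝ) (J : Fin k → Bool) : Inter k := fun s => if s = J then Real.log ρ else 0

/-- The law of a soft clause: uniform violating pattern. -/
def satLaw (k : ℕ) (ρ : ℝ) : Measure (Inter k) := (unif (Fin k → Bool)).map (satInter k ρ)

theorem measurable_satInter (k : ℕ) (ρ : ℝ) : Measurable (satInter k ρ) := Measurable.of_discrete

instance satLaw_prob (k : ℕ) (ρ : ℝ) : IsProbabilityMeasure (satLaw k ρ) :=
  Measure.isProbabilityMeasure_map (measurable_satInter k ρ).aemeasurable

theorem integral_satLaw (k : ℕ) (ρ : ℝ) (F : Inter k → ℝ) (hF : Measurable F) :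
    ∫ θ, F θ ∂(satLaw k ρ) = (2 ^ k : ℝ)⁻¹ * ∑ J : Fin k → Bool, F (satInter k ρ J) := by
  unfold satLaw
  rw [integral_map (measurable_satInter k ρ).aemeasurable hF.aestronglyMeasurable, integral_unif]
  simp

/-- Product laws of soft clauses. -/
theorem integral_pi_satLaw {ι : Type} [Fintype ι] [DecidableEq ι] (k : ℕ) (ρ : ℝ)
    (F : (ι → Inter k) → ℝ) (hF : Measurable F) :
    ∫ θs, F θs ∂(Measure.pi fun _ : ι => satLaw k ρ) =
      (Fintype.card (ι → Fin k → Bool) : ℝ)⁻¹ *
        ∑ J : ι → Fin k → Bool, F (fun i => satInter k ρ (J i)) := by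
  unfold satLaw
  rw [← Measure.pi_map_pi (fun _ => (measurable_satInter k ρ).aemeasurable), pi_unif,
    integral_map, integral_unif]
  · exact (Measurable.of_discrete).aemeasurable
  · exact hF.aestronglyMeasurable

theorem satInter_supNorm_le (k : ℕ) {ρ : ℝ} (J : Fin k → Bool) :
    supNorm (satInter k ρ J) ≤ |Real.log ρ| := by
  refine supNorm_le _ fun s => ?_
  unfold satInter
  split_ifs
  · exact le_rfl
  · simp

theorem satLaw_integrable (k : ℕ) (ρ : ℝ) : Integrable (fun θ => supNorm θ) (satLaw k ρ) := by
  unfold satLaw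
  rw [integrable_map_measure measurable_supNorm.aestronglyMeasurable
    (measurable_satInter k ρ).aemeasurable]
  exact Integrable.of_finite

/-- indicator factor. -/
def indF (J : Bool) : Bool → ℝ := fun s => if s = J then 1 else 0

theorem prod_indF {k : ℕ} (J s : Fin k → Bool) :
    ∏ ℓ, indF (J ℓ) (s ℓ) = if s = J then 1 else 0 := by
  unfold indF
  split_ifs with h
  · subst h
    simp
  · obtain ⟨ℓ, hℓ⟩ := Function.ne_iff.1 h
    exact Finset.prod_eq_zero (Finset.mem_univ ℓ) (if_neg hℓ)

/-- the factorization data of the soft clause. -/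
def satXi (k : ℕ) (ρ : ℝ) (J : Fin k → Bool) : Xi k := (-(1 - ρ), fun ℓ => indF (J ℓ))

theorem satXi_prod (k : ℕ) (ρ : ℝ) :
    (Measure.dirac (-(1 - ρ))).prod (Measure.pi fun _ : Fin k => (unif Bool).map indF) =
      (unif (Fin k → Bool)).map (satXi k ρ) := by
  have hm : Measurable indF := Measurable.of_discrete
  have : IsProbabilityMeasure ((unif Bool).map indF) :=
    Measure.isProbabilityMeasure_map hm.aemeasurable
  rw [Measure.dirac_prod, ← Measure.pi_map_pi (fun _ => hm.aemeasurable), pi_unif,
    Measure.map_map measurable_prodMk_left Measurable.of_discrete]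
  rfl

theorem thX_satXi (k : ℕ) {ρ : ℝ} (J : Fin k → Bool) : thX (satXi k ρ J) = satInter k ρ J := by
  funext s
  simp only [thX, satXi, prod_indF, satInter]
  split_ifs with h
  · congr 1
    ring
  · simp

theorem satLaw_fac (k : ℕ) {ρ : ℝ} (hρ0 : 0 < ρ) (hρ1 : ρ < 1) :
    FacNN k (satLaw k ρ) (Measure.dirac (-(1 - ρ))) ((unif Bool).map indF) := by
  have hm : Measurable indF := Measurable.of_discrete
  have hX : Measurable (satXi k ρ) := Measurable.of_discrete
  refine ⟨inferInstance, Measure.isProbabilityMeasure_map hm.aemeasurable, ?_, ?_, ?_, ?_, ?_⟩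
  · refine (ae_map_iff hm.aemeasurable ?_).2 (Filter.Eventually.of_forall fun J s => ?_)
    · have : {f : Bool → ℝ | ∀ s, 0 ≤ f s} = ⋂ s, {f : Bool → ℝ | 0 ≤ f s} := by
        ext f; simp
      rw [this]
      exact MeasurableSet.iInter fun s =>
        measurableSet_le measurable_const (measurable_pi_apply s)
    · unfold indF
      split_ifs <;> norm_num
  · intro n _
    rw [integral_dirac]
    simp only [neg_neg]
    exact pow_nonneg (by linarith) n
  · rw [satXi_prod]
    refine (ae_map_iff hX.aemeasurable ?_).2 (Filter.Eventually.of_forall fun J s => ?_)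
    · have : {ξ : Xi k | ∀ s : Fin k → Bool, |ξ.1 * ∏ ℓ, ξ.2 ℓ (s ℓ)| < 1}
          = ⋂ s : Fin k → Bool, {ξ : Xi k | |ξ.1 * ∏ ℓ, ξ.2 ℓ (s ℓ)| < 1} := by
        ext ξ; simp
      rw [this]
      refine MeasurableSet.iInter fun s => ?_
      refine measurableSet_lt ?_ measurable_const
      refine (measurable_fst.mul ?_).abs
      exact Finset.measurable_prod _ fun ℓ _ =>
        (measurable_pi_apply (s ℓ)).comp ((measurable_pi_apply ℓ).comp measurable_snd)
    · simp only [satXi, prod_indF]
      split_ifs
      · rw [mul_one, abs_neg, abs_of_pos (by linarith)]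
        linarith
      · simp
  · intro F hF _
    have h1 : Measurable fun ξ : Xi k => F (thX ξ) := hF.comp measurable_thX
    rw [satXi_prod, integral_map hX.aemeasurable h1.aestronglyMeasurable]
    unfold satLaw
    rw [integral_map (measurable_satInter k ρ).aemeasurable hF.aestronglyMeasurable]
    simp only [thX_satXi]
  · rw [satXi_prod]
    have hoscm : Measurable (osc (p := k)) := by
      unfold osc
      refine measurable_supNorm.comp ?_
      exact measurable_pi_lambda _ fun s =>
        (measurable_pi_apply s).sub (measurable_pi_apply _)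
    have h1 : Measurable fun ξ : Xi k => osc (thX ξ) := hoscm.comp measurable_thX
    rw [integrable_map_measure h1.aestronglyMeasurable hX.aemeasurable]
    exact Integrable.of_finite

/-- D1: the upper bound for the soft k-SAT law. -/
theorem sat_upper (k : ℕ) (hk : 2 ≤ k) (α : ℝ) (hα : 0 < α) {ρ : ℝ} (hρ0 : 0 < ρ) (hρ1 : ρ < 1)
    (N : ℕ) (hN : 0 < N) (r : ℕ) (m : Fin r → ℝ)
    (X : (Fin (r + 1) → unitInterval) → ℝ) (hm : AdmissibleExponents m) (hX : Measurable X) :
    pressure k α (satLaw k ρ) (Measure.dirac 0) N ≤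
      trialFunctional k α (satLaw k ρ) (Measure.dirac 0) r m X :=
  upper_L k hk α hα (satLaw k ρ) (Measure.dirac 0) (satLaw_integrable k ρ)
    (integrable_dirac' (by fun_prop) (by simp)) (local_ineq_nn hk _ (satLaw_fac k hρ0 hρ1))
    N hN r m X hm hX

end

end Crest.Agent.R153
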