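import Crest.Agent.R141.PDefs
import Crest.Agent.R153.VT4
import Crest.Prelude.Def_RandomSAT

/-!
Row 153 (S0218), Mézard-Parisi side.  The 3-SAT interaction law at weight `ρ` per violated clause.
`satF ρ : FinLaw 3`: sign pattern `J : Fin 3 → Bool` uniform, `e^θ(s) = ρ` if `s = J`, `1` otherwise,
no field.
-/

set_option autoImplicit false

open Finset MeasureTheory ProbabilityTheory
open Crest.ProbabilityR.Diluted Crest.ProbabilityR.RandomSAT
open scoped NNReal ENNReal

namespace Crest.Agent.R153

/-- Exchange of a coordinate with the last one. -/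
def swS (ℓ : Fin 3) : (Fin 3 → Bool) ≃ (Fin 3 → Bool) :=
  (Equiv.swap ℓ (Crest.Agent.R141.P.lastF ℓ)).arrowCongr (Equiv.refl Bool)

/-- The 3-SAT law. -/
noncomputable def satF (ρ : ℝ) : Crest.Agent.R141.P.FinLaw 3 where
  I := Fin 3 → Bool
  finI := inferInstance
  decI := inferInstance
  a := fun _ => 1 / 8
  a_sum := by
    simp only [Finset.sum_const, Finset.card_univ, Fintype.card_pi, Fintype.card_bool,
      Finset.prod_const, Fintype.card_fin]
    norm_num
  th := satInter 3 ρ
  sw := swS
  sw_a := fun _ _ => rfl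
  sw_th := by
    intro ℓ J s
    unfold satInter swS
    have : (s = ((Equiv.swap ℓ (Crest.Agent.R141.P.lastF ℓ)).arrowCongr (Equiv.refl Bool)) J) ↔
        ((fun k => s (Equiv.swap ℓ (Crest.Agent.R141.P.lastF ℓ) k)) = J) := by
      constructor
      · intro h
        subst h
        funext k
        simp [Equiv.arrowCongr]
      · intro h
        subst h
        funext k
        simp [Equiv.arrowCongr]
    simp only [this]
  β := Measure.dirac 0
  probβ := inferInstance
  h := fun _ => 0
  B := |Real.log ρ|
  th_le := by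
    intro J s
    unfold satInter
    split_ifs
    · exact le_rfl
    · simp
  h_le := by
    intro j
    simp

theorem satF_nu (ρ : ℝ) : (satF ρ).nu = Measure.dirac 0 := by
  unfold Crest.Agent.R141.P.FinLaw.nu satF
  simp

theorem satF_mu (ρ : ℝ) : (satF ρ).mu = satLaw 3 ρ := by
  have h0 : (satF ρ).mu = ∑ J : Fin 3 → Bool, (((1 / 8 : ℝ≥0)) : ℝ≥0∞) •
      Measure.dirac (satInter 3 ρ J) := rfl
  rw [h0]
  ext s hs
  unfold satLaw unif
  rw [Measure.map_apply (measurable_satInter 3 ρ) hs, Measure.smul_apply,
    Measure.count, Measure.sum_fintype]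
  simp only [Measure.coe_finsetSum, Finset.sum_apply, Measure.smul_apply, smul_eq_mul,
    Measure.dirac_apply' _ hs, Measure.dirac_apply' _ (measurable_satInter 3 ρ hs)]
  rw [← Finset.mul_sum]
  congr 1
  simp only [Fintype.card_pi, Fintype.card_bool, Finset.prod_const, Finset.card_univ,
    Fintype.card_fin]
  rw [ENNReal.coe_div (by norm_num)]
  norm_num

/-- The pressure of the 3-SAT model with replacement, clause density `q`. -/
noncomputable def pS (q ρ : ℝ) (N : ℕ) : ℝ :=
  pressure 3 q (satLaw 3 ρ) (Measure.dirac 0) N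

/-- The trial functional of the 3-SAT model. -/
noncomputable def tS (q ρ : ℝ) (r : ℕ) (m : Fin r → ℝ) (X : (Fin (r + 1) → unitInterval) → ℝ) :
    ℝ :=
  trialFunctional 3 q (satLaw 3 ρ) (Measure.dirac 0) r m X

end Crest.Agent.R153
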