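import Crest.Agent.R153.MEnergy
import Crest.Agent.R153.MDefs
import Crest.Agent.R141.SAFin

/-!
Row 153.  D4/D5: Poisson tails.
-/

set_option autoImplicit false

open Finset MeasureTheory
open Crest.ProbabilityR.Diluted Crest.ProbabilityR.RandomSAT

namespace Crest.Agent.R153

theorem pois_nonneg {lam : ℝ} (h : 0 ≤ lam) (n : ℕ) : 0 ≤ poissonWeight lam n := by
  unfold poissonWeight
  positivity

theorem pois_hasSum_var {lam : ℝ} (h : 0 ≤ lam) :
    HasSum (fun n : ℕ => poissonWeight lam n * ((n : ℝ) - lam) ^ 2) lam := by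
  have h1 := Crest.Agent.R141.P.SAFin.pw_var (Real.toNNReal lam) lam
  unfold Crest.Agent.R141.P.SAFin.pw at h1
  rw [Real.coe_toNNReal lam h, sub_self] at h1
  simpa [poissonWeight] using h1

/-- Poisson concentration: `P(M < a N) → 0` for `a < q`. -/
theorem pois_low {a q : ℝ} (ha : 0 ≤ a) (haq : a < q) :
    Filter.Tendsto (fun N : ℕ => ∑ M ∈ range (⌊a * N⌋₊), poissonWeight (q * N) M)
      Filter.atTop (nhds 0) := by
  have hq : 0 < q := ha.trans_lt haq
  have hqa : 0 < q - a := sub_pos.2 haq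
  have hlim : Filter.Tendsto (fun N : ℕ => q / (q - a) ^ 2 / (N : ℝ)) Filter.atTop (nhds 0) :=
    tendsto_const_div_atTop_nhds_zero_nat _
  refine tendsto_of_tendsto_of_tendsto_of_le_of_le' tendsto_const_nhds hlim ?_ ?_
  · exact Filter.Eventually.of_forall fun N =>
      Finset.sum_nonneg fun M _ => pois_nonneg (by positivity) M
  · filter_upwards [Filter.eventually_ge_atTop 1] with N hN
    have hN0 : (0 : ℝ) < N := by exact_mod_cast hN
    have hr : 0 ≤ q * N := by positivity
    have hv := pois_hasSum_var hr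
    have h1 : ∀ M ∈ range (⌊a * N⌋₊), poissonWeight (q * N) M ≤
        (((q - a) * N) ^ 2)⁻¹ * (poissonWeight (q * N) M * ((M : ℝ) - q * N) ^ 2) := by
      intro M hM
      have hM' : (M : ℝ) ≤ a * N := by
        have h2 : M ≤ ⌊a * N⌋₊ := (Finset.mem_range.1 hM).le
        have h3 : (M : ℝ) ≤ ⌊a * N⌋₊ := by exact_mod_cast h2
        exact h3.trans (Nat.floor_le (by positivity))
      have h4 : ((q - a) * N) ^ 2 ≤ ((M : ℝ) - q * N) ^ 2 := by
        have h5 : (q - a) * N ≤ q * N - M := by linarith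
        have h6 : 0 ≤ (q - a) * N := by positivity
        nlinarith
      have h7 : 0 < ((q - a) * N) ^ 2 := by positivity
      rw [inv_mul_eq_div, le_div_iff₀ h7]
      exact mul_le_mul_of_nonneg_left h4 (pois_nonneg hr M)
    calc ∑ M ∈ range (⌊a * N⌋₊), poissonWeight (q * N) M
        ≤ ∑ M ∈ range (⌊a * N⌋₊),
          (((q - a) * N) ^ 2)⁻¹ * (poissonWeight (q * N) M * ((M : ℝ) - q * N) ^ 2) :=
          Finset.sum_le_sum h1
      _ = (((q - a) * N) ^ 2)⁻¹ * ∑ M ∈ range (⌊a * N⌋₊),
          (poissonWeight (q * N) M * ((M : ℝ) - q * N) ^ 2) := by rw [Finset.mul_sum]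
      _ ≤ (((q - a) * N) ^ 2)⁻¹ * (q * N) := by
          refine mul_le_mul_of_nonneg_left ?_ (by positivity)
          have h8 := hv.summable.sum_le_tsum (range (⌊a * N⌋₊))
            (fun M _ => mul_nonneg (pois_nonneg hr M) (sq_nonneg _))
          rwa [hv.tsum_eq] at h8
      _ = q / (q - a) ^ 2 / (N : ℝ) := by field_simp

/-- Poisson concentration: `E[M; M > a N]/N → 0` for `a > q`. -/
theorem pois_high {a q : ℝ} (hq : 0 ≤ q) (haq : q < a) :
    Filter.Tendsto (fun N : ℕ => (1 / (N : ℝ)) *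
      ∑' M : ℕ, (if ⌊a * N⌋₊ < M then poissonWeight (q * N) M * M else 0))
      Filter.atTop (nhds 0) := by
  have hqa : 0 < a - q := sub_pos.2 haq
  have ha : 0 < a := hq.trans_lt haq
  have hlim : Filter.Tendsto
      (fun N : ℕ => (q / (a - q) + q ^ 2 / (a - q) ^ 2) / (N : ℝ)) Filter.atTop (nhds 0) :=
    tendsto_const_div_atTop_nhds_zero_nat _
  refine tendsto_of_tendsto_of_tendsto_of_le_of_le' tendsto_const_nhds hlim ?_ ?_
  · refine Filter.Eventually.of_forall fun N => mul_nonneg (by positivity) (tsum_nonneg fun M => ?_)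
    split_ifs
    · exact mul_nonneg (pois_nonneg (by positivity) M) (Nat.cast_nonneg M)
    · exact le_rfl
  · filter_upwards [Filter.eventually_ge_atTop 1] with N hN
    have hN0 : (0 : ℝ) < N := by exact_mod_cast hN
    have hr : 0 ≤ q * N := by positivity
    have hv := pois_hasSum_var hr
    have h1 : ∀ M : ℕ, (if ⌊a * N⌋₊ < M then poissonWeight (q * N) M * M else 0) ≤
        (((a - q) * N)⁻¹ + q * N * (((a - q) * N) ^ 2)⁻¹) *
          (poissonWeight (q * N) M * ((M : ℝ) - q * N) ^ 2) := by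
      intro M
      split_ifs with hM
      · have hM' : a * N < M := (Nat.floor_lt (by positivity)).1 hM
        set d : ℝ := (a - q) * N with hd
        have hd0 : 0 < d := by positivity
        have h2 : d ≤ (M : ℝ) - q * N := by rw [hd]; linarith
        set x : ℝ := (M : ℝ) - q * N with hx
        have h3 : (M : ℝ) = x + q * N := by rw [hx]; ring
        have h4 : x ≤ d⁻¹ * x ^ 2 := by
          rw [inv_mul_eq_div, le_div_iff₀ hd0]
          nlinarith
        have h5 : 1 ≤ (d ^ 2)⁻¹ * x ^ 2 := by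
          rw [inv_mul_eq_div, le_div_iff₀ (by positivity), one_mul]
          nlinarith
        have h6 : (M : ℝ) ≤ (d⁻¹ + q * N * (d ^ 2)⁻¹) * x ^ 2 := by
          have h7 := mul_le_mul_of_nonneg_left h5 hr
          calc (M : ℝ) = x + q * N * 1 := by rw [h3]; ring
            _ ≤ d⁻¹ * x ^ 2 + q * N * ((d ^ 2)⁻¹ * x ^ 2) := add_le_add h4 h7
            _ = _ := by ring
        calc poissonWeight (q * N) M * M ≤
            poissonWeight (q * N) M * ((d⁻¹ + q * N * (d ^ 2)⁻¹) * x ^ 2) :=
              mul_le_mul_of_nonneg_left h6 (pois_nonneg hr M)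
          _ = _ := by ring
      · have h8 := pois_nonneg hr M
        positivity
    have h0 : ∀ M : ℕ, 0 ≤ (if ⌊a * N⌋₊ < M then poissonWeight (q * N) M * M else 0) := by
      intro M
      split_ifs
      · exact mul_nonneg (pois_nonneg hr M) (Nat.cast_nonneg M)
      · exact le_rfl
    have hv' := hv.mul_left (((a - q) * N)⁻¹ + q * N * (((a - q) * N) ^ 2)⁻¹)
    have hs : Summable (fun M : ℕ =>
        (if ⌊a * N⌋₊ < M then poissonWeight (q * N) M * M else 0)) :=
      Summable.of_nonneg_of_le h0 h1 hv'.summable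
    have h9 := hs.tsum_le_tsum h1 hv'.summable
    rw [hv'.tsum_eq] at h9
    calc (1 / (N : ℝ)) * ∑' M : ℕ, (if ⌊a * N⌋₊ < M then poissonWeight (q * N) M * M else 0)
        ≤ (1 / (N : ℝ)) * ((((a - q) * N)⁻¹ + q * N * (((a - q) * N) ^ 2)⁻¹) * (q * N)) :=
          mul_le_mul_of_nonneg_left h9 (by positivity)
      _ = (q / (a - q) + q ^ 2 / (a - q) ^ 2) / (N : ℝ) := by
          field_simp

end Crest.Agent.R153
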