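import Crest.Agent.R153.MPress1
import Crest.Agent.R153.MPress2

/-!
Row 153.  D4/D5: sign of the pressure.
-/

set_option autoImplicit false

open Finset MeasureTheory
open Crest.ProbabilityR.Diluted Crest.ProbabilityR.RandomSAT

namespace Crest.Agent.R153

namespace MP3

open Crest.Agent.R141.P

theorem uR_nonneg (n m : ℕ) : 0 ≤ uR n m := by
  unfold uR
  positivity

theorem uR_summable (lam : ℝ) (hlam : 0 ≤ lam) (N : ℕ) :
    Summable fun M : ℕ => poissonWeight lam M * uR N M :=
  Crest.Agent.R141.U.pois_summable lam hlam (fun M => uR N M) 1 fun n => by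
    rw [abs_of_nonneg (uR_nonneg N n)]
    have := uR_le N n
    linarith

theorem one_sub_ge {x : ℝ} (h0 : 0 ≤ x) (h1 : x ≤ 1 / 2) : Real.exp (-(2 * x)) ≤ 1 - x := by
  have h2 : 1 + 2 * x ≤ Real.exp (2 * x) := by
    have := Real.add_one_le_exp (2 * x); linarith
  have h3 : 0 < 1 + 2 * x := by linarith
  rw [Real.exp_neg]
  calc (Real.exp (2 * x))⁻¹ ≤ (1 + 2 * x)⁻¹ := inv_anti₀ h3 h2
    _ ≤ 1 - x := by
      rw [inv_le_iff_one_le_mul₀ h3]
      nlinarith

theorem tsum_ge (lam : ℝ) (hlam : 0 ≤ lam) (N m : ℕ) (hN : 1 ≤ N) :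
    uR N m * (1 - ∑ M ∈ range m, poissonWeight lam M) ≤
      ∑' M : ℕ, poissonWeight lam M * uR N M := by
  have hs := uR_summable lam hlam N
  have hw := poissonWeight_nonneg' lam hlam
  have h1 := hs.sum_add_tsum_nat_add m
  have hw1 := (Crest.Agent.R141.U.pois_hasSum lam).summable
  have h2 := hw1.sum_add_tsum_nat_add m
  rw [Crest.Agent.R141.U.pois_mass] at h2
  have h3 : 0 ≤ ∑ i ∈ range m, poissonWeight lam i * uR N i :=
    Finset.sum_nonneg fun i _ => mul_nonneg (hw i) (uR_nonneg N i)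
  have h4 : (∑' i, poissonWeight lam (i + m)) * uR N m ≤
      ∑' i, poissonWeight lam (i + m) * uR N (i + m) := by
    rw [← tsum_mul_right]
    refine Summable.tsum_le_tsum (fun i => ?_) (((summable_nat_add_iff m).2 hw1).mul_right _)
      ((summable_nat_add_iff m).2 hs)
    exact mul_le_mul_of_nonneg_left (uR_mono N m (i + m) hN (Nat.le_add_left _ _)) (hw _)
  have h5 : ∑' i, poissonWeight lam (i + m) = 1 - ∑ M ∈ range m, poissonWeight lam M := by
    linarith
  rw [h5] at h4
  linarith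

end MP3

open MP3 Crest.Agent.R141.P in
/-- D4: a positive energy density makes the pressure negative for small `ρ`. -/
theorem pS_neg {a q c : ℝ} (ha : 0 ≤ a) (haq : a < q) (hc : 0 < c)
    (h : ∀ᶠ n : ℕ in Filter.atTop, c * n ≤ EU 3 n ⌊a * n⌋₊) :
    ∃ R : ℕ, 2 ≤ R ∧ ∃ c' : ℝ, 0 < c' ∧ ∀ᶠ N : ℕ in Filter.atTop, pS q (1 / R) N ≤ - c' := by
  set κ : ℝ := Real.exp (-(6 * a)) * c / 2 with hκ
  have hκ0 : 0 < κ := by positivity
  set R : ℕ := ⌈Real.exp ((Real.log 2 + 1) / κ)⌉₊ + 2 with hR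
  have hR2 : 2 ≤ R := by omega
  have hRr : Real.exp ((Real.log 2 + 1) / κ) ≤ (R : ℝ) := by
    have := Nat.le_ceil (Real.exp ((Real.log 2 + 1) / κ))
    rw [hR]; push_cast; linarith
  have hRpos : (0 : ℝ) < R := by
    have : 0 < R := by omega
    exact_mod_cast this
  have hR1 : (1 : ℝ) < R := by
    have : 1 < R := by omega
    exact_mod_cast this
  have hlogR : (Real.log 2 + 1) / κ ≤ Real.log R := by
    rw [Real.le_log_iff_exp_le hRpos]; exact hRr
  refine ⟨R, hR2, 1, one_pos, ?_⟩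
  have hlow := (pois_low ha haq).eventually_lt_const (show (0 : ℝ) < 1 / 2 by norm_num)
  filter_upwards [h, hlow, Filter.eventually_ge_atTop 6] with N hN1 hN2 hN3
  have hNpos : (0 : ℝ) < N := by
    have : 0 < N := by omega
    exact_mod_cast this
  have hN6 : (6 : ℝ) ≤ N := by exact_mod_cast hN3
  have hρ : (0 : ℝ) < 1 / R := by positivity
  have hρ1 : (1 : ℝ) / R < 1 := by rw [div_lt_one hRpos]; exact hR1
  have hq0 : 0 ≤ q := by linarith
  have h1 := pS_le hρ hρ1 hq0 (N := N) (by omega)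
  have hlogabs : |Real.log (1 / R)| = Real.log R := by
    rw [one_div, Real.log_inv, abs_neg, abs_of_nonneg (Real.log_nonneg hR1.le)]
  rw [hlogabs] at h1
  set m : ℕ := ⌊a * N⌋₊ with hm
  have hma : (m : ℝ) ≤ a * N := Nat.floor_le (by positivity)
  have h2 := tsum_ge (q * N) (by positivity) N m (by omega)
  have h3 := EU_le_uR N m (by omega)
  have hx0 : (0 : ℝ) ≤ 3 / N := by positivity
  have hx1 : (3 : ℝ) / N ≤ 1 / 2 := by
    rw [div_le_div_iff₀ hNpos (by norm_num)]; linarith
  have h4 : Real.exp (-(6 * a)) ≤ (1 - 3 / (N : ℝ)) ^ m := by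
    calc Real.exp (-(6 * a)) ≤ Real.exp (-(2 * (3 / (N : ℝ)))) ^ m := by
          rw [← Real.exp_nat_mul]
          apply Real.exp_le_exp.2
          have : (m : ℝ) * (2 * (3 / N)) ≤ 6 * a := by
            rw [show (m : ℝ) * (2 * (3 / N)) = 6 * m / N by ring, div_le_iff₀ hNpos]
            linarith
          linarith
      _ ≤ (1 - 3 / (N : ℝ)) ^ m := by
          gcongr
          exact one_sub_ge hx0 hx1
  have h5 : Real.exp (-(6 * a)) * (c * N) ≤ uR N m := by
    refine le_trans ?_ h3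
    refine mul_le_mul h4 hN1 (by positivity) ?_
    apply pow_nonneg
    linarith
  have h6 : (1 : ℝ) / 2 ≤ 1 - ∑ M ∈ range m, poissonWeight (q * N) M := by linarith
  have h7 : κ * N ≤ ∑' M : ℕ, poissonWeight (q * N) M * uR N M := by
    refine le_trans ?_ h2
    calc κ * N = (Real.exp (-(6 * a)) * (c * N)) * (1 / 2) := by rw [hκ]; ring
      _ ≤ uR N m * (1 - ∑ M ∈ range m, poissonWeight (q * N) M) :=
        mul_le_mul h5 h6 (by norm_num) (uR_nonneg N m)
  have h8 : κ ≤ (1 / (N : ℝ)) * ∑' M : ℕ, poissonWeight (q * N) M * uR N M := by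
    rw [one_div, ← div_eq_inv_mul, le_div_iff₀ hNpos]
    exact h7
  have h9 : Real.log 2 + 1 ≤ Real.log R * κ := by
    rwa [div_le_iff₀ hκ0] at hlogR
  have h10 : Real.log R * κ ≤ Real.log R *
      ((1 / (N : ℝ)) * ∑' M : ℕ, poissonWeight (q * N) M * uR N M) :=
    mul_le_mul_of_nonneg_left h8 (Real.log_nonneg hR1.le)
  linarith

open MP3 Crest.Agent.R141.P in
/-- D5: below the threshold the pressure is asymptotically `≥ 0`. -/
theorem pS_nonneg {α q : ℝ} (hα : IsSharpThreshold (satProb 3) α) (hq : 0 ≤ q) (hqα : q < α)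
    {ρ : ℝ} (hρ : 0 < ρ) (hρ1 : ρ < 1) {ε : ℝ} (hε : 0 < ε) :
    ∀ᶠ N : ℕ in Filter.atTop, - ε ≤ pS q ρ N := by
  obtain ⟨a, ha1, ha2⟩ := exists_between hqα
  have ha0 : 0 ≤ a := by linarith
  have hsat := (hα a ha0).1 ha2
  have hhigh := pois_high hq ha1
  have hinv : Filter.Tendsto (fun N : ℕ => (3 : ℝ) / N) Filter.atTop (nhds 0) :=
    tendsto_const_div_atTop_nhds_zero_nat 3
  have hlim : Filter.Tendsto (fun N : ℕ => |Real.log ρ| * (q * ((1 - satProb 3 N ⌊a * N⌋₊) +
      (3 : ℝ) / N) + (1 / (N : ℝ)) *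
      ∑' M : ℕ, (if ⌊a * N⌋₊ < M then poissonWeight (q * N) M * M else 0))) Filter.atTop
      (nhds (|Real.log ρ| * (q * ((1 - 1) + 0) + 0))) :=
    (((((tendsto_const_nhds.sub hsat)).add hinv).const_mul q).add hhigh).const_mul _
  have hlim' := hlim.eventually_lt_const (show |Real.log ρ| * (q * ((1 - 1) + 0) + 0) < ε by
    simpa using hε)
  filter_upwards [hlim', Filter.eventually_ge_atTop 3] with N hN1 hN2
  have hNpos : (0 : ℝ) < N := by
    have : 0 < N := by omega
    exact_mod_cast this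
  have h1 := le_pS hρ hρ1 hq (N := N) (by omega)
  refine le_trans ?_ h1
  rw [neg_le_neg_iff]
  refine le_trans (mul_le_mul_of_nonneg_left ?_ (abs_nonneg _)) hN1.le
  set m : ℕ := ⌊a * N⌋₊ with hm
  set lam : ℝ := q * N with hlamdef
  have hlam : 0 ≤ lam := by positivity
  have hw := poissonWeight_nonneg' lam hlam
  set x : ℝ := (1 - satProb 3 N m) + (3 : ℝ) / N with hx
  have hmean_s : Summable fun M : ℕ => poissonWeight lam M * (M : ℝ) :=
    Crest.Agent.R141.U.pois_summable lam hlam (fun M => (M : ℝ)) 1 fun n => by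
      rw [abs_of_nonneg (Nat.cast_nonneg n)]; linarith
  have hhs : Summable fun M : ℕ => (if m < M then poissonWeight lam M * (M : ℝ) else 0) := by
    refine Summable.of_nonneg_of_le (fun M => ?_) (fun M => ?_) hmean_s
    · split_ifs
      · exact mul_nonneg (hw M) (Nat.cast_nonneg M)
      · exact le_rfl
    · split_ifs
      · exact le_rfl
      · exact mul_nonneg (hw M) (Nat.cast_nonneg M)
  have hsat1 : ∀ M, satProb 3 N M ≤ 1 := by
    intro M
    have h0 : satProb 3 N 0 = 1 := by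
      rw [satProb_eq]
      simp [ee, U_zero]
    rw [← h0]
    exact satProb_anti hN2 (Nat.zero_le M)
  have hx0 : 0 ≤ x := by
    have := hsat1 m
    have : (0 : ℝ) ≤ 3 / N := by positivity
    linarith
  have hpt : ∀ M : ℕ, poissonWeight lam M * uR N M ≤
      x * (poissonWeight lam M * (M : ℝ)) +
        (if m < M then poissonWeight lam M * (M : ℝ) else 0) := by
    intro M
    have hwM := hw M
    have hM0 : (0 : ℝ) ≤ (M : ℝ) := Nat.cast_nonneg M
    have hp : 0 ≤ poissonWeight lam M * (M : ℝ) := mul_nonneg hwM hM0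
    split_ifs with hmM
    · have h2 := mul_le_mul_of_nonneg_left (uR_le N M) hwM
      have h3 := mul_nonneg hx0 hp
      linarith
    · have hMm : M ≤ m := not_lt.1 hmM
      have h2 := uR_le_EU N M hN2
      have h3 := EU_le (j := 3) hN2 M
      have h4 := satProb_anti (j := 3) (n := N) hN2 hMm
      have h5 : uR N M ≤ x * M := by
        have : (M : ℝ) * (1 - satProb 3 N M) ≤ M * (1 - satProb 3 N m) :=
          mul_le_mul_of_nonneg_left (by linarith) hM0
        rw [hx]
        nlinarith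
      have h6 := mul_le_mul_of_nonneg_left h5 hwM
      calc poissonWeight lam M * uR N M ≤ poissonWeight lam M * (x * M) := h6
        _ = x * (poissonWeight lam M * (M : ℝ)) + 0 := by ring
  have hsum : ∑' M : ℕ, poissonWeight lam M * uR N M ≤
      x * lam + ∑' M : ℕ, (if m < M then poissonWeight lam M * (M : ℝ) else 0) := by
    calc ∑' M : ℕ, poissonWeight lam M * uR N M
        ≤ ∑' M : ℕ, (x * (poissonWeight lam M * (M : ℝ)) +
          (if m < M then poissonWeight lam M * (M : ℝ) else 0)) :=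
          Summable.tsum_le_tsum hpt (uR_summable lam hlam N) ((hmean_s.mul_left x).add hhs)
      _ = x * lam + _ := by
          rw [(hmean_s.mul_left x).tsum_add hhs, tsum_mul_left, Crest.Agent.R141.U.pois_mean lam hlam]
  calc (1 / (N : ℝ)) * ∑' M : ℕ, poissonWeight lam M * uR N M
      ≤ (1 / (N : ℝ)) * (x * lam +
        ∑' M : ℕ, (if m < M then poissonWeight lam M * (M : ℝ) else 0)) :=
        mul_le_mul_of_nonneg_left hsum (by positivity)
    _ = q * x + (1 / (N : ℝ)) *
        ∑' M : ℕ, (if m < M then poissonWeight lam M * (M : ℝ) else 0) := by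
        rw [hlamdef]
        field_simp

end Crest.Agent.R153
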