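import Crest.Agent.R153.MUpper
import Crest.Agent.R153.MPress
import Crest.Agent.R141.PM2
import Crest.Agent.R141.SAFin
import Crest.Agent.R141.Star
import Crest.Agent.R141.QC5

/-!
Row 153.  D6: the sign of the trial functional detects the threshold.
-/

set_option autoImplicit false

open Finset MeasureTheory
open Crest.ProbabilityR.Diluted Crest.ProbabilityR.RandomSAT

namespace Crest.Agent.R153

/-- If the pressure stays negative, some trial is negative. -/
theorem exists_trial_neg {q ρ : ℝ} (hq : 0 ≤ q) (c : ℝ) (hc : 0 < c)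
    (h : ∀ᶠ N : ℕ in Filter.atTop, pS q ρ N ≤ - c) :
    ∃ (r : ℕ) (m : Fin r → ℝ) (X : (Fin (r + 1) → unitInterval) → ℝ),
      AdmissibleExponents m ∧ Measurable X ∧ tS q ρ r m X < 0 := by
  by_contra hcon
  have hv : ∀ (r : ℕ) (m : Fin r → ℝ) (X : (Fin (r + 1) → unitInterval) → ℝ),
      AdmissibleExponents m → Measurable X →
        0 ≤ trialFunctional 3 q (satF ρ).mu (satF ρ).nu r m X := by
    intro r m X hm hX
    by_contra hlt
    rw [satF_mu, satF_nu] at hlt
    exact hcon ⟨r, m, X, hm, hX, not_le.mp hlt⟩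
  have h1 := Crest.Agent.R141.P.lower_fin Crest.Agent.R141.star Crest.Agent.R141.P.saStatement
    Crest.Agent.R141.compStatement (satF ρ) (by norm_num) hq 0 hv (c / 2) (by positivity)
  rw [satF_mu, satF_nu] at h1
  obtain ⟨N, h2, h3⟩ := (h.and h1).exists
  unfold pS at h2
  linarith

/-- A negative trial certifies `α ≤ q`. -/
theorem le_of_trial_neg {α q ρ : ℝ} (hα : IsSharpThreshold (satProb 3) α) (hq : 0 < q)
    (hρ : 0 < ρ) (hρ1 : ρ < 1) {r : ℕ} (m : Fin r → ℝ) (X : (Fin (r + 1) → unitInterval) → ℝ)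
    (hm : AdmissibleExponents m) (hX : Measurable X) (hneg : tS q ρ r m X < 0) : α ≤ q := by
  by_contra hlt
  have h1 := pS_nonneg hα hq.le (not_le.mp hlt) hρ hρ1 (ε := - tS q ρ r m X / 2) (by linarith)
  obtain ⟨N, h2, h3⟩ := (h1.and (Filter.eventually_ge_atTop 1)).exists
  have h4 := upper_sat hρ hρ1 hq h3 m X hm hX
  linarith

end Crest.Agent.R153
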