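import Crest.Agent.R153.MEnergy
import Crest.Agent.R153.MDefs
import Crest.Agent.R141.PP6

/-!
Row 153.  D4/D5: the pressure and the minimal energy.
`ρ^{U} ≤ Z ≤ 2^n ρ^{U}`, so
`-|log ρ| E[U]/N ≤ pS q ρ N ≤ log 2 - |log ρ| E[U]/N`, `M ~ Poisson(q N)` clauses.
-/

set_option autoImplicit false

open Finset MeasureTheory
open Crest.ProbabilityR.Diluted Crest.ProbabilityR.RandomSAT

namespace Crest.Agent.R153

theorem pi_dirac_zero (N : ℕ) : (Measure.pi fun _ : Fin N => (Measure.dirac (0 : ℝ))) =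
    Measure.dirac (fun _ => 0) := by
  refine Measure.pi_eq fun s hs => ?_
  rw [Measure.dirac_apply' _ (MeasurableSet.univ_pi hs)]
  by_cases h : ∀ i, (0 : ℝ) ∈ s i
  · rw [Set.indicator_of_mem (by simpa using h), Finset.prod_eq_one]
    · rfl
    · intro i _
      rw [Measure.dirac_apply' _ (hs i), Set.indicator_of_mem (h i)]
      rfl
  · push Not at h
    obtain ⟨i, hi⟩ := h
    rw [Set.indicator_of_notMem (by simpa using ⟨i, hi⟩), Finset.prod_eq_zero (mem_univ i)]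
    rw [Measure.dirac_apply' _ (hs i), Set.indicator_of_notMem hi]

/-- `log Z` of a list of clauses with replacement. -/
noncomputable def zF {N M : ℕ} (ρ : ℝ) (F : Fin M → RC N) : ℝ :=
  Real.log (∑ σ : Fin N → Bool, Real.exp (Real.log ρ * (((∑ i, vcR (F i)) σ : ℕ) : ℝ)))

theorem le_zF {N M : ℕ} {ρ : ℝ} (F : Fin M → RC N) :
    Real.log ρ * (U (∑ i, vcR (F i)) : ℝ) ≤ zF ρ F := by
  obtain ⟨s, hs⟩ := exists_U (∑ i, vcR (F i))
  unfold zF
  rw [Real.le_log_iff_exp_le (Finset.sum_pos (fun σ _ => Real.exp_pos _) ⟨s, mem_univ s⟩), ← hs]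
  exact Finset.single_le_sum
    (f := fun σ : Fin N → Bool => Real.exp (Real.log ρ * (((∑ i, vcR (F i)) σ : ℕ) : ℝ)))
    (fun σ _ => (Real.exp_pos _).le) (mem_univ s)

theorem zF_le {N M : ℕ} {ρ : ℝ} (hρ : 0 < ρ) (hρ1 : ρ < 1) (F : Fin M → RC N) :
    zF ρ F ≤ N * Real.log 2 + Real.log ρ * (U (∑ i, vcR (F i)) : ℝ) := by
  have hl : Real.log ρ ≤ 0 := (Real.log_neg hρ hρ1).le
  obtain ⟨s, -⟩ := exists_U (∑ i, vcR (F i))
  unfold zF
  have h1 : ∑ σ : Fin N → Bool, Real.exp (Real.log ρ * (((∑ i, vcR (F i)) σ : ℕ) : ℝ))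
      ≤ 2 ^ N * Real.exp (Real.log ρ * (U (∑ i, vcR (F i)) : ℝ)) := by
    have h2 : ∀ σ ∈ (univ : Finset (Fin N → Bool)),
        Real.exp (Real.log ρ * (((∑ i, vcR (F i)) σ : ℕ) : ℝ))
          ≤ Real.exp (Real.log ρ * (U (∑ i, vcR (F i)) : ℝ)) := by
      intro σ _
      refine Real.exp_le_exp.2 (mul_le_mul_of_nonpos_left ?_ hl)
      exact_mod_cast U_le _ σ
    refine (Finset.sum_le_card_nsmul _ _ _ h2).trans (le_of_eq ?_)
    rw [nsmul_eq_mul]
    simp
  refine (Real.log_le_log (Finset.sum_pos (fun σ _ => Real.exp_pos _) ⟨s, mem_univ s⟩) h1).trans ?_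
  rw [Real.log_mul (by positivity) (Real.exp_pos _).ne', Real.log_exp, Real.log_pow]

/-- interactions and index tuples as clauses -/
def eqRC (N M : ℕ) : ((Fin M → Fin 3 → Bool) × (Fin M → Fin 3 → Fin N)) ≃ (Fin M → RC N) where
  toFun p k := (p.2 k, fun ℓ => !(p.1 k ℓ))
  invFun F := (fun k ℓ => !((F k).2 ℓ), fun k => (F k).1)
  left_inv p := by
    ext <;> simp
  right_inv F := by
    funext k
    ext <;> simp

theorem logPartition_sat {N M : ℕ} (ρ : ℝ) (J : Fin M → Fin 3 → Bool)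
    (idx : Fin M → Fin 3 → Fin N) :
    logPartition N (fun i => satInter 3 ρ (J i)) idx (fun _ => 0) = zF ρ (eqRC N M (J, idx)) := by
  unfold logPartition zF
  congr 1
  refine Finset.sum_congr rfl fun σ _ => ?_
  congr 1
  simp only [zero_mul, Finset.sum_const_zero, add_zero, Finset.sum_apply, Nat.cast_sum,
    Finset.mul_sum]
  refine Finset.sum_congr rfl fun k _ => ?_
  unfold satInter vcR eqRC
  have h : ((fun ℓ => σ (idx k ℓ)) = J k) ↔ ∀ i, σ (idx k i) ≠ !(J k i) := by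
    rw [funext_iff]
    refine forall_congr' fun i => ?_
    cases σ (idx k i) <;> cases J k i <;> simp
  by_cases h1 : (fun ℓ => σ (idx k ℓ)) = J k
  · rw [if_pos h1]
    simp only [Equiv.coe_fn_mk]
    rw [if_pos (h.1 h1)]
    simp
  · rw [if_neg h1]
    simp only [Equiv.coe_fn_mk]
    rw [if_neg (fun h2 => h1 (h.2 h2))]
    simp

/-- average of `log Z` -/
noncomputable def zA (ρ : ℝ) (N M : ℕ) : ℝ :=
  (Fintype.card (Fin M → RC N) : ℝ)⁻¹ * ∑ F : Fin M → RC N, zF ρ F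

theorem measurable_logPartition0 {N M : ℕ} (idx : Fin M → Fin 3 → Fin N) :
    Measurable fun θs : Fin M → Inter 3 => logPartition N θs idx (fun _ => 0) := by
  unfold logPartition
  refine Real.measurable_log.comp ?_
  refine Finset.measurable_sum _ fun σ _ => ?_
  refine Real.measurable_exp.comp ?_
  refine Measurable.add ?_ measurable_const
  refine Finset.measurable_sum _ fun k _ => ?_
  exact (measurable_pi_apply (fun ℓ => σ (idx k ℓ))).comp (measurable_pi_apply k)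

theorem term_eq (ρ : ℝ) (N M : ℕ) :
    (∫ θs, ∫ hs, ((Fintype.card (Fin M → Fin 3 → Fin N) : ℝ)⁻¹ *
        ∑ idx : Fin M → Fin 3 → Fin N, logPartition N θs idx hs)
      ∂(Measure.pi fun _ : Fin N => Measure.dirac 0)
      ∂(Measure.pi fun _ : Fin M => satLaw 3 ρ)) = zA ρ N M := by
  have h1 : ∀ θs : Fin M → Inter 3, (∫ hs, ((Fintype.card (Fin M → Fin 3 → Fin N) : ℝ)⁻¹ *
        ∑ idx : Fin M → Fin 3 → Fin N, logPartition N θs idx hs)
      ∂(Measure.pi fun _ : Fin N => Measure.dirac (0 : ℝ)))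
      = (Fintype.card (Fin M → Fin 3 → Fin N) : ℝ)⁻¹ *
        ∑ idx : Fin M → Fin 3 → Fin N, logPartition N θs idx (fun _ => 0) := by
    intro θs
    rw [pi_dirac_zero, integral_dirac]
  simp only [h1]
  rw [integral_pi_satLaw]
  · simp only [logPartition_sat]
    unfold zA
    rw [← Finset.mul_sum, ← mul_assoc, ← Fintype.sum_prod_type',
      ← (eqRC N M).sum_comp, ← Fintype.card_congr (eqRC N M), Fintype.card_prod]
    push_cast
    rw [mul_inv]
  · refine Measurable.const_mul ?_ _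
    exact Finset.measurable_sum _ fun idx _ => measurable_logPartition0 idx

theorem pS_eq (q ρ : ℝ) (N : ℕ) :
    pS q ρ N = (1 / (N : ℝ)) * ∑' M : ℕ, poissonWeight (q * N) M * zA ρ N M := by
  unfold pS pressure
  congr 1
  refine tsum_congr fun M => ?_
  rw [term_eq]

theorem zA_le {ρ : ℝ} (hρ : 0 < ρ) (hρ1 : ρ < 1) {N : ℕ} (hN : 1 ≤ N) (M : ℕ) :
    zA ρ N M ≤ N * Real.log 2 + Real.log ρ * uR N M := by
  have hne : Nonempty (Fin N) := ⟨⟨0, hN⟩⟩
  have hc : (Fintype.card (Fin M → RC N) : ℝ) ≠ 0 := by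
    exact_mod_cast Fintype.card_ne_zero
  unfold zA uR
  have h1 : ∑ F : Fin M → RC N, zF ρ F ≤ ∑ F : Fin M → RC N,
      (N * Real.log 2 + Real.log ρ * (U (∑ i, vcR (F i)) : ℝ)) :=
    Finset.sum_le_sum fun F _ => zF_le hρ hρ1 F
  rw [Finset.sum_add_distrib, ← Finset.mul_sum, Finset.sum_const, card_univ, nsmul_eq_mul] at h1
  have h2 := mul_le_mul_of_nonneg_left h1
    (show (0 : ℝ) ≤ (Fintype.card (Fin M → RC N) : ℝ)⁻¹ by positivity)
  refine h2.trans (le_of_eq ?_)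
  rw [← Finset.mul_sum]
  field_simp

theorem le_zA {ρ : ℝ} (N M : ℕ) :
    Real.log ρ * uR N M ≤ zA ρ N M := by
  unfold zA uR
  have h1 : ∑ F : Fin M → RC N, (Real.log ρ * (U (∑ i, vcR (F i)) : ℝ)) ≤
      ∑ F : Fin M → RC N, zF ρ F :=
    Finset.sum_le_sum fun F _ => le_zF F
  rw [← Finset.mul_sum] at h1
  have h2 := mul_le_mul_of_nonneg_left h1
    (show (0 : ℝ) ≤ (Fintype.card (Fin M → RC N) : ℝ)⁻¹ by positivity)
  refine (le_of_eq ?_).trans h2
  ring

theorem uR_nonneg (N M : ℕ) : 0 ≤ uR N M := by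
  unfold uR
  positivity

theorem summable_uR {lam : ℝ} (hl : 0 ≤ lam) (N : ℕ) :
    Summable fun M : ℕ => poissonWeight lam M * uR N M := by
  refine Crest.Agent.R141.U.pois_summable lam hl _ 1 fun M => ?_
  rw [abs_of_nonneg (uR_nonneg N M)]
  have := uR_le N M
  linarith

theorem summable_zA {lam : ℝ} (hl : 0 ≤ lam) {ρ : ℝ} (hρ : 0 < ρ) (hρ1 : ρ < 1) {N : ℕ}
    (hN : 1 ≤ N) : Summable fun M : ℕ => poissonWeight lam M * zA ρ N M := by
  have hlr : Real.log ρ ≤ 0 := (Real.log_neg hρ hρ1).le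
  have hl2 : 0 ≤ Real.log 2 := Real.log_nonneg (by norm_num)
  refine Crest.Agent.R141.U.pois_summable lam hl _ (N * Real.log 2 + |Real.log ρ|) fun M => ?_
  have h1 := zA_le hρ hρ1 hN M
  have h2 := le_zA (ρ := ρ) N M
  have h3 := uR_nonneg N M
  have h4 := uR_le N M
  have hM : (0 : ℝ) ≤ M := Nat.cast_nonneg M
  have h5 : 0 ≤ (N : ℝ) * Real.log 2 := by positivity
  rw [abs_of_nonpos hlr]
  have h6 : -Real.log ρ * uR N M ≤ -Real.log ρ * M :=
    mul_le_mul_of_nonneg_left h4 (by linarith)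
  have h7 : 0 ≤ -Real.log ρ * uR N M := mul_nonneg (by linarith) h3
  have h8 : 0 ≤ (N : ℝ) * Real.log 2 * M := by positivity
  rw [abs_le]
  constructor
  · nlinarith
  · nlinarith

theorem summable_pw (lam : ℝ) : Summable fun M : ℕ => poissonWeight lam M :=
  (Crest.Agent.R141.U.pois_hasSum lam).summable

theorem pS_le {ρ : ℝ} (hρ : 0 < ρ) (hρ1 : ρ < 1) {q : ℝ} (hq : 0 ≤ q) {N : ℕ} (hN : 1 ≤ N) :
    pS q ρ N ≤ Real.log 2 - |Real.log ρ| * ((1 / (N : ℝ)) *
      ∑' M : ℕ, poissonWeight (q * N) M * uR N M) := by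
  have hN0 : (0 : ℝ) < N := by exact_mod_cast hN
  have hl : 0 ≤ q * N := by positivity
  have hlr : Real.log ρ ≤ 0 := (Real.log_neg hρ hρ1).le
  rw [pS_eq, abs_of_nonpos hlr]
  have h1 : ∑' M : ℕ, poissonWeight (q * N) M * zA ρ N M ≤
      ∑' M : ℕ, (poissonWeight (q * N) M * (N * Real.log 2) +
        Real.log ρ * (poissonWeight (q * N) M * uR N M)) := by
    refine (summable_zA hl hρ hρ1 hN).tsum_le_tsum (fun M => ?_)
      (((summable_pw _).mul_right _).add ((summable_uR hl N).mul_left _))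
    have h2 := mul_le_mul_of_nonneg_left (zA_le hρ hρ1 hN M)
      (Crest.Agent.R141.P.poissonWeight_nonneg' (q * N) hl M)
    refine h2.trans (le_of_eq ?_)
    ring
  rw [Summable.tsum_add ((summable_pw _).mul_right _) ((summable_uR hl N).mul_left _),
    tsum_mul_right, tsum_mul_left, Crest.Agent.R141.U.pois_mass] at h1
  have h3 := mul_le_mul_of_nonneg_left h1 (show (0 : ℝ) ≤ 1 / (N : ℝ) by positivity)
  refine h3.trans (le_of_eq ?_)
  field_simp
  ring

theorem le_pS {ρ : ℝ} (hρ : 0 < ρ) (hρ1 : ρ < 1) {q : ℝ} (hq : 0 ≤ q) {N : ℕ} (hN : 1 ≤ N) :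
    - (|Real.log ρ| * ((1 / (N : ℝ)) * ∑' M : ℕ, poissonWeight (q * N) M * uR N M)) ≤
      pS q ρ N := by
  have hN0 : (0 : ℝ) < N := by exact_mod_cast hN
  have hl : 0 ≤ q * N := by positivity
  have hlr : Real.log ρ ≤ 0 := (Real.log_neg hρ hρ1).le
  rw [pS_eq, abs_of_nonpos hlr]
  have h1 : ∑' M : ℕ, (Real.log ρ * (poissonWeight (q * N) M * uR N M)) ≤
      ∑' M : ℕ, poissonWeight (q * N) M * zA ρ N M := by
    refine ((summable_uR hl N).mul_left _).tsum_le_tsum (fun M => ?_) (summable_zA hl hρ hρ1 hN)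
    have h2 := mul_le_mul_of_nonneg_left (le_zA (ρ := ρ) N M)
      (Crest.Agent.R141.P.poissonWeight_nonneg' (q * N) hl M)
    refine (le_of_eq ?_).trans h2
    ring
  rw [tsum_mul_left] at h1
  have h3 := mul_le_mul_of_nonneg_left h1 (show (0 : ℝ) ≤ 1 / (N : ℝ) by positivity)
  refine (le_of_eq ?_).trans h3
  ring

end Crest.Agent.R153
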