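import Crest.Agent.R153.MDefs

/-!
Row 153.  D1: Franz-Leone upper bound for the 3-SAT law.
-/

set_option autoImplicit false

open Finset MeasureTheory
open Crest.ProbabilityR.Diluted

namespace Crest.Agent.R153

theorem upper_sat {ρ : ℝ} (hρ : 0 < ρ) (hρ1 : ρ < 1) {q : ℝ} (hq : 0 < q) {N : ℕ} (hN : 1 ≤ N)
    {r : ℕ} (m : Fin r → ℝ) (X : (Fin (r + 1) → unitInterval) → ℝ)
    (hm : AdmissibleExponents m) (hX : Measurable X) :
    pS q ρ N ≤ tS q ρ r m X := by
  unfold pS tS
  apply sat_upper <;> first | assumption | norm_num | omega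

end Crest.Agent.R153
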