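import Crest.Agent.R153.MMain
import Crest.Agent.R153.Energy
import Crest.Agent.R153.LTest
import Crest.Agent.R153.EComp

/-!
Row 153.  Assembly of S0218 from the left certificates, the right certificates and the
Mézard-Parisi side.
-/

set_option autoImplicit false

open Finset MeasureTheory
open Crest.ProbabilityR.Diluted Crest.ProbabilityR.RandomSAT

namespace Crest.Agent.R153

/-- The right certificates (helper69). -/
def RightTest : Prop :=
  ∃ testU : ℕ → ℕ → ℕ → Bool,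
    Primrec (fun y : ℕ × ℕ × ℕ => testU y.1 y.2.1 y.2.2) ∧
    (∀ a b c : ℕ, 0 < a → 0 < b → testU a b c = true →
      ∃ (ρ : ℝ) (r : ℕ) (m : Fin r → ℝ) (X : (Fin (r + 1) → unitInterval) → ℝ),
        0 < ρ ∧ ρ < 1 ∧ AdmissibleExponents m ∧ Measurable X ∧
        trialFunctional 3 ((a : ℝ) / b) (satLaw 3 ρ) (Measure.dirac 0) r m X < 0) ∧
    (∀ a b R : ℕ, 0 < a → 0 < b → 2 ≤ R → ∀ (r : ℕ) (m : Fin r → ℝ)
      (X : (Fin (r + 1) → unitInterval) → ℝ), AdmissibleExponents m → Measurable X →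
      trialFunctional 3 ((a : ℝ) / b) (satLaw 3 (1 / R)) (Measure.dirac 0) r m X < 0 →
      ∃ c, testU a b c = true)

theorem s0218_of_right (hright : RightTest) (α : ℝ) (hα : IsSharpThreshold (satProb 3) α) :
    ∃ f : ℕ → ℕ, Computable f ∧ ∀ r : ℕ, |(f r : ℝ) / 2 ^ r - α| ≤ 1 / 2 ^ r := by
  obtain ⟨testU, hU, sU, cU⟩ := hright
  obtain ⟨testL', hL, sL, cL⟩ := left_test hα
  have h0 : 0 ≤ α := threshold_nonneg hα
  refine EC.computable_of_tests α h0 testL' testU hL hU ?_ cL ?_ ?_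
  · intro a b c hb h
    exact (sL a b c hb h).le
  · intro a b c ha hb h
    obtain ⟨ρ, r, m, X, hρ, hρ1, hm, hX, hneg⟩ := sU a b c ha hb h
    have hq : 0 < (a : ℝ) / b := by positivity
    exact le_of_trial_neg hα hq hρ hρ1 m X hm hX hneg
  · intro a b ha hb h
    obtain ⟨q', hq1, hq2⟩ := exists_between h
    obtain ⟨δ, hδ, hev⟩ := energy_pos (k := 2) le_rfl hα hq1
    obtain ⟨R, hR, c', hc', hneg⟩ := pS_neg (h0.trans hq1.le) hq2 hδ hev
    have hq : 0 < (a : ℝ) / b := by positivity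
    obtain ⟨r, m, X, hm, hX, ht⟩ := exists_trial_neg hq.le c' hc' hneg
    exact cU a b R ha hb hR r m X hm hX ht

end Crest.Agent.R153
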