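import Crest.Agent.R153.DTest5

/-!
Row 153 (S0218): the primitive recursive test for densities above the threshold, in the form used by
the assembly.
-/

set_option autoImplicit false

open Finset MeasureTheory
open Crest.ProbabilityR.Diluted

namespace Crest.Agent.R153

theorem right_test : ∃ testU : ℕ → ℕ → ℕ → Bool,
    Primrec (fun y : ℕ × ℕ × ℕ => testU y.1 y.2.1 y.2.2) ∧
    (∀ a b c, 0 < a → 0 < b → testU a b c = true →
      ∃ (ρ : ℝ) (r : ℕ) (m : Fin r → ℝ) (X : (Fin (r + 1) → unitInterval) → ℝ),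
        0 < ρ ∧ ρ < 1 ∧ AdmissibleExponents m ∧ Measurable X ∧
        trialFunctional 3 ((a : ℝ) / b) (satLaw 3 ρ) (Measure.dirac 0) r m X < 0) ∧
    (∀ a b R : ℕ, 0 < a → 0 < b → 2 ≤ R →
      ∀ (r : ℕ) (m : Fin r → ℝ) (X : (Fin (r + 1) → unitInterval) → ℝ),
        AdmissibleExponents m → Measurable X →
        trialFunctional 3 ((a : ℝ) / b) (satLaw 3 (1 / (R : ℝ))) (Measure.dirac 0) r m X < 0 →
        ∃ c, testU a b c = true) := by
  refine ⟨testU, ?_, ?_, ?_⟩
  · have h : Primrec fun y : ℕ × ℕ × ℕ => (((y.1, y.2.1), y.2.2) : (ℕ × ℕ) × ℕ) :=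
      Primrec.pair (Primrec.pair Primrec.fst (Primrec.fst.comp Primrec.snd))
        (Primrec.snd.comp Primrec.snd)
    exact testU_primrec.comp h
  · intro a b c _ _ h
    obtain ⟨R, hR, r, m, X, hm, hX, hneg⟩ := testU_sound h
    have hRR : (2 : ℝ) ≤ R := by exact_mod_cast hR
    refine ⟨1 / (R : ℝ), r, m, X, by positivity, ?_, hm, hX, hneg⟩
    rw [div_lt_one (by linarith)]
    linarith
  · intro a b R ha hb hR r m X hm hX hneg
    exact testU_complete ha hb hR hm hX hneg

end Crest.Agent.R153
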